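import Vale.Agent.P078.Expected.Norm.Space
import Vale.Agent.P078.Expected.Norm.Tools

/-!
Completeness of `A`: a bounded measurable function on the point space agrees almost everywhere with
a continuous one.
-/

noncomputable section

open scoped InnerProductSpace
open Filter Topology MeasureTheory

namespace Vale.Agent.P078.Expected

universe u

variable {K : Type u} [NormedAddCommGroup K] [InnerProductSpace ℂ K] [CompleteSpace K]

namespace Ctx

variable (C : Ctx K)

theorem integral_sq_sub_le {a b c : C.Spec → ℝ} (ha : Integrable (fun χ => (a χ - c χ) ^ 2) C.meas)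
    (hb : Integrable (fun χ => (b χ - c χ) ^ 2) C.meas) :
    ∫ χ, (a χ - b χ) ^ 2 ∂C.meas ≤
      2 * ∫ χ, (a χ - c χ) ^ 2 ∂C.meas + 2 * ∫ χ, (b χ - c χ) ^ 2 ∂C.meas := by
  rw [← integral_const_mul, ← integral_const_mul, ← integral_add (ha.const_mul 2) (hb.const_mul 2)]
  refine integral_mono_of_nonneg (ae_of_all _ fun χ => sq_nonneg _)
    ((ha.const_mul 2).add (hb.const_mul 2)) (ae_of_all _ fun χ => ?_)
  dsimp only
  nlinarith [sq_nonneg ((a χ - c χ) + (b χ - c χ))]

theorem norm_op_apply_sq (h : C(C.Spec, ℝ)) :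
    ‖C.op h C.Ω‖ ^ 2 = ∫ χ, h χ ^ 2 ∂C.meas := by
  have h1 := C.intA_sqf (C.op_mem h)
  rw [← C.integral_meas] at h1
  refine h1.symm.trans (integral_congr_ae (ae_of_all _ fun χ => ?_))
  dsimp only
  rw [C.sqf_apply, C.fn_op, Complex.normSq_ofReal, sq]

/-- A bounded sequence of symbols which is Cauchy at the vector converges to a symbol. -/
theorem exists_symbol_limit (h : ℕ → C(C.Spec, ℝ)) (hb : ∀ n, ‖h n‖ ≤ 1)
    (hc : CauchySeq fun n => C.op (h n) C.Ω) :
    ∃ g : C(C.Spec, ℝ), Tendsto (fun n => ∫ χ, (h n χ - g χ) ^ 2 ∂C.meas) atTop (𝓝 0) := by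
  have hle : ∀ n v, ‖C.op (h n) v‖ ≤ ‖v‖ := fun n v => by
    refine ((C.op (h n)).le_opNorm v).trans ?_
    rw [C.norm_op]
    exact mul_le_of_le_one_left (norm_nonneg _) (hb n)
  have hcv : ∀ v, ∃ l, Tendsto (fun n => C.op (h n) v) atTop (𝓝 l) := by
    intro v
    refine cauchySeq_tendsto_of_complete (Metric.cauchySeq_iff.2 fun η hη => ?_)
    obtain ⟨_, ⟨T, hT, rfl⟩, hd⟩ :=
      Metric.mem_closure_iff.1 (C.dense_comm v) (η / 3) (by linarith)
    rw [dist_eq_norm] at hd
    have hTc : CauchySeq fun n => C.op (h n) (T C.Ω) := by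
      have e : (fun n => C.op (h n) (T C.Ω)) = fun n => T (C.op (h n) C.Ω) := by
        funext n
        exact congrArg (fun S : K →L[ℂ] K => S C.Ω) (hT _ (C.op_mem_M (h n)))
      rw [e]
      exact T.uniformContinuous.comp_cauchySeq hc
    obtain ⟨N, hN⟩ := Metric.cauchySeq_iff.1 hTc (η / 3) (by linarith)
    refine ⟨N, fun a ha b hb' => ?_⟩
    have h3 := hN a ha b hb'
    have h1 : ∀ k, dist (C.op (h k) v) (C.op (h k) (T C.Ω)) < η / 3 := fun k => by
      rw [dist_eq_norm, ← map_sub]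
      exact (hle k _).trans_lt hd
    have h4 := dist_triangle4 (C.op (h a) v) (C.op (h a) (T C.Ω)) (C.op (h b) (T C.Ω))
      (C.op (h b) v)
    have h2 := h1 b
    rw [dist_comm] at h2
    linarith [h1 a]
  choose l hl using hcv
  let T0 : K →ₗ[ℂ] K :=
    { toFun := l
      map_add' := fun v w => tendsto_nhds_unique (hl (v + w))
        (((hl v).add (hl w)).congr fun s => (map_add _ v w).symm)
      map_smul' := fun c v => tendsto_nhds_unique (hl (c • v))
        (((hl v).const_smul c).congr fun s => (map_smul _ c v).symm) }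
  have hbd : ∀ v, ‖T0 v‖ ≤ 1 * ‖v‖ := fun v => by
    rw [one_mul]
    exact le_of_tendsto (hl v).norm (Eventually.of_forall fun n => hle n v)
  set T := T0.mkContinuous 1 hbd
  have hcomm : ∀ S : K →L[ℂ] K, (∀ n, C.op (h n) * S = S * C.op (h n)) → T * S = S * T := by
    intro S hS
    ext v
    refine tendsto_nhds_unique (hl (S v)) (((S.continuous.tendsto _).comp (hl v)).congr fun n => ?_)
    exact congrArg (fun R : K →L[ℂ] K => R v) (hS n).symm
  have hTM : T ∈ C.M := C.mem_M_of_comm fun s hs => hcomm s fun n => hs _ (C.op_mem_M (h n))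
  have hTA : T ∈ C.A := (C.hA T hTM).2 fun a ha => hcomm a fun n => C.A_comm (C.op_mem (h n)) ha
  refine ⟨C.re T, ?_⟩
  have hlim : Tendsto (fun n => ‖(C.op (h n) - T) C.Ω‖ ^ 2) atTop (𝓝 0) := by
    have h2 : Tendsto (fun n => ‖C.op (h n) C.Ω - l C.Ω‖ ^ 2) atTop (𝓝 0) := by
      simpa using (tendsto_iff_norm_sub_tendsto_zero.1 (hl C.Ω)).pow 2
    exact h2
  refine squeeze_zero (fun n => integral_nonneg fun χ => sq_nonneg _) (fun n => ?_) hlim
  have hm : C.op (h n) - T ∈ C.A := sub_mem (C.op_mem _) hTA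
  have h1 := C.intA_sqf hm
  rw [← C.integral_meas] at h1
  refine le_trans (integral_mono_of_nonneg (ae_of_all _ fun χ => sq_nonneg _) (C.integrable_symbol _)
    (ae_of_all _ fun χ => ?_)) h1.le
  have hfn : C.fn (C.op (h n) - T) + C.fn T = C.fn (C.op (h n)) := by
    rw [← C.fn_add hm hTA, sub_add_cancel]
  have e := congrArg (fun F : C(C.Spec, ℂ) => (F χ).re) hfn
  simp only [ContinuousMap.add_apply, Complex.add_re, C.fn_op, Complex.ofReal_re] at e
  dsimp only
  rw [C.sqf_apply, Complex.normSq_apply, show C.re T χ = (C.fn T χ).re from rfl,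
    show h n χ - (C.fn T χ).re = (C.fn (C.op (h n) - T) χ).re by linarith]
  nlinarith [sq_nonneg ((C.fn (C.op (h n) - T) χ).im)]

/-- A measurable function with values in `[0, 1]` agrees almost everywhere with a symbol. -/
theorem exists_symbol_ae_eq {f : C.Spec → ℝ} (hf : Measurable f) (h0 : ∀ χ, 0 ≤ f χ)
    (h1 : ∀ χ, f χ ≤ 1) : ∃ g : C(C.Spec, ℝ), ∀ᵐ χ ∂C.meas, g χ = f χ := by
  have hfi : Integrable f C.meas := Integrable.of_bound hf.aestronglyMeasurable 1
    (ae_of_all _ fun χ => by rw [Real.norm_eq_abs, abs_of_nonneg (h0 χ)]; exact h1 χ)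
  have happ : ∀ n : ℕ, ∃ p : C(C.Spec, ℝ), ‖p‖ ≤ 1 ∧
      ∫ χ, (p χ - f χ) ^ 2 ∂C.meas ≤ 1 / (n + 1) := by
    intro n
    obtain ⟨p, -, hpi, hpc, hpint⟩ :=
      hfi.exists_hasCompactSupport_integral_sub_le (show (0 : ℝ) < 1 / (n + 1) by positivity)
    set P : C(C.Spec, ℝ) := ⟨fun χ => max 0 (min (p χ) 1),
      continuous_const.max (hpc.min continuous_const)⟩
    refine ⟨P, ?_, ?_⟩
    · refine (ContinuousMap.norm_le _ zero_le_one).2 fun χ => ?_
      rw [Real.norm_eq_abs, abs_of_nonneg (show (0 : ℝ) ≤ P χ from le_max_left _ _)]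
      exact max_le zero_le_one (min_le_right _ _)
    · refine le_trans (integral_mono_of_nonneg (ae_of_all _ fun χ => sq_nonneg _)
        (hfi.sub hpint).norm (ae_of_all _ fun χ => ?_)) hpi
      change (max 0 (min (p χ) 1) - f χ) ^ 2 ≤ ‖f χ - p χ‖
      rw [Real.norm_eq_abs]
      have a1 := abs_max_sub_max_le_abs (min (p χ) 1) (f χ) 0
      have a2 := abs_min_sub_min_le_max (p χ) 1 (f χ) 1
      rw [min_eq_left (h1 χ), sub_self, abs_zero, max_eq_left (abs_nonneg _)] at a2
      rw [max_comm (min (p χ) 1), max_comm (f χ), max_eq_right (h0 χ)] at a1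
      have a3 : |max 0 (min (p χ) 1) - f χ| ≤ 1 := by
        rw [abs_le]
        constructor
        · linarith [le_max_left (0 : ℝ) (min (p χ) 1), h1 χ]
        · linarith [max_le (zero_le_one (α := ℝ)) (min_le_right (p χ) 1), h0 χ]
      rw [← sq_abs, abs_sub_comm (f χ)]
      nlinarith [abs_nonneg (max 0 (min (p χ) 1) - f χ)]
  choose p hp hpe using happ
  have hsq : ∀ n, Integrable (fun χ => (p n χ - f χ) ^ 2) C.meas := fun n =>
    Integrable.of_bound (((p n).continuous.measurable.sub hf).pow_const 2).aestronglyMeasurable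
      ((2 : ℝ) ^ 2) (ae_of_all _ fun χ => by
        have b := (p n).norm_coe_le_norm χ
        rw [Real.norm_eq_abs] at b
        rw [Real.norm_eq_abs, abs_of_nonneg (sq_nonneg _), ← sq_abs]
        refine pow_le_pow_left₀ (abs_nonneg _) ?_ 2
        refine (abs_sub _ _).trans ?_
        rw [abs_of_nonneg (h0 χ)]
        linarith [hp n, h1 χ])
  have hc : CauchySeq fun n => C.op (p n) C.Ω := by
    refine Metric.cauchySeq_iff.2 fun η hη => ?_
    obtain ⟨N, hN⟩ := exists_nat_gt (4 / η ^ 2)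
    refine ⟨N, fun a ha b hb => ?_⟩
    rw [dist_eq_norm, ← pow_lt_pow_iff_left₀ (norm_nonneg _) hη.le two_ne_zero, ← sub_apply,
      ← map_sub, C.norm_op_apply_sq]
    have hsmall : ∀ k, N ≤ k → ∫ χ, (p k χ - f χ) ^ 2 ∂C.meas < η ^ 2 / 4 := fun k hk => by
      refine (hpe k).trans_lt ?_
      rw [div_lt_iff₀ (by positivity)]
      rw [div_lt_iff₀ (by positivity)] at hN
      have : (N : ℝ) ≤ k := Nat.cast_le.2 hk
      nlinarith [sq_pos_of_pos hη]
    have h3 := C.integral_sq_sub_le (hsq a) (hsq b)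
    simp only [ContinuousMap.sub_apply]
    linarith [hsmall a ha, hsmall b hb]
  obtain ⟨g, hg⟩ := C.exists_symbol_limit p hp hc
  refine ⟨g, ?_⟩
  have hfm : Measurable fun χ => (g χ - f χ) ^ 2 := (g.continuous.measurable.sub hf).pow_const 2
  have hfg : Integrable (fun χ => (g χ - f χ) ^ 2) C.meas :=
    Integrable.of_bound hfm.aestronglyMeasurable ((‖g‖ + 1) ^ 2) (ae_of_all _ fun χ => by
      have b := g.norm_coe_le_norm χ
      rw [Real.norm_eq_abs] at b
      rw [Real.norm_eq_abs, abs_of_nonneg (sq_nonneg _), ← sq_abs]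
      refine pow_le_pow_left₀ (abs_nonneg _) ?_ 2
      refine (abs_sub _ _).trans ?_
      rw [abs_of_nonneg (h0 χ)]
      linarith [h1 χ])
  have hgi : ∀ n, Integrable (fun χ => (p n χ - g χ) ^ 2) C.meas := fun n =>
    (C.integrable_symbol ((p n - g) ^ 2)).congr (ae_of_all _ fun χ => rfl)
  have hz : ∫ χ, (g χ - f χ) ^ 2 ∂C.meas ≤ 0 := by
    have hlim : Tendsto (fun n : ℕ => 2 * ∫ χ, (p n χ - g χ) ^ 2 ∂C.meas + 2 * (1 / ((n : ℝ) + 1)))
        atTop (𝓝 0) := by
      simpa using (hg.const_mul 2).add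
        ((tendsto_one_div_add_atTop_nhds_zero_nat (𝕜 := ℝ)).const_mul 2)
    refine ge_of_tendsto hlim (Eventually.of_forall fun n => ?_)
    have hg' : ∫ χ, (g χ - p n χ) ^ 2 ∂C.meas = ∫ χ, (p n χ - g χ) ^ 2 ∂C.meas :=
      integral_congr_ae (ae_of_all _ fun χ => sub_sq_comm _ _)
    have h3 := C.integral_sq_sub_le (a := fun χ => g χ) (b := f) (c := fun χ => p n χ)
      ((hgi n).congr (ae_of_all _ fun χ => (sub_sq_comm _ _).symm))
      ((hsq n).congr (ae_of_all _ fun χ => sub_sq_comm _ _))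
    have hf' : ∫ χ, (f χ - p n χ) ^ 2 ∂C.meas = ∫ χ, (p n χ - f χ) ^ 2 ∂C.meas :=
      integral_congr_ae (ae_of_all _ fun χ => sub_sq_comm _ _)
    linarith [hpe n]
  have h2 := (integral_eq_zero_iff_of_nonneg (fun χ => sq_nonneg _) hfg).1
    (le_antisymm hz (integral_nonneg fun χ => sq_nonneg _))
  filter_upwards [h2] with χ hχ
  exact sub_eq_zero.1 (pow_eq_zero_iff two_ne_zero |>.1 hχ)

end Ctx

end Vale.Agent.P078.Expected
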