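import Vale.Agent.P078.Expected.Norm.Skew
import Vale.Agent.P078.Expected.Norm.Borel
import Vale.Agent.P078.Expected.Leverage.Main

/-!
The leverage bound inside an inclusion with expectation, read on the skew product.
-/

noncomputable section

open scoped ENNReal lp
open Filter Topology MeasureTheory

namespace Vale.Agent.P078.Expected

universe u

variable {K : Type u} [NormedAddCommGroup K] [InnerProductSpace ℂ K] [CompleteSpace K]

namespace LossData

variable {C : Ctx K} {r : ℕ} (D : LossData C r)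

/-- An operator on symbols and one on square summable functions with the same finite matrix. -/
def Rep (T : C.Op) (T' : Leverage.H2 (Y C) →L[ℝ] Leverage.H2 (Y C)) : Prop :=
  ∃ (n : ℕ) (f : Fin n → C(C.Spec, ℝ)) (w : Fin n → List D.Gen),
    (∀ g, T g = ∑ i, f i * C.img (D.wop (w i)) g) ∧
    ∀ v x, x.1 ∉ D.bad → (T' v : ∀ _, ℝ) x = ∑ i,
      (C.src (D.wop (w i))).indicator (fun χ => f i χ * (v : ∀ _, ℝ) (D.lift (w i) x)) x.1

theorem Rep.mk' {T : C.Op} {T' : Leverage.H2 (Y C) →L[ℝ] Leverage.H2 (Y C)} {ι : Type}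
    [Fintype ι] (f : ι → C(C.Spec, ℝ)) (w : ι → List D.Gen)
    (h1 : ∀ g, T g = ∑ i, f i * C.img (D.wop (w i)) g)
    (h2 : ∀ v x, x.1 ∉ D.bad → (T' v : ∀ _, ℝ) x = ∑ i,
      (C.src (D.wop (w i))).indicator (fun χ => f i χ * (v : ∀ _, ℝ) (D.lift (w i) x)) x.1) :
    D.Rep T T' :=
  ⟨Fintype.card ι, fun k => f ((Fintype.equivFin ι).symm k),
    fun k => w ((Fintype.equivFin ι).symm k),
    fun g => (h1 g).trans
      ((Fintype.equivFin ι).symm.sum_comp fun i => f i * C.img (D.wop (w i)) g).symm,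
    fun v x hx => (h2 v x hx).trans ((Fintype.equivFin ι).symm.sum_comp fun i =>
      (C.src (D.wop (w i))).indicator (fun χ => f i χ * (v : ∀ _, ℝ) (D.lift (w i) x)) x.1).symm⟩

theorem lift_nil (x : Y C) : D.lift [] x = x := Prod.ext (C.pt_one x.1) (add_zero x.2)

theorem rep_of_mul {T : C.Op} {T' : Leverage.H2 (Y C) →L[ℝ] Leverage.H2 (Y C)}
    (a : C(C.Spec, ℝ)) (h1 : ∀ g, T g = a * g)
    (h2 : ∀ v x, (T' v : ∀ _, ℝ) x = a x.1 * (v : ∀ _, ℝ) x) : D.Rep T T' := by
  refine Rep.mk' D (ι := Unit) (fun _ => a) (fun _ => []) (fun g => ?_) (fun v x _ => ?_)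
  · rw [Fintype.sum_unique, h1]
    change a * g = a * C.img 1 g
    rw [C.img_one]
  · rw [Fintype.sum_unique, h2,
      Set.indicator_of_mem (show x.1 ∈ C.src (D.wop []) from C.mem_src_one x.1), D.lift_nil]

theorem rep_one : D.Rep 1 1 :=
  D.rep_of_mul 1 (fun g => (one_mul g).symm) fun _ _ => (one_mul _).symm

theorem Rep.add {S T : C.Op} {S' T' : Leverage.H2 (Y C) →L[ℝ] Leverage.H2 (Y C)}
    (hS : D.Rep S S') (hT : D.Rep T T') : D.Rep (S + T) (S' + T') := by
  obtain ⟨n, f, w, h1, h2⟩ := hS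
  obtain ⟨m, g, v, h3, h4⟩ := hT
  refine ⟨n + m, Fin.append f g, Fin.append w v, fun p => ?_, fun p x hx => ?_⟩
  · simp [h1, h3, Fin.sum_univ_add]
  · simp [h2 p x hx, h4 p x hx, Fin.sum_univ_add]

theorem Rep.smul (c : ℝ) {T : C.Op} {T' : Leverage.H2 (Y C) →L[ℝ] Leverage.H2 (Y C)}
    (hT : D.Rep T T') : D.Rep (c • T) (c • T') := by
  obtain ⟨n, f, w, h1, h2⟩ := hT
  refine ⟨n, fun i => c • f i, w, fun p => ?_, fun p x hx => ?_⟩
  · simp [h1, Finset.smul_sum]
  · rw [smul_apply, lp.coeFn_smul, Pi.smul_apply, smul_eq_mul, h2 p x hx, Finset.mul_sum]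
    refine Finset.sum_congr rfl fun i _ => ?_
    by_cases h : x.1 ∈ C.src (D.wop (w i)) <;> simp [h, mul_assoc]

theorem Rep.sub {S T : C.Op} {S' T' : Leverage.H2 (Y C) →L[ℝ] Leverage.H2 (Y C)}
    (hS : D.Rep S S') (hT : D.Rep T T') : D.Rep (S - T) (S' - T') := by
  have h := Rep.add D hS (Rep.smul D (-1) hT)
  rwa [show (-1 : ℝ) • T = -T from neg_one_smul ℝ T, show (-1 : ℝ) • T' = -T' from neg_one_smul ℝ T',
    ← sub_eq_add_neg, ← sub_eq_add_neg] at h

theorem Rep.mul {S T : C.Op} {S' T' : Leverage.H2 (Y C) →L[ℝ] Leverage.H2 (Y C)}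
    (hS : D.Rep S S') (hT : D.Rep T T') : D.Rep (S * T) (S' * T') := by
  obtain ⟨n, f, w, h1, h2⟩ := hS
  obtain ⟨m, g, v, h3, h4⟩ := hT
  refine Rep.mk' D (ι := Fin n × Fin m) (fun k => f k.1 * C.img (D.wop (w k.1)) (g k.2))
    (fun k => w k.1 ++ v k.2) (fun p => ?_) (fun p x hx => ?_)
  · change S (T p) = _
    rw [h1, Fintype.sum_prod_type]
    refine Finset.sum_congr rfl fun i _ => ?_
    have hadd : C.img (D.wop (w i)) (∑ k, g k * C.img (D.wop (v k)) p) =
        ∑ k, C.img (D.wop (w i)) (g k * C.img (D.wop (v k)) p) :=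
      map_sum (AddMonoidHom.mk' (C.img (D.wop (w i))) (C.img_add (D.wop_mem (w i))))
        (fun k => g k * C.img (D.wop (v k)) p) Finset.univ
    rw [h3, hadd, Finset.mul_sum]
    refine Finset.sum_congr rfl fun k _ => ?_
    rw [C.img_mul (D.wop_mem _), C.img_img (D.wop_mem _) (D.wop_mem _), ← D.wop_append, mul_assoc]
  · change (S' (T' p) : ∀ _, ℝ) x = _
    rw [h2 _ x hx, Fintype.sum_prod_type]
    refine Finset.sum_congr rfl fun i _ => ?_
    by_cases h : x.1 ∈ C.src (D.wop (w i))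
    · rw [Set.indicator_of_mem h, h4 p (D.lift (w i) x) (D.pt_not_mem_bad h hx), Finset.mul_sum]
      refine Finset.sum_congr rfl fun k _ => ?_
      dsimp only
      by_cases h' : x.1 ∈ C.src (D.wop (w i ++ v k))
      · rw [Set.indicator_of_mem h', ContinuousMap.mul_apply, C.img_apply (D.wop_mem _) h,
          D.lift_append h', Set.indicator_of_mem (show (D.lift (w i) x).1 ∈ C.src (D.wop (v k)) from
            (D.mem_src_append.1 h').2), mul_assoc]
        rfl
      · rw [Set.indicator_of_notMem h',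
          Set.indicator_of_notMem (show (D.lift (w i) x).1 ∉ C.src (D.wop (v k)) from
            fun hc => h' (D.mem_src_append.2 ⟨h, hc⟩)), mul_zero]
    · rw [Set.indicator_of_notMem h]
      exact (Finset.sum_eq_zero fun k _ => Set.indicator_of_notMem
        (fun hc => h (D.mem_src_append.1 hc).1) _).symm

theorem Rep.sum {ι : Type*} (s : Finset ι) {T : ι → C.Op}
    {T' : ι → Leverage.H2 (Y C) →L[ℝ] Leverage.H2 (Y C)} (h : ∀ i ∈ s, D.Rep (T i) (T' i)) :
    D.Rep (∑ i ∈ s, T i) (∑ i ∈ s, T' i) := by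
  classical
  induction s using Finset.induction_on with
  | empty => exact ⟨0, Fin.elim0, Fin.elim0, fun g => by simp, fun v x _ => by simp⟩
  | @insert i s hi ih =>
    rw [Finset.sum_insert hi, Finset.sum_insert hi]
    exact Rep.add D (h i (Finset.mem_insert_self i s))
      (ih fun k hk => h k (Finset.mem_insert_of_mem hk))

theorem Rep.pow {T : C.Op} {T' : Leverage.H2 (Y C) →L[ℝ] Leverage.H2 (Y C)} (h : D.Rep T T') :
    ∀ k : ℕ, D.Rep (T ^ k) (T' ^ k)
  | 0 => by simpa using D.rep_one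
  | k + 1 => by rw [pow_succ, pow_succ]; exact Rep.mul D (Rep.pow h k) h

theorem Rep.neum {G : C.Op} {G' : Leverage.H2 (Y C) →L[ℝ] Leverage.H2 (Y C)} (h : D.Rep G G')
    (c : ℝ) (n : ℕ) : D.Rep (C.neum G c n) (Leverage.neum G' c n) :=
  Rep.smul D _ (Rep.sum D _ fun k _ => Rep.pow D (Rep.sub D D.rep_one (Rep.smul D _ h)) k)

open Classical in
/-- The points met by one row. -/
def rowSupp (j : Fin r) (x : Y C) : Finset (Y C) :=
  Finset.univ.image fun e => D.lift [D.cg j e] x

theorem kern_eq_zero (j : Fin r) (x : Y C) {y : Y C} (hy : y ∉ D.rowSupp j x) :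
    D.kern j x y = 0 := by
  classical
  unfold kern
  split_ifs
  · rfl
  · refine Finset.sum_eq_zero fun e _ => ?_
    rw [kterm, if_neg]
    rintro ⟨-, rfl⟩
    exact hy (Finset.mem_image_of_mem _ (Finset.mem_univ e))

theorem summable_kern (j : Fin r) (x : Y C) (v : Y C → ℝ) :
    Summable fun y => D.kern j x y * v y :=
  summable_of_ne_finset_zero (s := D.rowSupp j x) fun y hy => by
    rw [D.kern_eq_zero j x hy, zero_mul]

theorem tsum_kern (j : Fin r) {x : Y C} (hx : x.1 ∉ D.bad) (v : Y C → ℝ) :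
    ∑' y, D.kern j x y * v y = ∑ e, (C.src (D.wop [D.cg j e])).indicator
      (fun χ => D.cf j e χ * v (D.lift [D.cg j e] x)) x.1 := by
  classical
  rw [tsum_eq_sum (s := D.rowSupp j x) fun y hy => by rw [D.kern_eq_zero j x hy, zero_mul]]
  unfold kern
  simp only [if_neg hx, Finset.sum_mul]
  rw [Finset.sum_comm]
  refine Finset.sum_congr rfl fun e _ => ?_
  unfold kterm
  by_cases h : x.1 ∈ C.src (D.wop [D.cg j e])
  · simp only [h, true_and, ite_mul, zero_mul]
    rw [Finset.sum_ite_eq, if_pos (show D.lift [D.cg j e] x ∈ D.rowSupp j x from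
      Finset.mem_image_of_mem _ (Finset.mem_univ e)),
      Set.indicator_of_mem h]
  · simp [h]

theorem rep_L (j : Fin r) {T : Leverage.H2 (Y C) →L[ℝ] Leverage.H2 (Y C)}
    (hT : D.data.IsL j T) : D.Rep (D.L j) T := by
  refine Rep.mk' D (ι := Unit ⊕ (Fin (D.len j) × Bool))
    (Sum.elim (fun _ => D.a j) fun e => -D.cf j e)
    (Sum.elim (fun _ => []) fun e => [D.cg j e]) (fun g => ?_) (fun v x hx => ?_)
  · rw [L, sub_apply, C.mulC_apply, D.symOp_eq, Fintype.sum_sum_type,
      Fintype.sum_unique (f := fun a : Unit => _)]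
    simp only [Sum.elim_inl, Sum.elim_inr, neg_mul, Finset.sum_neg_distrib, ← sub_eq_add_neg]
    rw [show D.wop [] = 1 from rfl, C.img_one]
    simp only [D.wop_single]
  · rw [hT v x, show D.data.N j = D.kern j from rfl, D.tsum_kern j hx, Fintype.sum_sum_type,
      Fintype.sum_unique (f := fun a : Unit => _)]
    simp only [Sum.elim_inl, Sum.elim_inr]
    rw [Set.indicator_of_mem (show x.1 ∈ C.src (D.wop []) from C.mem_src_one x.1), D.lift_nil,
      sub_eq_add_neg, ← Finset.sum_neg_distrib]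
    refine congrArg (D.a j x.1 * _ + ·) (Finset.sum_congr rfl fun e _ => ?_)
    by_cases h : x.1 ∈ C.src (D.wop [D.cg j e]) <;> simp [h]

theorem rep_M (ω : Fin r → C(C.Spec, ℝ)) (j : Fin r)
    {T : Leverage.H2 (Y C) →L[ℝ] Leverage.H2 (Y C)}
    (hT : D.data.IsM (fun i x => ω i x.1) j T) : D.Rep (C.mulC (D.m ω j)) T :=
  D.rep_of_mul (D.m ω j) (fun g => C.mulC_apply _ g) fun v x => hT v x

open Classical in
theorem dirac_apply (x y : Y C) :
    (Leverage.dirac x : ∀ _, ℝ) y = if y = x then 1 else 0 := by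
  by_cases h : y = x
  · subst h
    rw [if_pos rfl]
    exact @lp.single_apply_self (Y C) (fun _ => ℝ) _ (fun a b => Classical.propDecidable (a = b)) _ _ _
  · rw [if_neg h]
    exact @lp.single_apply_ne (Y C) (fun _ => ℝ) _ (fun a b => Classical.propDecidable (a = b)) _ _ _ _ h

open scoped RealInnerProductSpace in
theorem inner_LM (ω : Fin r → C(C.Spec, ℝ)) (j : Fin r)
    {Ls Ms : Leverage.H2 (Y C) →L[ℝ] Leverage.H2 (Y C)}
    (hL : D.data.IsL j Ls) (hM : D.data.IsM (fun i y => ω i y.1) j Ms) (x : Y C)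
    (w : Leverage.H2 (Y C)) :
    ⟪(Ls * Ms) (Leverage.dirac x), w⟫ = ((Ms * Ls) w : ∀ _, ℝ) x := by
  classical
  have hM' : ∀ v y, (Ms v : ∀ _, ℝ) y = D.m ω j y.1 * (v : ∀ _, ℝ) y := fun v y => hM v y
  have hv : ∀ y, (((Ls * Ms) (Leverage.dirac x)) : ∀ _, ℝ) y =
      D.m ω j x.1 * ((if y = x then D.a j x.1 else 0) - D.kern j x y) := by
    intro y
    change (Ls (Ms (Leverage.dirac x)) : ∀ _, ℝ) y = _
    rw [hL]
    simp only [hM', dirac_apply, mul_ite, mul_one, mul_zero]
    rw [tsum_ite_eq, show D.data.N j y x = D.kern j x y from D.kern_symm j y x]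
    by_cases h : y = x
    · subst h
      rw [if_pos rfl, if_pos rfl]
      change D.a j y.1 * D.m ω j y.1 - _ = _
      ring
    · rw [if_neg h, if_neg h]
      ring
  rw [lp.inner_eq_tsum]
  change _ = (Ms (Ls w) : ∀ _, ℝ) x
  rw [hM', hL, show D.data.N j = D.kern j from rfl]
  have hs : Summable fun y => if y = x then D.a j x.1 * (w : ∀ _, ℝ) y else 0 :=
    summable_of_ne_finset_zero (s := {x}) fun y hy => if_neg (by simpa using hy)
  rw [show D.data.a j x = D.a j x.1 from rfl,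
    ← tsum_ite_eq x (fun y => D.a j x.1 * (w : ∀ _, ℝ) y),
    ← hs.tsum_sub (D.summable_kern j x w), ← tsum_mul_left]
  refine tsum_congr fun y => ?_
  rw [RCLike.inner_apply, conj_trivial, hv]
  by_cases h : y = x <;> simp [h] <;> ring

/-- Points are fixed with trivial cocycle. -/
theorem wkap_fix (w : List D.Gen) :
    ∀ᵐ χ ∂C.meas, χ ∈ C.fixSet (D.wop w) → D.wkap w χ = 0 := by
  have hF : MeasurableSet (C.fixSet (D.wop w)) :=
    (C.isClosed_fixSet (D.wop_mem w)).measurableSet
  have hint : ∀ E, MeasurableSet E → E ⊆ C.fixSet (D.wop w) →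
      ∫⁻ χ in E, ENNReal.ofReal (Real.exp (D.wkap w χ)) ∂D.baseMeas = D.baseMeas E := by
    intro E hE hsub
    have h := D.wkap_change w (G := E.indicator 1) (measurable_one.indicator hE)
    have hEr : E ⊆ C.src (D.wop (D.rev w)) := fun χ hχ => by
      have := D.pt_rev_mem (hsub hχ).1
      rwa [(hsub hχ).2] at this
    rw [setLIntegral_indicator hE, Set.inter_eq_left.2 hEr, Pi.one_def, setLIntegral_one] at h
    rw [← h, ← lintegral_indicator hE, ← lintegral_indicator (C.measurableSet_src (D.wop_mem w))]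
    congr 1
    funext χ
    by_cases hχ : χ ∈ E
    · simp [hχ, (hsub hχ).1, (hsub hχ).2]
    · rw [Set.indicator_of_notMem hχ]
      by_cases hs : χ ∈ C.src (D.wop w)
      · rw [Set.indicator_of_mem hs, Set.indicator_of_notMem, mul_zero]
        intro hp
        have h1 := D.pt_rev_pt hs
        have h2 := D.pt_rev_pt (hsub hp).1
        rw [(hsub hp).2] at h2
        rw [h2] at h1
        exact hχ (h1 ▸ hp)
      · rw [Set.indicator_of_notMem hs]
  have hne : ∀ E, D.baseMeas E ≠ ∞ := fun E => ne_top_of_le_ne_top (by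
    rw [← setLIntegral_one Set.univ, D.setLIntegral_baseMeas MeasurableSet.univ measurable_const,
      setLIntegral_univ]
    simp only [mul_one]
    exact (C.integrable_symbol D.lam).lintegral_lt_top.ne) (measure_mono (Set.subset_univ E))
  have hpos : ∀ E, MeasurableSet E → D.baseMeas E = 0 → C.meas E = 0 := by
    intro E _ h
    rw [baseMeas, withDensity_apply_eq_zero D.lam.continuous.measurable.ennreal_ofReal] at h
    refine measure_mono_null (fun χ hχ => ?_) h
    exact ⟨(ENNReal.ofReal_pos.2 (D.lam_pos χ)).ne', hχ⟩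
  have hk := D.measurable_wkap w
  have h1 : C.meas (C.fixSet (D.wop w) ∩ {χ | 0 < D.wkap w χ}) = 0 := by
    have hE := hF.inter (measurableSet_lt (measurable_const (a := (0 : ℝ))) hk)
    refine hpos _ hE (by_contra fun h => ?_)
    have := setLIntegral_strict_mono (f := fun _ => (1 : ℝ≥0∞)) hE h hk.exp.ennreal_ofReal
      (by rw [setLIntegral_one]; exact hne _) (ae_of_all _ fun χ hχ => by
        rw [← ENNReal.ofReal_one]
        exact (ENNReal.ofReal_lt_ofReal_iff (Real.exp_pos _)).2 (Real.one_lt_exp_iff.2 hχ.2))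
    rw [hint _ hE Set.inter_subset_left, setLIntegral_one] at this
    exact this.false
  have h2 : C.meas (C.fixSet (D.wop w) ∩ {χ | D.wkap w χ < 0}) = 0 := by
    have hE := hF.inter (measurableSet_lt hk (measurable_const (a := (0 : ℝ))))
    refine hpos _ hE (by_contra fun h => ?_)
    have := setLIntegral_strict_mono (g := fun _ => (1 : ℝ≥0∞)) hE h measurable_const
      (by rw [hint _ hE Set.inter_subset_left]; exact hne _) (ae_of_all _ fun χ hχ => by
        rw [← ENNReal.ofReal_one]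
        exact (ENNReal.ofReal_lt_ofReal_iff one_pos).2 (Real.exp_lt_one_iff.2 hχ.2))
    rw [hint _ hE Set.inter_subset_left, setLIntegral_one] at this
    exact this.false
  rw [ae_iff]
  refine measure_mono_null (fun χ hχ => ?_) (measure_union_null h1 h2)
  simp only [Set.mem_ofPred_eq, Classical.not_imp] at hχ
  rcases lt_or_gt_of_ne hχ.2 with h | h
  · exact Or.inr ⟨hχ.1, h⟩
  · exact Or.inl ⟨hχ.1, h⟩

/-- The limit of the sums over cells and the almost everywhere diagonal. -/
theorem exists_diag {T : C.Op} {T' : Leverage.H2 (Y C) →L[ℝ] Leverage.H2 (Y C)}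
    (h : D.Rep T T') (F : Ctx.Form C) (φ : C(C.Spec, ℝ))
    (hF : ∀ g k, F.B g k = C.intA (φ * (g * k))) :
    ∃ d : C.Spec → ℝ, Measurable d ∧ Integrable (fun χ => φ χ * d χ) C.meas ∧
      F.pair 1 T = ∫ χ, φ χ * d χ ∂C.meas ∧
      ∀ᵐ χ ∂C.meas, ∀ s : ℝ, (T' (Leverage.dirac (χ, s)) : ∀ _, ℝ) (χ, s) = d χ := by
  classical
  obtain ⟨n, f, w, h1, h2⟩ := h
  have hm : ∀ i, MeasurableSet (C.fixSet (D.wop (w i))) := fun i =>
    (C.isClosed_fixSet (D.wop_mem _)).measurableSet
  refine ⟨fun χ => ∑ i, (C.fixSet (D.wop (w i))).indicator (f i) χ,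
    Finset.measurable_sum _ fun i _ => (f i).continuous.measurable.indicator (hm i), ?_, ?_, ?_⟩
  · simp only [Finset.mul_sum]
    refine integrable_finsetSum _ fun i _ => ?_
    refine ((C.integrable_symbol (φ * f i)).indicator (hm i)).congr (ae_of_all _ fun χ => ?_)
    by_cases hc : χ ∈ C.fixSet (D.wop (w i)) <;> simp [hc]
  · have hlim : Tendsto (fun s => F.pairS s 1 T) atTop
        (𝓝 (∑ i, ∫ χ in C.fixSet (D.wop (w i)), (φ * f i) χ ∂C.meas)) := by
      refine (tendsto_finsetSum _ fun i _ => C.tendsto_movedIn (D.wop_mem (w i)) (φ * f i)).congr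
        fun s => ?_
      rw [Ctx.Form.pairS]
      simp only [hF, one_apply_eq_self, h1, Finset.mul_sum, C.intA_sum, Ctx.movedIn]
      rw [Finset.sum_comm]
      refine Finset.sum_congr rfl fun c _ => Finset.sum_congr rfl fun i _ => ?_
      congr 1
      ring
    rw [Ctx.Form.pair, hlim.limUnder_eq]
    simp only [Finset.mul_sum]
    rw [integral_finsetSum]
    · refine Finset.sum_congr rfl fun i _ => ?_
      rw [← integral_indicator (hm i)]
      refine integral_congr_ae (ae_of_all _ fun χ => ?_)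
      by_cases hc : χ ∈ C.fixSet (D.wop (w i)) <;> simp [hc]
    · intro i _
      refine ((C.integrable_symbol (φ * f i)).indicator (hm i)).congr (ae_of_all _ fun χ => ?_)
      by_cases hc : χ ∈ C.fixSet (D.wop (w i)) <;> simp [hc]
  · have hg : ∀ᵐ χ ∂C.meas, χ ∉ D.bad := by
      rw [ae_iff]
      simpa using D.meas_bad
    filter_upwards [hg, ae_all_iff.2 fun i => D.wkap_fix (w i)] with χ hχ hk s
    rw [h2 _ _ hχ]
    refine Finset.sum_congr rfl fun i _ => ?_
    by_cases hs : χ ∈ C.src (D.wop (w i))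
    · rw [Set.indicator_of_mem hs, dirac_apply]
      by_cases hc : χ ∈ C.fixSet (D.wop (w i))
      · rw [Set.indicator_of_mem hc, if_pos (Prod.ext hc.2 (by simp [lift, hk i hc])), mul_one]
      · rw [Set.indicator_of_notMem hc,
          if_neg fun e => hc ⟨hs, congrArg Prod.fst e⟩, mul_zero]
    · rw [Set.indicator_of_notMem hs, Set.indicator_of_notMem fun hc => hs hc.1]

theorem lintegral_window {A : Set ℝ} {F : C.Spec → ℝ≥0∞}
    (hF : Measurable F) {G : ℝ → ℝ≥0∞} (hG : Measurable G) :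
    ∫⁻ x in Prod.snd ⁻¹' A, F x.1 * G x.2 ∂D.skew =
      (∫⁻ χ, ENNReal.ofReal (D.lam χ) * F χ ∂C.meas) * ∫⁻ s in A, G s ∂expo := by
  rw [skew, show (Prod.snd ⁻¹' A : Set (Y C)) = Set.univ ×ˢ A by ext; simp,
    ← Measure.prod_restrict, Measure.restrict_univ,
    lintegral_prod_mul hF.aemeasurable hG.aemeasurable, D.lintegral_baseMeas hF]

theorem expo_Ioi : expo (Set.Ioi 0) = 1 := by
  rw [expo, withDensity_apply _ measurableSet_Ioi,
    ← ofReal_integral_eq_lintegral_ofReal (integrableOn_exp_neg_Ioi 0)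
      (ae_of_all _ fun s => (Real.exp_pos _).le), integral_exp_neg_Ioi_zero, ENNReal.ofReal_one]

theorem expo_Ioc : expo (Set.Ioc 0 (Real.log 2)) = ENNReal.ofReal (1 / 2) := by
  have hi : IntervalIntegrable (fun s : ℝ => Real.exp (-s)) volume 0 (Real.log 2) :=
    (Real.continuous_exp.comp continuous_neg).intervalIntegrable _ _
  rw [expo, withDensity_apply _ measurableSet_Ioc,
    ← ofReal_integral_eq_lintegral_ofReal hi.1 (ae_of_all _ fun s => (Real.exp_pos _).le),
    ← intervalIntegral.integral_of_le (Real.log_nonneg one_le_two),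
    intervalIntegral.integral_comp_neg, integral_exp, neg_zero, Real.exp_zero, Real.exp_neg,
    Real.exp_log two_pos]
  norm_num

end LossData

open scoped RealInnerProductSpace in
/-- The leverage of the colours, with the excess of some weight, is small. -/
theorem lossBound (C : Ctx K) : LossBound C := by
  intro r D hrz
  classical
  have hhigh : ({x | 1 < D.data.t x} : Set (LossData.Y C)) = Prod.snd ⁻¹' Set.Ioi 0 := by
    ext x
    exact Real.one_lt_exp_iff
  have hwin : D.data.window = (Prod.snd ⁻¹' Set.Ioc 0 (Real.log 2) : Set (LossData.Y C)) := by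
    ext x
    change (1 < Real.exp x.2 ∧ Real.exp x.2 ≤ 2) ↔ 0 < x.2 ∧ x.2 ≤ Real.log 2
    rw [Real.one_lt_exp_iff, Real.le_log_iff_exp_le two_pos]
  have hlam : ∫⁻ χ, ENNReal.ofReal (D.lam χ) ∂C.meas = ENNReal.ofReal (C.intA D.lam) := by
    rw [← C.integral_meas, ofReal_integral_eq_lintegral_ofReal (C.integrable_symbol _)
      (ae_of_all _ fun χ => (D.lam_pos χ).le)]
  have hmu : D.skew {x | 1 < D.data.t x} = ENNReal.ofReal (C.intA D.lam) := by
    rw [hhigh, ← setLIntegral_one]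
    have := D.lintegral_window (F := 1) measurable_one (G := 1) measurable_one (A := Set.Ioi 0)
    simp only [Pi.one_apply, mul_one, setLIntegral_one, LossData.expo_Ioi, hlam] at this
    simpa [setLIntegral_one] using this
  obtain ⟨ω0, hω0, hinv, key⟩ := Leverage.leverage D.data hrz
    (show D.skew {x | 1 < D.data.t x} ≠ ∞ by rw [hmu]; exact ENNReal.ofReal_ne_top)
  have hbase : ∀ j (x : LossData.Y C), ω0 j x = ω0 j (x.1, 0) := by
    intro j x
    have h := hinv _ (Real.exp_pos x.2) _ (D.isScale_shiftBy x.2) j (x.1, 0)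
    rw [show LossData.shiftBy C x.2 (x.1, 0) = x from Prod.ext rfl (zero_add x.2)] at h
    exact h
  have hrange : ∀ j χ, D.R j χ + D.ζ ≤ ω0 j (χ, 0) ∧ ω0 j (χ, 0) ≤ 1 := fun j χ =>
    hω0.2 j (χ, 0)
  choose g hg using fun j => C.exists_symbol_ae_eq (f := fun χ => ω0 j (χ, 0))
    ((hω0.1 j).comp (measurable_id.prodMk measurable_const))
    (fun χ => by linarith [(hrange j χ).1, D.R_nonneg j χ, D.hζ]) (fun χ => (hrange j χ).2)
  set ω : Fin r → C(C.Spec, ℝ) := fun j => ⟨fun χ => max (D.R j χ + D.ζ) (min (g j χ) 1),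
    ((D.R j).continuous.add continuous_const).max ((g j).continuous.min continuous_const)⟩ with hω
  have hωr : ∀ j χ, D.R j χ + D.ζ ≤ ω j χ ∧ ω j χ ≤ 1 := fun j χ =>
    ⟨le_max_left _ _, max_le (by linarith [D.R_le j χ, D.hζ1]) (min_le_right _ _)⟩
  refine ⟨ω, hωr, fun F hF c hc n => ?_⟩
  set ω' : Fin r → LossData.Y C → ℝ := fun j x => ω j x.1 with hω'
  have hw : D.data.IsWeight ω' :=
    ⟨fun j => (ω j).continuous.measurable.comp measurable_fst, fun j x => hωr j x.1⟩
  have heq : ∀ j, ω' j =ᵐ[D.skew] ω0 j := by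
    intro j
    have h0 : ∀ᵐ χ ∂D.baseMeas, g j χ = ω0 j (χ, 0) :=
      (withDensity_absolutelyContinuous _ _).ae_le (hg j)
    refine (Measure.quasiMeasurePreserving_fst.ae h0).mono fun x hx => ?_
    change max (D.R j x.1 + D.ζ) (min (g j x.1) 1) = ω0 j x
    rw [hx, hbase j x, min_eq_left (hrange j x.1).2, max_eq_right (hrange j x.1).1]
  choose Ls hLs using fun j => Leverage.Data.exists_isL D.data j
  choose Ms hMs using fun j => Leverage.Data.exists_isM D.data hw j
  set G' := ∑ k, (Ls k * Ms k) * (Ms k * Ls k) with hG'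
  set T' := fun j => (Ms j * Ls j) * Leverage.neum G' c n * (Ls j * Ms j) with hT'
  have hLo : ∀ j, D.Rep (D.Lo ω j) (Ls j * Ms j) := fun j =>
    LossData.Rep.mul D (D.rep_L j (hLs j)) (D.rep_M ω j (hMs j))
  have hLt : ∀ j, D.Rep (D.Lt ω j) (Ms j * Ls j) := fun j =>
    LossData.Rep.mul D (D.rep_M ω j (hMs j)) (D.rep_L j (hLs j))
  have hrep : ∀ j, D.Rep (D.Lt ω j * C.neum (D.G ω) c n * D.Lo ω j) (T' j) := fun j =>
    LossData.Rep.mul D (LossData.Rep.mul D (hLt j) (LossData.Rep.neum D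
      (LossData.Rep.sum D _ fun k _ => LossData.Rep.mul D (hLo k) (hLt k)) c n)) (hLo j)
  choose d hdm hdi hdp hdd using fun j =>
    D.exists_diag (hrep j) (F j) (D.lam * (D.R j * (D.m ω j * D.m ω j))) (hF j)
  set H : C.Spec → ℝ := fun χ => ∑ j, D.R j χ * (D.m ω j χ * D.m ω j χ) * d j χ with hH
  have hHm : Measurable H := Finset.measurable_sum _ fun j _ =>
    ((D.R j).continuous.measurable.mul
      ((D.m ω j).continuous.measurable.mul (D.m ω j).continuous.measurable)).mul (hdm j)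
  have hlH : ∀ χ, D.lam χ * H χ = ∑ j, (D.lam * (D.R j * (D.m ω j * D.m ω j))) χ * d j χ := by
    intro χ
    simp only [hH, Finset.mul_sum, ContinuousMap.mul_apply, mul_assoc]
  have hsum : ∑ j, (F j).pair 1 (D.Lt ω j * C.neum (D.G ω) c n * D.Lo ω j) =
      ∫ χ, D.lam χ * H χ ∂C.meas := by
    simp only [hlH]
    rw [integral_finsetSum _ fun j _ => hdi j]
    exact Finset.sum_congr rfl fun j _ => hdp j
  have hint : Integrable (fun χ => D.lam χ * H χ) C.meas :=
    (integrable_finsetSum _ fun j _ => hdi j).congr (ae_of_all _ fun χ => (hlH χ).symm)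
  set Ht : ℝ := (∫⁻ χ, ENNReal.ofReal (D.lam χ) * ENNReal.ofReal (H χ) ∂C.meas).toReal with hHt
  have hle : ∫ χ, D.lam χ * H χ ∂C.meas ≤ Ht := by
    rw [integral_eq_lintegral_pos_part_sub_lintegral_neg_part hint]
    refine (sub_le_self _ ENNReal.toReal_nonneg).trans_eq ?_
    simp only [hHt, ENNReal.ofReal_mul (D.lam_pos _).le]
  have hHfin : ∫⁻ χ, ENNReal.ofReal (D.lam χ) * ENNReal.ofReal (H χ) ∂C.meas ≠ ∞ := by
    simp only [← ENNReal.ofReal_mul (D.lam_pos _).le]
    exact hint.lintegral_lt_top.ne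
  have key' := key ω' hw heq Ls Ms hLs hMs c hc n
  have hlhs : ∫⁻ x in D.data.window, ENNReal.ofReal (∑ j, D.data.psi ω' j x *
      ⟪(Ls j * Ms j) (Leverage.dirac x),
        Leverage.neum G' c n ((Ls j * Ms j) (Leverage.dirac x))⟫) ∂D.skew =
      ENNReal.ofReal (Ht / 2) := by
    have hae : ∀ᵐ x ∂D.skew, ∀ j,
        ((T' j) (Leverage.dirac x) : ∀ _, ℝ) x = d j x.1 := by
      have h0 : ∀ᵐ χ ∂D.baseMeas, ∀ (j : Fin r) (s : ℝ),
          ((T' j) (Leverage.dirac (χ, s)) : ∀ _, ℝ) (χ, s) = d j χ :=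
        (withDensity_absolutelyContinuous _ _).ae_le (ae_all_iff.2 hdd)
      exact (Measure.quasiMeasurePreserving_fst.ae h0).mono fun x hx j => hx j x.2
    rw [lintegral_congr_ae (g := fun x => ENNReal.ofReal (H x.1) * 1)]
    · rw [hwin, D.lintegral_window hHm.ennreal_ofReal measurable_const,
        setLIntegral_one, LossData.expo_Ioc, ← ENNReal.ofReal_toReal hHfin,
        ← ENNReal.ofReal_mul ENNReal.toReal_nonneg]
      congr 1
      rw [hHt]
      ring
    · filter_upwards [ae_restrict_of_ae hae] with x hx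
      rw [mul_one]
      congr 1
      refine Finset.sum_congr rfl fun j _ => ?_
      rw [D.inner_LM ω j (hLs j) (hMs j), ← hx j]
      refine congrArg (· * _) ?_
      change D.R j x.1 / ω j x.1 =
        D.R j x.1 * ((√(max (ω j x.1) D.ζ))⁻¹ * (√(max (ω j x.1) D.ζ))⁻¹)
      rw [max_eq_left (by linarith [(hωr j x.1).1, D.R_nonneg j x.1]), ← mul_inv,
        Real.mul_self_sqrt (by linarith [(hωr j x.1).1, D.R_nonneg j x.1, D.hζ]), div_eq_mul_inv]
  have hwint : ∀ S : C(C.Spec, ℝ), (∀ χ, 0 ≤ S χ) →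
      ∫⁻ x in D.data.window, ENNReal.ofReal (S x.1) ∂D.skew =
        ENNReal.ofReal (C.intA (D.lam * S) / 2) := by
    intro S hS
    have h0 : ∫⁻ χ, ENNReal.ofReal (D.lam χ) * ENNReal.ofReal (S χ) ∂C.meas =
        ENNReal.ofReal (C.intA (D.lam * S)) := by
      rw [← C.integral_meas, ofReal_integral_eq_lintegral_ofReal (C.integrable_symbol _)
        (ae_of_all _ fun χ => mul_nonneg (D.lam_pos χ).le (hS χ))]
      exact lintegral_congr fun χ => (ENNReal.ofReal_mul (D.lam_pos χ).le).symm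
    have := D.lintegral_window (A := Set.Ioc 0 (Real.log 2)) (F := fun χ => ENNReal.ofReal (S χ))
      S.continuous.measurable.ennreal_ofReal (G := fun _ => 1) measurable_const
    simp only [mul_one, setLIntegral_one, LossData.expo_Ioc, h0] at this
    rw [hwin, this, ← ENNReal.ofReal_mul (C.intA_nonneg fun χ => mul_nonneg (D.lam_pos χ).le (hS χ))]
    congr 1
    ring
  set E : C(C.Spec, ℝ) := ∑ j, (ω j - D.R j - D.ζ • 1) with hE
  set S : C(C.Spec, ℝ) := ∑ j, (D.R j + D.ζ • 1) with hS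
  have hE0 : ∀ χ, 0 ≤ E χ := fun χ => by
    simp only [hE, ContinuousMap.sum_apply, ContinuousMap.sub_apply, ContinuousMap.smul_apply,
      ContinuousMap.one_apply, smul_eq_mul, mul_one]
    exact Finset.sum_nonneg fun j _ => by linarith [(hωr j χ).1]
  have hS0 : ∀ χ, 0 ≤ S χ := fun χ => by
    simp only [hS, ContinuousMap.sum_apply, ContinuousMap.add_apply, ContinuousMap.smul_apply,
      ContinuousMap.one_apply, smul_eq_mul, mul_one]
    exact Finset.sum_nonneg fun j _ => add_nonneg (D.R_nonneg j χ) D.hζ.le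
  have e1 : ∫⁻ x in D.data.window, ENNReal.ofReal (∑ j, (ω' j x - D.data.R j x - D.data.ζ))
      ∂D.skew = ENNReal.ofReal (C.intA (D.lam * E) / 2) := by
    rw [← hwint E hE0]
    refine lintegral_congr fun x => ?_
    simp only [hE, ContinuousMap.sum_apply, ContinuousMap.sub_apply, ContinuousMap.smul_apply,
      ContinuousMap.one_apply, smul_eq_mul, mul_one]
    rfl
  have e2 : ∫⁻ x in D.data.window, ENNReal.ofReal (∑ j, (D.data.R j x + D.data.ζ)) ∂D.skew =
      ENNReal.ofReal (C.intA (D.lam * S) / 2) := by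
    rw [← hwint S hS0]
    refine lintegral_congr fun x => ?_
    simp only [hS, ContinuousMap.sum_apply, ContinuousMap.add_apply, ContinuousMap.smul_apply,
      ContinuousMap.one_apply, smul_eq_mul, mul_one]
    rfl
  have h1 : 0 ≤ C.intA D.lam := C.intA_nonneg fun χ => (D.lam_pos χ).le
  have h2 : 0 ≤ C.intA (D.lam * E) :=
    C.intA_nonneg fun χ => mul_nonneg (D.lam_pos χ).le (hE0 χ)
  have h3 : 0 ≤ C.intA (D.lam * S) :=
    C.intA_nonneg fun χ => mul_nonneg (D.lam_pos χ).le (hS0 χ)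
  have hz : D.data.ζ = D.ζ := rfl
  have h4 : (0 : ℝ) ≤ 72 / √(r * D.ζ) := by positivity
  rw [hlhs, e1, e2, hmu, hz, show (8 : ℝ≥0∞) = ENNReal.ofReal 8 by simp,
    ← ENNReal.ofReal_mul (by norm_num : (0 : ℝ) ≤ 8), ← ENNReal.ofReal_mul h4,
    ← ENNReal.ofReal_add (div_nonneg ENNReal.toReal_nonneg zero_le_two) (div_nonneg h2 zero_le_two),
    ← ENNReal.ofReal_add (by linarith) (mul_nonneg h4 (by linarith)),
    ENNReal.ofReal_le_ofReal_iff (add_nonneg (by linarith) (mul_nonneg h4 (by linarith)))] at key'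
  have hIE : ∑ j, C.intA (D.lam * (ω j - D.R j - D.ζ • 1)) = C.intA (D.lam * E) := by
    rw [hE, Finset.mul_sum, C.intA_sum]
  have hIS : C.intA (D.lam * ∑ j, D.R j) + r * D.ζ * C.intA D.lam = C.intA (D.lam * S) := by
    rw [← C.intA_smul, ← C.intA_add]
    congr 1
    ext χ
    simp [hS, Finset.sum_add_distrib]
    ring
  rw [hsum, hIE, hIS]
  linarith

end Vale.Agent.P078.Expected
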