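import Vale.Agent.P078.Expected.Norm.NormalCell

/-!
In an inclusion with expectation every left intertwiner `η` of `A` lies, at the vector of the
state, in the closed span of the normalising partial isometries.

Inside the support where `E (η* η)` is at least `k`, the values `η d η*` of small projections `d`
are `0` or at least `k`, so disjoint projections can overlap on the left only boundedly often;
hence below every projection there is one on which `η` intertwines in both directions.
-/

noncomputable section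

open scoped InnerProductSpace
open Filter Topology

namespace Vale.Agent.P078.Expected

universe u

variable {K : Type u} [NormedAddCommGroup K] [InnerProductSpace ℂ K] [CompleteSpace K]

namespace Ctx

variable (C : Ctx K)

theorem inter_conj_mem {w : K →L[ℂ] K} (hw : C.Inter w) {a : K →L[ℂ] K} (ha : a ∈ C.A) :
    w * a * star w ∈ C.A := by
  refine C.mem_A_of_comm (mul_mem (mul_mem hw.1 (C.hAM ha)) (star_mem hw.1)) fun p hp => ?_
  obtain ⟨e, he⟩ := hw.2 p hp
  have he' : star w * C.op p = C.op e * star w := by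
    have h := congrArg star he
    rwa [star_mul, star_mul, (C.op_sa p).star_eq, (C.op_sa e).star_eq] at h
  calc w * a * star w * C.op p = w * a * (C.op e * star w) := by rw [mul_assoc _ (star w), he']
    _ = w * (a * C.op e) * star w := by simp only [mul_assoc]
    _ = w * (C.op e * a) * star w := by rw [C.A_comm ha (C.op_mem e)]
    _ = (w * C.op e) * a * star w := by simp only [mul_assoc]
    _ = C.op p * (w * a * star w) := by rw [← he]; simp only [mul_assoc]

theorem GN_apply_mem_N {u : K →L[ℂ] K} (hu : u ∈ C.GN) : u C.Ω ∈ C.N :=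
  Submodule.le_topologicalClosure _ (Submodule.subset_span ⟨u, hu, rfl⟩)

theorem GN_op_apply_mem_N {u : K →L[ℂ] K} (hu : u ∈ C.GN) (f : C(C.Spec, ℝ)) :
    u (C.op f C.Ω) ∈ C.N := by
  have hcl : IsClosed {T : K →L[ℂ] K | u (T C.Ω) ∈ C.N} :=
    (Submodule.isClosed_topologicalClosure _).preimage (by fun_prop)
  refine hcl.closure_subset_iff.2 ?_ (C.op_mem_closure_span f)
  intro T hT
  change u (T C.Ω) ∈ C.N
  induction hT using Submodule.span_induction with
  | mem T hT =>
    obtain ⟨p, hp, rfl⟩ := hT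
    exact C.GN_apply_mem_N (C.GN_mul hu (C.GN_op hp))
  | zero => simp
  | add S T _ _ h1 h2 => rw [add_apply, map_add]; exact C.N.add_mem h1 h2
  | smul c T _ h1 => rw [smul_apply, map_smul]; exact C.N.smul_mem c h1

/-- A two-sided intertwiner lies in the closed span of the normalisers. -/
theorem inter_star_apply_mem_N {w : K →L[ℂ] K} (hw : C.Inter w) (hw' : C.Inter (star w)) :
    w C.Ω ∈ C.N := by
  have hA : star w * w ∈ C.A := by simpa using C.inter_conj_mem hw' (one_mem _)
  set h := C.re (star w * w) with hh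
  have hop : C.op h = star w * w := C.op_re hA (IsSelfAdjoint.star_mul_self w)
  have h0 : ∀ χ, 0 ≤ h χ := C.apply_nonneg (hop ▸ star_mul_self_nonneg w)
  refine (Submodule.isClosed_topologicalClosure _).closure_subset ?_
  rw [Metric.mem_closure_iff]
  intro ε hε
  set t := ε ^ 2 / (‖C.Ω‖ ^ 2 + 1) with ht
  have ht0 : 0 < t := by positivity
  set p := C.cutAt h t with hp
  have hden : ∀ χ, 0 < max (h χ) t := fun χ => lt_max_of_lt_right ht0
  set r : C(C.Spec, ℝ) := ⟨fun χ => √(max (h χ) t), (h.continuous.max continuous_const).sqrt⟩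
    with hr
  set g : C(C.Spec, ℝ) := ⟨fun χ => p χ / √(max (h χ) t), p.continuous.div r.continuous
    fun χ => (Real.sqrt_pos.2 (hden χ)).ne'⟩ with hg
  have hgr : g * r = p := by
    ext χ
    exact div_mul_cancel₀ _ (Real.sqrt_pos.2 (hden χ)).ne'
  have hggh : g * g * h = p := by
    ext χ
    change p χ / √(max (h χ) t) * (p χ / √(max (h χ) t)) * h χ = p χ
    rcases idem_values (C.cutAt_idem h t) χ with e | e
    · rw [hp, e]; simp
    · rw [hp, e, div_mul_div_comm, one_mul, Real.mul_self_sqrt (hden χ).le,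
        max_eq_left (C.le_of_cutAt_eq_one e)]
      exact one_div_mul_cancel (lt_of_lt_of_le ht0 (C.le_of_cutAt_eq_one e)).ne'
  have hgp : g * p = g := by
    ext χ
    change p χ / √(max (h χ) t) * p χ = p χ / √(max (h χ) t)
    rcases idem_values (C.cutAt_idem h t) χ with e | e <;> rw [hp, e] <;> simp
  set u := w * C.op g with hu
  have hsu : star u * u = C.op p := by
    rw [hu, star_mul, (C.op_sa g).star_eq, mul_assoc, ← mul_assoc (star w), ← hop, ← map_mul,
      ← map_mul, ← hggh]
    congr 1
    ring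
  have huGN : u ∈ C.GN := by
    refine ⟨mul_mem hw.1 (C.op_mem_M g), ?_, fun a ha => ?_, fun a ha => ?_⟩
    · rw [mul_assoc, hsu, hu, mul_assoc, ← map_mul, hgp]
    · rw [hu, star_mul, (C.op_sa g).star_eq]
      have := C.inter_conj_mem hw (mul_mem (mul_mem (C.op_mem g) ha) (C.op_mem g))
      simpa only [mul_assoc] using this
    · rw [hu, star_mul, (C.op_sa g).star_eq]
      have h1 := C.inter_conj_mem hw' ha
      rw [star_star] at h1
      have := mul_mem (mul_mem (C.op_mem g) h1) (C.op_mem g)
      simpa only [mul_assoc] using this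
  refine ⟨u (C.op r C.Ω), C.GN_op_apply_mem_N huGN r, ?_⟩
  have e1 : u (C.op r C.Ω) = (w * C.op p) C.Ω := by
    rw [← hgr, map_mul, ← mul_assoc]
    rfl
  have hq : (1 - p) * (1 - p) = 1 - p := C.idem_one_sub (C.cutAt_idem h t)
  have e2 : ‖w C.Ω - (w * C.op p) C.Ω‖ ^ 2 = C.intA ((1 - p) * h) := by
    have e3 : w C.Ω - (w * C.op p) C.Ω = (w * C.op (1 - p)) C.Ω := by
      rw [map_sub, map_one, mul_sub, mul_one, sub_apply]
    rw [e3]
    change C.nrm _ ^ 2 = _
    have e4 : star (w * C.op (1 - p)) * (w * C.op (1 - p)) = C.op ((1 - p) * h) := by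
      rw [star_mul, (C.op_sa _).star_eq, mul_assoc, ← mul_assoc (star w), ← hop, ← map_mul,
        ← map_mul]
      congr 1
      linear_combination h * hq
    rw [intA, ← e4, C.tr_star_mul_self, ← Complex.ofReal_pow, Complex.ofReal_re]
  have e5 : C.intA ((1 - p) * h) ≤ t * ‖C.Ω‖ ^ 2 := by
    rw [← C.intA_const]
    refine C.intA_mono fun χ => ?_
    simp only [ContinuousMap.mul_apply, ContinuousMap.sub_apply, ContinuousMap.one_apply,
      algebraMap_apply, smul_eq_mul, mul_one]
    rcases idem_values (C.cutAt_idem h t) χ with e | e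
    · rw [hp, e]; simpa using C.le_of_cutAt_eq_zero e
    · rw [hp, e]; simpa using ht0.le
  rw [dist_eq_norm, e1, ← pow_lt_pow_iff_left₀ (norm_nonneg _) hε.le two_ne_zero]
  refine lt_of_le_of_lt (e2.trans_le e5) ?_
  rw [ht, div_mul_eq_mul_div, div_lt_iff₀ (by positivity)]
  nlinarith [pow_pos hε 2]

section SmallPieces

variable {C} {η : K →L[ℂ] K} {k : ℝ}

/-- A projection below the support where `E (η* η)` is at least `k`. -/
def Below (C : Ctx K) (η : K →L[ℂ] K) (k : ℝ) (d : C(C.Spec, ℝ)) : Prop :=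
  d * d = d ∧ ∀ χ, d χ = 1 → k ≤ C.nu η 1 χ

theorem Below.mul {p : C(C.Spec, ℝ)} (h : Below C η k p) {e : C(C.Spec, ℝ)}
    (he : p * e * (p * e) = p * e) : Below C η k (p * e) :=
  ⟨he, fun χ hχ => h.2 χ (by
    rcases idem_values h.1 χ with h0 | h1
    · simp [h0] at hχ
    · exact h1)⟩

theorem op_imgI (hη : C.Inter η) (d : C(C.Spec, ℝ)) :
    C.op (C.img η d) = η * C.op d * star η :=
  C.op_re (C.inter_conj_mem hη (C.op_mem d)) (IsSelfAdjoint.conjugate (C.op_sa d) η)

theorem imgI_add (hη : C.Inter η) (d d' : C(C.Spec, ℝ)) :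
    C.img η (d + d') = C.img η d + C.img η d' := by
  refine C.op_inj ?_
  rw [map_add, op_imgI hη, op_imgI hη, op_imgI hη, map_add, mul_add, add_mul]

theorem imgI_nonneg (hη : C.Inter η) {d : C(C.Spec, ℝ)} (hd : d * d = d) (χ : C.Spec) :
    0 ≤ C.img η d χ := by
  refine C.apply_nonneg ?_ χ
  rw [op_imgI hη]
  exact star_right_conjugate_nonneg (C.op_nonneg (C.idem_nonneg hd)) η

theorem imgI_le (hη : C.Inter η) {d : C(C.Spec, ℝ)} (hd : d * d = d) (χ : C.Spec) :
    C.img η d χ ≤ ‖η‖ ^ 2 := by
  refine ((le_abs_self _).trans ((C.img η d).norm_coe_le_norm χ)).trans ?_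
  have h1 : ‖C.op d‖ ≤ 1 := IsStarProjection.norm_le _ (C.isStarProjection_op hd)
  rw [← C.norm_op, op_imgI hη]
  refine (norm_mul_le _ _).trans ?_
  rw [norm_star, sq]
  refine mul_le_mul_of_nonneg_right ((norm_mul_le _ _).trans ?_) (norm_nonneg _)
  exact mul_le_of_le_one_right (norm_nonneg _) h1

/-- A projection moved across `η` is idempotent where `E (η* η)` is positive. -/
theorem moved_values (hη : C.Inter η) {q e : C(C.Spec, ℝ)} (hq : q * q = q)
    (he : C.op q * η = η * C.op e) {χ : C.Spec} (hν : 0 < C.nu η 1 χ) :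
    e χ = 0 ∨ e χ = 1 := by
  have h0 : η * C.op (e * e - e) = 0 := by
    rw [map_sub, map_mul, mul_sub, ← mul_assoc, ← he, mul_assoc, ← he, ← mul_assoc, ← map_mul,
      hq, sub_self]
  have hm : star η * η ∈ C.M := mul_mem (star_mem hη.1) hη.1
  have h1 : C.nu η 1 * (e * e - e) = 0 := by
    have h2 : C.Er (star η * η * C.op (e * e - e)) = 0 := by
      rw [mul_assoc, h0, mul_zero, ← map_zero C.op, C.Er_op]
    rwa [C.Er_mul_op _ hm, ← mul_one (star η), ← map_one C.op] at h2
  have h3 : C.nu η 1 χ * (e χ * e χ - e χ) = 0 :=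
    congrArg (fun F : C(C.Spec, ℝ) => F χ) h1
  have h4 : e χ * (e χ - 1) = 0 := by
    have := (mul_eq_zero.1 h3).resolve_left hν.ne'
    linear_combination this
  exact (mul_eq_zero.1 h4).imp id sub_eq_zero.1

/-- Values of `η d η*` below `k` vanish. -/
theorem gap_zero (hη : C.Inter η) (hk : 0 < k) {d q : C(C.Spec, ℝ)} (hd : Below C η k d)
    (hq : q * q = q) {c : ℝ} (hc0 : 0 ≤ c) (hc : c < k)
    (h : ∀ χ, q χ = 1 → C.img η d χ ≤ c) : q * C.img η d = 0 := by
  obtain ⟨e, he⟩ := hη.2 q hq
  set x := C.op q * η * C.op d with hx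
  have hxM : x ∈ C.M := mul_mem (mul_mem (C.op_mem_M q) hη.1) (C.op_mem_M d)
  have hxx : x * star x = C.op (q * C.img η d) := by
    rw [hx, star_mul, star_mul, (C.op_sa d).star_eq, (C.op_sa q).star_eq]
    calc C.op q * η * C.op d * (C.op d * (star η * C.op q))
        = C.op q * (η * (C.op d * C.op d) * star η) * C.op q := by simp only [mul_assoc]
      _ = _ := by
          rw [← map_mul C.op d d, hd.1, ← op_imgI hη, ← map_mul, ← map_mul]
          congr 1
          linear_combination C.img η d * hq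
  have hxe : x = η * C.op (e * d) := by rw [hx, he, map_mul, mul_assoc]
  have hnx : ‖x‖ ^ 2 ≤ c := by
    rw [sq, ← CStarRing.norm_self_mul_star (x := x), hxx, C.norm_op]
    refine (ContinuousMap.norm_le _ hc0).2 fun χ => ?_
    rw [ContinuousMap.mul_apply]
    rcases idem_values hq χ with h0 | h1
    · simpa [h0] using hc0
    · rw [h1, one_mul, Real.norm_eq_abs, abs_of_nonneg (imgI_nonneg hη hd.1 χ)]
      exact h χ h1
  have hed : e * d = 0 := by
    ext χ
    rw [ContinuousMap.mul_apply, ContinuousMap.zero_apply]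
    rcases idem_values hd.1 χ with h0 | h1
    · rw [h0, mul_zero]
    rcases moved_values hη hq he (hk.trans_le (hd.2 χ h1)) with e0 | e1
    · rw [e0, zero_mul]
    exfalso
    have hm : star η * η ∈ C.M := mul_mem (star_mem hη.1) hη.1
    have hE : C.Er (star x * x) = (e * d) * C.nu η 1 * (e * d) := by
      rw [hxe, star_mul, (C.op_sa _).star_eq,
        show C.op (e * d) * star η * (η * C.op (e * d)) =
          C.op (e * d) * (star η * η) * C.op (e * d) by simp only [mul_assoc],
        C.Er_mul_op _ (mul_mem (C.op_mem_M _) hm), C.Er_op_mul _ hm, nu, map_one, mul_one]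
    have hle : C.Er (star x * x) χ ≤ ‖x‖ ^ 2 := by
      refine (C.nu_one_le hxM χ).trans' (le_of_eq ?_)
      rw [nu, map_one, mul_one]
    rw [hE] at hle
    simp only [ContinuousMap.mul_apply, e1, h1, one_mul, mul_one] at hle
    linarith [hd.2 χ h1]
  refine C.op_inj ?_
  rw [← hxx, hxe, hed, map_zero, mul_zero, zero_mul]

theorem eq_zero_of_img (hη : C.Inter η) (hk : 0 < k) {d : C(C.Spec, ℝ)} (hd : Below C η k d)
    (h : C.img η d = 0) : d = 0 := by
  have hm : star η * η ∈ C.M := mul_mem (star_mem hη.1) hη.1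
  have h0 : (η * C.op d) * star (η * C.op d) = 0 := by
    rw [star_mul, (C.op_sa d).star_eq, mul_assoc, ← mul_assoc (C.op d), ← map_mul, hd.1,
      ← mul_assoc, ← op_imgI hη, h, map_zero]
  have h1 : η * C.op d = 0 := (CStarRing.mul_star_self_eq_zero_iff _).1 h0
  have h2 : C.nu η 1 * d = 0 := by
    have h3 : C.Er (star η * η * C.op d) = 0 := by
      rw [mul_assoc, h1, mul_zero, ← map_zero C.op, C.Er_op]
    rwa [C.Er_mul_op _ hm, ← mul_one (star η), ← map_one C.op] at h3
  ext χ
  rcases idem_values hd.1 χ with e | e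
  · exact e
  · have h4 : C.nu η 1 χ * d χ = 0 := congrArg (fun F : C(C.Spec, ℝ) => F χ) h2
    rw [e, mul_one] at h4
    linarith [hd.2 χ e]

/-- No two pieces of `d` overlap on the left. -/
def Clean (C : Ctx K) (η : K →L[ℂ] K) (d : C(C.Spec, ℝ)) : Prop :=
  ∀ p, p * p = p → p * d = p → C.img η p * C.img η (d - p) = 0

theorem many_overlaps (hη : C.Inter η) (hk : 0 < k) (m : ℕ) :
    ∀ d, Below C η k d → d ≠ 0 → (∀ d', Below C η k d' → d' * d = d' → d' ≠ 0 →
      ¬Clean C η d') → ∃ χ, ((m : ℝ) + 1) * (k / 2) ≤ C.img η d χ := by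
  induction m with
  | zero =>
    intro d hd hne _
    by_contra hno
    push Not at hno
    refine hne (eq_zero_of_img hη hk hd ?_)
    have := gap_zero hη hk hd (one_mul (1 : C(C.Spec, ℝ))) (half_pos hk).le (half_lt_self hk)
      fun χ _ => by simpa using (hno χ).le
    rwa [one_mul] at this
  | succ m ih =>
    intro d hd hne hno
    obtain ⟨p, hp, hpd, hov⟩ : ∃ p, p * p = p ∧ p * d = p ∧
        C.img η p * C.img η (d - p) ≠ 0 := by
      have := hno d hd hd.1 hne
      simp only [Clean, not_forall] at this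
      obtain ⟨p, h1, h2, h3⟩ := this
      exact ⟨p, h1, h2, h3⟩
    have hpB : Below C η k p := by
      refine ⟨hp, fun χ hχ => hd.2 χ ?_⟩
      have := congrArg (fun F : C(C.Spec, ℝ) => F χ) hpd
      simpa [hχ] using this
    have hdp : (d - p) * (d - p) = d - p := by linear_combination hd.1 + hp - 2 * hpd
    have hdpB : Below C η k (d - p) := by
      refine ⟨hdp, fun χ hχ => hd.2 χ ((idem_values hd.1 χ).resolve_left fun h0 => ?_)⟩
      have hp0 : p χ = 0 := by
        have := congrArg (fun F : C(C.Spec, ℝ) => F χ) hpd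
        simpa [h0] using this.symm
      simp [h0, hp0] at hχ
    set q1 := C.cutAt (C.img η p) (k / 2) with hq1
    set q2 := C.cutAt (C.img η (d - p)) (k / 2) with hq2
    have z1 : (1 - q1) * C.img η p = 0 :=
      gap_zero hη hk hpB (C.idem_one_sub (C.cutAt_idem _ _)) (half_pos hk).le (half_lt_self hk)
        fun χ hχ => C.le_of_cutAt_eq_zero (by simpa using hχ)
    have z2 : (1 - q2) * C.img η (d - p) = 0 :=
      gap_zero hη hk hdpB (C.idem_one_sub (C.cutAt_idem _ _)) (half_pos hk).le (half_lt_self hk)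
        fun χ hχ => C.le_of_cutAt_eq_zero (by simpa using hχ)
    have hq : q1 * q2 * (q1 * q2) = q1 * q2 :=
      C.idem_mul (C.cutAt_idem _ _) (C.cutAt_idem _ _)
    obtain ⟨e, he⟩ := hη.2 _ hq
    have hid : p * e * (p * e) = p * e := by
      ext χ
      simp only [ContinuousMap.mul_apply]
      rcases idem_values hp χ with h0 | h1
      · simp [h0]
      · rcases moved_values hη hq he (hk.trans_le (hpB.2 χ h1)) with e0 | e1 <;> simp [h1, *]
    have himg : C.img η (p * e) = q1 * q2 * C.img η p := by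
      refine C.op_inj ?_
      rw [map_mul, op_imgI hη, op_imgI hη, ← mul_assoc, ← mul_assoc, he, mul_comm p e, map_mul]
      simp only [mul_assoc]
    have hpe : p * e ≠ 0 := by
      intro h0
      refine hov ?_
      have hq0 : q1 * q2 * C.img η p = 0 := by
        rw [← himg, h0]
        refine C.op_inj ?_
        rw [op_imgI hη, map_zero, mul_zero, zero_mul]
      have e1 : C.img η p = q1 * C.img η p := by linear_combination z1
      have e2 : C.img η (d - p) = q2 * C.img η (d - p) := by linear_combination z2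
      rw [e1, e2]
      linear_combination C.img η (d - p) * hq0
    obtain ⟨χ, hχ⟩ := ih (p * e) (hpB.mul hid) hpe fun d' hd' hsub hne' =>
      hno d' hd' (by linear_combination (d - 1) * (-hsub) + d' * e * hpd) hne'
    refine ⟨χ, ?_⟩
    have hpos : 0 < C.img η (p * e) χ := lt_of_lt_of_le (by positivity) hχ
    rw [himg] at hχ hpos
    simp only [ContinuousMap.mul_apply] at hχ hpos
    have h1 : q1 χ = 1 := (idem_values (C.cutAt_idem _ _) χ).resolve_left fun h0 => by
      rw [hq1, h0] at hpos
      simp at hpos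
    have h2 : q2 χ = 1 := (idem_values (C.cutAt_idem _ _) χ).resolve_left fun h0 => by
      rw [hq2, h0] at hpos
      simp at hpos
    rw [h1, h2, one_mul, one_mul] at hχ
    have h3 : k / 2 ≤ C.img η (d - p) χ := C.le_of_cutAt_eq_one h2
    have e3 : C.img η d χ = C.img η p χ + C.img η (d - p) χ := by
      rw [← ContinuousMap.add_apply, ← imgI_add hη, add_sub_cancel]
    rw [e3]
    push_cast
    linarith

theorem exists_clean (hη : C.Inter η) (hk : 0 < k) {d : C(C.Spec, ℝ)} (hd : Below C η k d)
    (hne : d ≠ 0) : ∃ d', Below C η k d' ∧ d' * d = d' ∧ d' ≠ 0 ∧ Clean C η d' := by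
  by_contra hno
  push Not at hno
  obtain ⟨m, hm⟩ := exists_nat_gt (‖η‖ ^ 2 / (k / 2))
  obtain ⟨χ, hχ⟩ := many_overlaps hη hk m d hd hne hno
  have := imgI_le hη hd.1 χ
  rw [div_lt_iff₀ (half_pos hk)] at hm
  nlinarith [half_pos hk]

/-- Below a clean projection `η` intertwines in both directions. -/
theorem clean_mem_N (hη : C.Inter η) (hk : 0 < k) {d : C(C.Spec, ℝ)} (hd : Below C η k d)
    (hcl : Clean C η d) {d' : C(C.Spec, ℝ)} (hd' : d' * d' = d') (hsub : d' * d = d') :
    η (C.op d' C.Ω) ∈ C.N := by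
  change (η * C.op d') C.Ω ∈ C.N
  refine C.inter_star_apply_mem_N ⟨mul_mem hη.1 (C.op_mem_M _), fun p hp => ?_⟩
    ⟨star_mem (mul_mem hη.1 (C.op_mem_M _)), fun p hp => ?_⟩
  · obtain ⟨e, he⟩ := hη.2 p hp
    exact ⟨e, by rw [← mul_assoc, he, mul_assoc, C.op_comm, ← mul_assoc]⟩
  · set p' := d' * p with hp'def
    have hp' : p' * p' = p' := C.idem_mul hd' hp
    have hp'd : p' * d = p' := by linear_combination p * hsub
    have hdp : (d - p') * (d - p') = d - p' := by linear_combination hd.1 + hp' - 2 * hp'd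
    set q := C.cutAt (C.img η p') (k / 2) with hqdef
    have hq : q * q = q := C.cutAt_idem _ _
    have hpB : Below C η k p' := ⟨hp', fun χ hχ => hd.2 χ (by
      have := congrArg (fun F : C(C.Spec, ℝ) => F χ) hp'd
      simpa [hχ] using this)⟩
    have z1 : (1 - q) * C.img η p' = 0 :=
      gap_zero hη hk hpB (C.idem_one_sub hq) (half_pos hk).le (half_lt_self hk)
        fun χ hχ => C.le_of_cutAt_eq_zero (by simpa using hχ)
    have z2 : q * C.img η (d - p') = 0 := by
      ext χ
      rw [ContinuousMap.mul_apply, ContinuousMap.zero_apply]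
      rcases idem_values hq χ with h0 | h1
      · rw [h0, zero_mul]
      · have h2 : C.img η p' χ * C.img η (d - p') χ = 0 :=
          congrArg (fun F : C(C.Spec, ℝ) => F χ) (hcl p' hp' hp'd)
        have h3 := C.le_of_cutAt_eq_one h1
        rw [(mul_eq_zero.1 h2).resolve_left (by linarith), mul_zero]
    have kill : ∀ a r : C(C.Spec, ℝ), a * a = a → r * r = r → a * C.img η r = 0 →
        C.op a * η * C.op r = 0 := by
      intro a r ha hr h0
      refine (CStarRing.mul_star_self_eq_zero_iff _).1 ?_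
      rw [star_mul, star_mul, (C.op_sa a).star_eq, (C.op_sa r).star_eq]
      calc C.op a * η * C.op r * (C.op r * (star η * C.op a))
          = C.op a * (η * (C.op r * C.op r) * star η) * C.op a := by simp only [mul_assoc]
        _ = 0 := by
            rw [← map_mul C.op r r, hr, ← op_imgI hη, ← map_mul, h0, map_zero, zero_mul]
    have k1 := kill _ _ (C.idem_one_sub hq) hp' z1
    have k2 := kill _ _ hq hdp z2
    rw [map_sub, map_one, sub_mul, sub_mul, one_mul, sub_eq_zero] at k1
    rw [map_sub, mul_sub, sub_eq_zero] at k2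
    have key : C.op q * (η * C.op d') = (η * C.op d') * C.op p := by
      calc C.op q * (η * C.op d') = C.op q * η * C.op d * C.op d' := by
            rw [mul_assoc (C.op q * η), ← map_mul, mul_comm d, hsub, mul_assoc]
        _ = η * C.op p' * C.op d' := by rw [k2, ← k1]
        _ = η * C.op (d' * p) := by
            rw [mul_assoc, ← map_mul]
            congr 2
            linear_combination p * hd'
        _ = _ := by rw [map_mul, mul_assoc]
    refine ⟨q, ?_⟩
    have h := congrArg star key
    rw [star_mul, star_mul (η * C.op d'), (C.op_sa q).star_eq, (C.op_sa p).star_eq] at h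
    exact h.symm

/-- The projections all of whose parts are sent by `η` into the span of the normalisers. -/
def InN (C : Ctx K) (η : K →L[ℂ] K) (d : C(C.Spec, ℝ)) : Prop :=
  d * d = d ∧ ∀ d', d' * d' = d' → d' * d = d' → η (C.op d' C.Ω) ∈ C.N

theorem InN.join {d₁ d₂ : C(C.Spec, ℝ)} (h₁ : InN C η d₁) (h₂ : InN C η d₂) :
    InN C η (d₁ + (1 - d₁) * d₂) := by
  refine ⟨?_, fun d' hd' hsub => ?_⟩
  · linear_combination (1 - 2 * d₂ + d₂ * d₂) * h₁.1 + (1 - d₁) * h₂.1
  · have e : d' = d' * d₁ + d' * ((1 - d₁) * d₂) := by linear_combination -hsub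
    rw [e, map_add, add_apply, map_add]
    refine C.N.add_mem (h₁.2 _ (C.idem_mul hd' h₁.1) (by linear_combination d' * h₁.1))
      (h₂.2 _ (C.idem_mul hd' (C.idem_mul (C.idem_one_sub h₁.1) h₂.1)) ?_)
    linear_combination d' * (1 - d₁) * h₂.1

theorem mem_N_of_below (hη : C.Inter η) (hk : 0 < k) {p : C(C.Spec, ℝ)} (hp : Below C η k p) :
    η (C.op p C.Ω) ∈ C.N := by
  set G : Set K := {z | ∃ d v, InN C η d ∧ C.op d v = z}
  set W : Submodule ℂ K := (Submodule.span ℂ G).topologicalClosure with hW
  have : CompleteSpace W := (Submodule.isClosed_topologicalClosure _).completeSpace_coe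
  set P := W.starProjection with hPdef
  have hinv : ∀ T : K →L[ℂ] K, (∀ f, T * C.op f = C.op f * T) → ∀ v ∈ W, T v ∈ W := by
    intro T hT v hv
    refine map_mem_closure T.continuous hv ?_
    intro z hz
    induction hz using Submodule.span_induction with
    | mem z hz =>
      obtain ⟨d, w, hd, rfl⟩ := hz
      exact Submodule.subset_span ⟨d, T w, hd,
        (congrArg (fun S : K →L[ℂ] K => S w) (hT d)).symm⟩
    | zero => simp
    | add x y _ _ h1 h2 => rw [map_add]; exact Submodule.add_mem _ h1 h2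
    | smul c x _ h1 => rw [map_smul]; exact Submodule.smul_mem _ c h1
  have hcomm : ∀ T : K →L[ℂ] K, (∀ f, T * C.op f = C.op f * T) →
      P * T = T * P := by
    intro T hT
    have hT' : ∀ f, star T * C.op f = C.op f * star T := fun f => by
      have h := congrArg star (hT f)
      rwa [star_mul, star_mul, (C.op_sa f).star_eq, eq_comm] at h
    ext v
    change W.starProjection (T v) = T (W.starProjection v)
    refine Submodule.eq_starProjection_of_mem_orthogonal (hinv T hT _
      (W.starProjection_apply_mem v)) ?_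
    rw [Submodule.mem_orthogonal']
    intro w hw
    rw [← map_sub, ← ContinuousLinearMap.adjoint_inner_right, ← ContinuousLinearMap.star_eq_adjoint]
    exact Submodule.starProjection_inner_eq_zero v _ (hinv _ hT' w hw)
  have hPM : P ∈ C.M :=
    C.mem_M_of_comm fun s hs => hcomm s fun f => (hs _ (C.op_mem_M f)).symm
  have hPA : P ∈ C.A := (C.hA P hPM).2 fun b hb => hcomm b fun f => C.A_comm hb (C.op_mem f)
  have hsP : IsStarProjection P := isStarProjection_starProjection
  have hop : C.op (C.re P) = P := C.op_re hPA hsP.isSelfAdjoint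
  have hP2 : C.re P * C.re P = C.re P :=
    C.op_inj (by rw [map_mul, hop]; exact hsP.isIdempotentElem)
  have hq0 : (1 - C.re P) * p = 0 := by
    by_contra hne
    have hqB : Below C η k ((1 - C.re P) * p) := by
      rw [mul_comm]
      exact hp.mul (C.idem_mul hp.1 (C.idem_one_sub hP2))
    obtain ⟨d, hdB, hdq, hdne, hcl⟩ := exists_clean hη hk hqB hne
    have hdS : InN C η d := ⟨hdB.1, fun d' h1 h2 => clean_mem_N hη hk hdB hcl h1 h2⟩
    refine hdne ?_
    have hPd : C.re P * d = d := by
      refine C.op_inj ?_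
      rw [map_mul, hop]
      ext v
      exact Submodule.starProjection_eq_self_iff.2
        (Submodule.le_topologicalClosure _ (Submodule.subset_span ⟨d, v, hdS, rfl⟩))
    linear_combination -hPd - C.re P * hdq - d * p * hP2
  have hpP : C.op p C.Ω ∈ W := by
    have e : p = C.re P * p := by linear_combination hq0
    rw [e, map_mul, hop]
    exact W.starProjection_apply_mem _
  refine (Submodule.isClosed_topologicalClosure _).closure_subset ?_
  rw [Metric.mem_closure_iff]
  intro ε hε
  obtain ⟨z, hz, hd⟩ := Metric.mem_closure_iff.1 hpP (ε / (‖η‖ + 1)) (by positivity)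
  obtain ⟨D, hD, hfix⟩ : ∃ D, InN C η D ∧ C.op D z = z := by
    have hzero : InN C η 0 := ⟨mul_zero 0, fun d' _ h => by
      rw [← h, mul_zero, map_zero, zero_apply, map_zero]
      exact C.N.zero_mem⟩
    clear hd
    induction hz using Submodule.span_induction with
    | mem z hz =>
      obtain ⟨d, w, hd, rfl⟩ := hz
      exact ⟨d, hd, (congrArg (fun S : K →L[ℂ] K => S w)
        (map_mul C.op d d)).symm.trans (by rw [hd.1])⟩
    | zero => exact ⟨0, hzero, by simp⟩
    | add x y _ _ h1 h2 =>
      obtain ⟨a, ha, hax⟩ := h1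
      obtain ⟨b, hb, hby⟩ := h2
      have hjoin := ha.join hb
      refine ⟨_, hjoin, ?_⟩
      have e1 : (a + (1 - a) * b) * a = a := by linear_combination (1 - b) * ha.1
      have e2 : (a + (1 - a) * b) * b = b := by linear_combination (1 - a) * hb.1
      have g1 : C.op (a + (1 - a) * b) x = x := by
        conv_lhs => rw [← hax]
        conv_rhs => rw [← hax, ← e1, map_mul]
        rfl
      have g2 : C.op (a + (1 - a) * b) y = y := by
        conv_lhs => rw [← hby]
        conv_rhs => rw [← hby, ← e2, map_mul]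
        rfl
      rw [map_add, g1, g2]
    | smul c x _ h1 =>
      obtain ⟨a, ha, hax⟩ := h1
      exact ⟨a, ha, by rw [map_smul, hax]⟩
  refine ⟨η (C.op (p * D) C.Ω), hD.2 _ (C.idem_mul hp.1 hD.1)
    (by linear_combination p * hD.1), ?_⟩
  have e : C.op p C.Ω - C.op (p * D) C.Ω = C.op (1 - D) (C.op p C.Ω - z) := by
    have e0 : C.op (1 - D) z = 0 := by rw [map_sub, map_one, sub_apply, hfix]; simp
    rw [map_sub (C.op (1 - D)), e0, sub_zero, ← sub_apply, ← map_sub]
    change _ = (C.op (1 - D) * C.op p) C.Ω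
    rw [← map_mul]
    congr 2
    ring
  rw [dist_eq_norm, ← map_sub, e]
  have h1 : ‖C.op (1 - D)‖ ≤ 1 :=
    IsStarProjection.norm_le _ (C.isStarProjection_op (C.idem_one_sub hD.1))
  refine lt_of_le_of_lt ((η.le_opNorm _).trans (mul_le_mul_of_nonneg_left
    (((C.op (1 - D)).le_opNorm _).trans (mul_le_of_le_one_left (norm_nonneg _) h1))
    (norm_nonneg _))) ?_
  rw [dist_eq_norm] at hd
  calc ‖η‖ * ‖C.op p C.Ω - z‖ ≤ ‖η‖ * (ε / (‖η‖ + 1)) :=
        mul_le_mul_of_nonneg_left hd.le (norm_nonneg _)
    _ < ε := by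
        rw [mul_div_assoc', div_lt_iff₀ (by positivity)]
        nlinarith [norm_nonneg η]

end SmallPieces

/-- Every left intertwiner lies in the closed span of the normalisers. -/
theorem inter_apply_mem_N {η : K →L[ℂ] K} (hη : C.Inter η) : η C.Ω ∈ C.N := by
  refine (Submodule.isClosed_topologicalClosure _).closure_subset ?_
  rw [Metric.mem_closure_iff]
  intro ε hε
  set k := ε ^ 2 / (‖C.Ω‖ ^ 2 + 1) with hk
  have hk0 : 0 < k := by positivity
  set p := C.cutAt (C.nu η 1) k with hp
  have hpB : Below C η k p := ⟨C.cutAt_idem _ _, fun χ h => C.le_of_cutAt_eq_one h⟩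
  refine ⟨η (C.op p C.Ω), mem_N_of_below hη hk0 hpB, ?_⟩
  have e1 : η C.Ω - η (C.op p C.Ω) = (η * C.op (1 - p)) C.Ω := by
    rw [map_sub, map_one, mul_sub, mul_one]
    rfl
  have hm : star η * η ∈ C.M := mul_mem (star_mem hη.1) hη.1
  have e2 : C.nrm (η * C.op (1 - p)) ^ 2 = C.intA ((1 - p) * C.nu η 1 * (1 - p)) := by
    have e3 : star (η * C.op (1 - p)) * (η * C.op (1 - p)) =
        C.op (1 - p) * (star η * η) * C.op (1 - p) := by
      rw [star_mul, (C.op_sa _).star_eq]
      simp only [mul_assoc]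
    have e4 : C.Er (C.op (1 - p) * (star η * η) * C.op (1 - p)) =
        (1 - p) * C.nu η 1 * (1 - p) := by
      rw [C.Er_mul_op _ (mul_mem (C.op_mem_M _) hm), C.Er_op_mul _ hm, nu, map_one, mul_one]
    rw [← e4, C.intA_Er (mul_mem (mul_mem (C.op_mem_M _) hm) (C.op_mem_M _))
      (e3 ▸ IsSelfAdjoint.star_mul_self _), ← e3, C.tr_star_mul_self, ← Complex.ofReal_pow,
      Complex.ofReal_re]
  have e5 : C.intA ((1 - p) * C.nu η 1 * (1 - p)) ≤ k * ‖C.Ω‖ ^ 2 := by
    rw [← C.intA_const]
    refine C.intA_mono fun χ => ?_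
    simp only [ContinuousMap.mul_apply, ContinuousMap.sub_apply, ContinuousMap.one_apply,
      algebraMap_apply, smul_eq_mul, mul_one]
    rcases idem_values (C.cutAt_idem (C.nu η 1) k) χ with e | e
    · rw [hp, e]; simpa using C.le_of_cutAt_eq_zero e
    · rw [hp, e]; simpa using hk0.le
  rw [dist_eq_norm, e1, ← pow_lt_pow_iff_left₀ (norm_nonneg _) hε.le two_ne_zero]
  refine lt_of_le_of_lt (e2.trans_le e5) ?_
  rw [hk, div_mul_eq_mul_div, div_lt_iff₀ (by positivity)]
  nlinarith [pow_pos hε 2]

end Ctx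

end Vale.Agent.P078.Expected
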