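import Vale.Agent.P078.Expected.Norm.Defs
import Vale.Agent.P078.Expected.Norm.Inter

/-!
A finite family of weighted normalising partial isometries lying below `g ↦ E (X g X)` and
approximating it in the diagonal square seminorm.
-/

noncomputable section

open scoped InnerProductSpace
open Filter Topology

namespace Vale.Agent.P078.Expected

universe u

variable {K : Type u} [NormedAddCommGroup K] [InnerProductSpace ℂ K] [CompleteSpace K]

namespace Ctx

variable (C : Ctx K)

/-- The right `A`-span of a finite family. -/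
def spanA {n : ℕ} (u : Fin n → K →L[ℂ] K) : Submodule ℂ (K →L[ℂ] K) :=
  Submodule.span ℂ {x | ∃ k, ∃ a ∈ C.A, x = u k * a}

theorem GN_left {u a : K →L[ℂ] K} (hu : u ∈ C.GN) (ha : a ∈ C.A) :
    a * u = u * (star u * a * u) := by
  have h : (u * star u) * a = a * (u * star u) := C.A_comm (C.GN_mul_star_self hu) ha
  calc a * u = a * (u * star u * u) := by rw [hu.2.1]
    _ = a * (u * star u) * u := by simp only [mul_assoc]
    _ = (u * star u) * a * u := by rw [h]
    _ = _ := by simp only [mul_assoc]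

theorem GN_right {u a : K →L[ℂ] K} (hu : u ∈ C.GN) (ha : a ∈ C.A) :
    u * a = (u * a * star u) * u := by
  rw [mul_assoc (u * a)]
  exact C.GN_comm hu ha

theorem E_mul_star_GN {u x : K →L[ℂ] K} (hu : u ∈ C.GN) (hx : x ∈ C.M) :
    u * C.E (star u * x) * star u = C.E (x * star u) := by
  have h := C.E_conj (C.GN_star hu) (mul_mem (star_mem hu.1) hx)
  rw [star_star] at h
  have h3 : star u * (u * star u) = star u := by
    rw [← mul_assoc]
    simpa using (C.GN_star hu).2.1
  rw [← h, mul_assoc u, mul_assoc (star u) x, ← mul_assoc u,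
    C.E_mul_left (C.GN_mul_star_self hu) (mul_mem hx (star_mem hu.1)),
    C.A_comm (C.GN_mul_star_self hu) (C.E_mem _),
    ← C.E_mul_right (C.GN_mul_star_self hu) (mul_mem hx (star_mem hu.1)), mul_assoc x, h3]

/-- Where the expectation of `u* w` lives, `w` is a multiple of `u`. -/
theorem GN_split {u w : K →L[ℂ] K} (hu : u ∈ C.GN) (hw : w ∈ C.GN) :
    ∃ q : C(C.Spec, ℝ), q * q = q ∧ (∃ a ∈ C.A, C.op q * w = u * a) ∧
      C.op (1 - q) * C.E (w * star u) = 0 := by
  set x := star u * w with hxdef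
  set c := C.E x with hc
  have hx : x ∈ C.GN := C.GN_mul (C.GN_star hu) hw
  have hcA : c ∈ C.A := C.E_mem x
  obtain ⟨P, hPA, hsP, hPc2, hann⟩ :=
    C.exists_range_proj (mul_mem (star_mem hcA) hcA) (IsSelfAdjoint.star_mul_self c)
  have hPc : P * c = c := by
    have h0 : star ((1 - P) * c) * ((1 - P) * c) = 0 := by
      have h1 : (1 - P) * (1 - P) = 1 - P := hsP.one_sub.isIdempotentElem
      rw [star_mul, hsP.one_sub.isSelfAdjoint.star_eq, mul_assoc, ← mul_assoc (1 - P), h1,
        ← mul_assoc, C.A_comm (star_mem hcA) (sub_mem (one_mem _) hPA), mul_assoc, sub_mul, hPc2,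
        one_mul, sub_self]
    have := (CStarRing.star_mul_self_eq_zero_iff _).1 h0
    rwa [sub_mul, one_mul, sub_eq_zero, eq_comm] at this
  have hPx : P * x = c := by
    have hA : P * x ∈ C.A := by
      refine (C.hA _ (mul_mem (C.hAM hPA) hx.1)).2 fun a ha => ?_
      have hσ : x * a * star x ∈ C.A := hx.2.2.1 a ha
      have h1 : (x * a * star x - a) * c = 0 := by
        have h := C.E_mul_left hσ hx.1
        rw [← C.GN_right hx ha, C.E_mul_right ha hx.1, ← hc, C.A_comm hcA ha] at h
        rw [sub_mul, h, sub_self]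
      have h2 : (x * a * star x - a) * (star c * c) = 0 := by
        rw [← mul_assoc, C.A_comm (sub_mem hσ ha) (star_mem hcA), mul_assoc, h1, mul_zero]
      have h3 := hann _ h2
      rw [sub_mul, sub_eq_zero, C.A_comm hσ hPA, C.A_comm ha hPA] at h3
      calc P * x * a = P * (x * a * star x) * x := by
            rw [mul_assoc P (x * a * star x), ← C.GN_right hx ha, mul_assoc]
        _ = a * P * x := by rw [h3, C.A_comm hPA ha]
        _ = a * (P * x) := mul_assoc _ _ _
    rw [← C.E_of_mem hA, C.E_mul_left hPA hx.1, ← hc, hPc]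
  have hop : C.op (C.re P) = P := C.op_re hPA hsP.isSelfAdjoint
  have hp : C.re P * C.re P = C.re P :=
    C.op_inj (by rw [map_mul, hop]; exact hsP.isIdempotentElem)
  refine ⟨C.img u (C.re P), C.img_idem hu hp, ⟨c, hcA, ?_⟩, ?_⟩
  · rw [C.op_img hu, hop, mul_assoc, ← hxdef, mul_assoc, hPx]
  · rw [← C.E_mul_star_GN hu hw.1, ← hxdef, ← hc, map_sub, map_one, sub_mul, one_mul, C.op_img hu,
      hop, sub_eq_zero]
    calc u * c * star u = u * ((star u * u) * (P * c)) * star u := by
          rw [hPc, C.A_comm (C.GN_star_mul_self hu) hcA, ← mul_assoc u c, ← C.GN_comm hu hcA]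
      _ = u * (P * (star u * u) * c) * star u := by
          rw [← mul_assoc (star u * u), C.A_comm (C.GN_star_mul_self hu) hPA]
      _ = _ := by simp only [mul_assoc]

theorem spanA_left {n : ℕ} {u : Fin n → K →L[ℂ] K} (hu : ∀ k, u k ∈ C.GN) {b x : K →L[ℂ] K}
    (hb : b ∈ C.A) (hx : x ∈ C.spanA u) : b * x ∈ C.spanA u := by
  induction hx using Submodule.span_induction with
  | mem x hx =>
    obtain ⟨k, a, ha, rfl⟩ := hx
    refine Submodule.subset_span ⟨k, star (u k) * b * u k * a, mul_mem ((hu k).2.2.2 b hb) ha, ?_⟩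
    rw [← mul_assoc, C.GN_left (hu k) hb, mul_assoc]
  | zero => rw [mul_zero]; exact Submodule.zero_mem _
  | add x y _ _ h1 h2 => rw [mul_add]; exact Submodule.add_mem _ h1 h2
  | smul c x _ h1 => rw [mul_smul_comm]; exact Submodule.smul_mem _ c h1

theorem spanA_star {n : ℕ} {u : Fin n → K →L[ℂ] K} (hu : ∀ k, u k ∈ C.GN) {x : K →L[ℂ] K}
    (hx : x ∈ C.spanA u) : star x ∈ C.spanA fun k => star (u k) := by
  induction hx using Submodule.span_induction with
  | mem x hx =>
    obtain ⟨k, a, ha, rfl⟩ := hx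
    refine Submodule.subset_span ⟨k, star (star (u k)) * star a * star (u k),
      (C.GN_star (hu k)).2.2.2 _ (star_mem ha), ?_⟩
    rw [star_mul]
    exact C.GN_left (C.GN_star (hu k)) (star_mem ha)
  | zero => rw [star_zero]; exact Submodule.zero_mem _
  | add x y _ _ h1 h2 => rw [star_add]; exact Submodule.add_mem _ h1 h2
  | smul c x _ h1 => rw [star_smul]; exact Submodule.smul_mem _ _ h1

/-- Finitely many normalisers lie in the span of an orthogonal family. -/
theorem exists_orth (W : Finset (K →L[ℂ] K)) (hW : ∀ w ∈ W, w ∈ C.GN) :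
    ∃ (n : ℕ) (u : Fin n → K →L[ℂ] K), (∀ k, u k ∈ C.GN) ∧
      (∀ k l, k ≠ l → C.E (u k * star (u l)) = 0) ∧ ∀ w ∈ W, w ∈ C.spanA u := by
  classical
  induction W using Finset.induction_on with
  | empty => exact ⟨0, Fin.elim0, fun k => k.elim0, fun k => k.elim0, by simp⟩
  | @insert w W _ ih =>
    obtain ⟨n, u, hu, horth, hspan⟩ := ih fun v hv => hW v (Finset.mem_insert_of_mem hv)
    have hw := hW w (Finset.mem_insert_self w W)
    choose q hq ha hz using fun k => C.GN_split (hu k) hw
    set Q := ∏ k, (1 - q k) with hQdef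
    have hQ : Q * Q = Q := by
      rw [hQdef, ← Finset.prod_mul_distrib]
      exact Finset.prod_congr rfl fun k _ => C.idem_one_sub (hq k)
    have hrest : ∀ s : Finset (Fin n), w - C.op (∏ k ∈ s, (1 - q k)) * w ∈ C.spanA u := by
      intro s
      induction s using Finset.induction_on with
      | empty => simp
      | @insert k s hk ihs =>
        obtain ⟨a, haA, he⟩ := ha k
        have e : w - C.op (∏ j ∈ insert k s, (1 - q j)) * w =
            (w - C.op (∏ j ∈ s, (1 - q j)) * w) +
              C.op (∏ j ∈ s, (1 - q j)) * (C.op (q k) * w) := by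
          rw [Finset.prod_insert hk, mul_comm (1 - q k), map_mul, map_sub, map_one, mul_sub,
            mul_one, sub_mul]
          simp only [mul_assoc]
          abel
        rw [e]
        exact Submodule.add_mem _ ihs (C.spanA_left hu (C.op_mem _)
          (he ▸ Submodule.subset_span ⟨k, a, haA, rfl⟩))
    set v := C.op Q * w with hv
    have hvk : ∀ k, C.E (v * star (u k)) = 0 := fun k => by
      rw [hv, mul_assoc, C.E_mul_left (C.op_mem Q) (mul_mem hw.1 (star_mem (hu k).1)), hQdef,
        ← Finset.mul_prod_erase _ _ (Finset.mem_univ k), mul_comm, map_mul, mul_assoc, hz k,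
        mul_zero]
    have hkv : ∀ k, C.E (u k * star v) = 0 := fun k => by
      have h := C.E_star (mul_mem (mul_mem (C.op_mem_M Q) hw.1) (star_mem (hu k).1))
      rw [← hv, hvk k, star_zero, star_mul, star_star] at h
      exact h
    refine ⟨n + 1, Fin.cons v u, ?_, ?_, ?_⟩
    · intro k
      refine Fin.cases ?_ (fun j => ?_) k
      · simpa [hv] using C.GN_mul (C.GN_op hQ) hw
      · simpa using hu j
    · intro k l
      refine Fin.cases (fun h => ?_) (fun i h => ?_) k
      · revert h
        refine Fin.cases (fun h => absurd rfl h) (fun j _ => ?_) l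
        simpa using hvk j
      · revert h
        refine Fin.cases (fun _ => ?_) (fun j h => ?_) l
        · simpa using hkv i
        · simpa using horth i j fun e => h (by rw [e])
    · have hmono : C.spanA u ≤ C.spanA (Fin.cons v u) := by
        refine Submodule.span_mono ?_
        rintro x ⟨k, a, haA, rfl⟩
        exact ⟨k.succ, a, haA, by simp⟩
      intro x hx
      rcases Finset.mem_insert.1 hx with rfl | hx
      · have hvmem : v ∈ C.spanA (Fin.cons v u) :=
          Submodule.subset_span ⟨0, 1, one_mem _, by simp⟩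
        simpa [hv, hQdef] using Submodule.add_mem _ (hmono (hrest Finset.univ)) hvmem
      · exact hmono (hspan x hx)

theorem exists_span_near (a : K →L[ℂ] K) {κ : ℝ} (hκ : 0 < κ) :
    ∃ a0 ∈ Submodule.span ℂ C.GN, ∀ v ∈ C.N, ‖⟪v, (a - a0) C.Ω⟫_ℂ‖ ≤ κ * ‖v‖ := by
  have hmem : C.N.starProjection (a C.Ω) ∈ closure
      ((Submodule.span ℂ ((fun u : K →L[ℂ] K => u C.Ω) '' C.GN) : Submodule ℂ K) : Set K) :=
    C.N.starProjection_apply_mem (a C.Ω)
  obtain ⟨z, hz, hd⟩ := Metric.mem_closure_iff.1 hmem κ hκ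
  have himg : Submodule.span ℂ ((fun u : K →L[ℂ] K => u C.Ω) '' C.GN) =
      (Submodule.span ℂ C.GN).map (ContinuousLinearMap.apply ℂ K C.Ω).toLinearMap := by
    rw [Submodule.map_span]
    rfl
  rw [himg] at hz
  obtain ⟨a0, ha0, rfl⟩ := hz
  refine ⟨a0, ha0, fun v hv => ?_⟩
  have e : ⟪v, a C.Ω⟫_ℂ = ⟪v, C.N.starProjection (a C.Ω)⟫_ℂ := by
    have h := Submodule.starProjection_inner_eq_zero (K := C.N) (a C.Ω) v hv
    rw [← inner_conj_symm, map_eq_zero, inner_sub_right, sub_eq_zero] at h
    exact h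
  rw [sub_apply, inner_sub_right, e, ← inner_sub_right, mul_comm]
  refine (norm_inner_le_norm _ _).trans (mul_le_mul_of_nonneg_left ?_ (norm_nonneg _))
  rw [← dist_eq_norm]
  exact hd.le

/-- An orthogonal family stays below `g ↦ E (X g X)`; the defect is small on fine partitions. -/
theorem family_side {X : K →L[ℂ] K} (hX : X ∈ C.M) (hs : IsSelfAdjoint X) {n : ℕ}
    {v : Fin n → K →L[ℂ] K} (hv : ∀ k, v k ∈ C.GN)
    (horth : ∀ k l, k ≠ l → C.E (v k * star (v l)) = 0) {a0 : K →L[ℂ] K}
    (ha0 : a0 ∈ C.spanA fun k => star (v k)) {κ η : ℝ} (hκ : 0 ≤ κ) (hη : 0 < η)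
    (hnear : ∀ z ∈ C.N, ‖⟪z, (X - a0) C.Ω⟫_ℂ‖ ≤ κ * ‖z‖) :
    (∀ g, (∀ χ, 0 ≤ g χ) → ∀ χ, (∑ k, C.sqf (C.E (X * star (v k))) * C.img (v k) g) χ ≤
      C.Er (X * C.op g * X) χ) ∧
    ∀ᶠ s : Part C in atTop, ∑ c, C.intA ((C.Er (X * C.op (s.c c) * X) -
      ∑ k, C.sqf (C.E (X * star (v k))) * C.img (v k) (s.c c)) ^ 2) ≤
        ‖X‖ ^ 2 * (2 * κ) ^ 2 + η := by
  set a := fun k => C.E (X * star (v k)) with ha
  set X0 := ∑ k, a k * v k with hX0
  set y := X - X0 with hy
  have hXv : ∀ k, X * star (v k) ∈ C.M := fun k => mul_mem hX (star_mem (hv k).1)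
  have haA : ∀ k, a k ∈ C.A := fun k => C.E_mem _
  have hX0M : X0 ∈ C.M := sum_mem fun k _ => mul_mem (C.hAM (haA k)) (hv k).1
  have hyM : y ∈ C.M := sub_mem hX hX0M
  have havv : ∀ k, a k * (v k * star (v k)) = a k := fun k => by
    change C.E (X * star (v k)) * _ = _
    rw [← C.E_mul_right (C.GN_mul_star_self (hv k)) (hXv k), mul_assoc,
      show star (v k) * (v k * star (v k)) = star (v k) by
        rw [← mul_assoc]; simpa using (C.GN_star (hv k)).2.1]
  have hyv : ∀ l, C.E (y * star (v l)) = 0 := fun l => by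
    rw [hy, sub_mul, C.E_sub (hXv l) (mul_mem hX0M (star_mem (hv l).1)), hX0, Finset.sum_mul,
      C.E_sum _ fun k _ => mul_mem (mul_mem (C.hAM (haA k)) (hv k).1) (star_mem (hv l).1),
      Finset.sum_eq_single l, mul_assoc, C.E_of_mem (mul_mem (haA l) (C.GN_mul_star_self (hv l))),
      havv l, sub_self]
    · intro k _ hk
      rw [mul_assoc, C.E_mul_left (haA k) (mul_mem (hv k).1 (star_mem (hv l).1)), horth k l hk,
        mul_zero]
    · exact fun h => absurd (Finset.mem_univ l) h
  have hsv : ∀ k, C.E (v k * X) = star (a k) := fun k => by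
    rw [ha, ← C.E_star (hXv k), star_mul, star_star, hs.star_eq]
  have key : ∀ g, C.op (C.Er (X * C.op g * X) -
      ∑ k, C.sqf (a k) * C.img (v k) g) = C.E (y * C.op g * X) := by
    intro g
    have hg := C.op_mem_M g
    rw [hy, sub_mul, sub_mul, C.E_sub (mul_mem (mul_mem hX hg) hX)
        (mul_mem (mul_mem hX0M hg) hX), map_sub,
      C.op_Er (mul_mem (mul_mem hX hg) hX)
        (by rw [IsSelfAdjoint, star_mul, star_mul, hs.star_eq, (C.op_sa g).star_eq, mul_assoc]),
      map_sum, hX0, Finset.sum_mul, Finset.sum_mul,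
      C.E_sum _ fun k _ => mul_mem (mul_mem (mul_mem (C.hAM (haA k)) (hv k).1) hg) hX]
    congr 1
    refine Finset.sum_congr rfl fun k _ => ?_
    have hi : C.op (C.img (v k) g) ∈ C.A := C.op_mem _
    rw [mul_assoc (a k), C.GN_right (hv k) (C.op_mem g), ← C.op_img (hv k), ← mul_assoc (a k),
      mul_assoc (a k * _), C.E_mul_left (mul_mem (haA k) hi) (mul_mem (hv k).1 hX), hsv, map_mul,
      C.op_sqf (haA k), C.A_comm (haA k) hi, C.A_comm (mul_mem hi (haA k)) (star_mem (haA k)),
      C.A_comm hi (haA k), mul_assoc]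
  have pos : ∀ g, C.E (y * C.op g * X) = C.E (y * C.op g * star y) := by
    intro g
    have hg := mul_mem hyM (C.op_mem_M g)
    have e : X = star y + ∑ k, star (v k) * star (a k) := by
      rw [hy, star_sub, hs.star_eq, hX0, star_sum]
      simp [star_mul]
    conv_lhs => rw [e]
    rw [mul_add, C.E_add (mul_mem hg (star_mem hyM))
      (mul_mem hg (sum_mem fun k _ => mul_mem (star_mem (hv k).1) (star_mem (C.hAM (haA k))))),
      Finset.mul_sum, C.E_sum _ fun k _ => mul_mem hg
        (mul_mem (star_mem (hv k).1) (star_mem (C.hAM (haA k)))), Finset.sum_eq_zero, add_zero]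
    intro k _
    have e2 : C.op g * star (v k) = star (v k) * C.op (C.img (v k) g) := by
      rw [C.GN_left (C.GN_star (hv k)) (C.op_mem g), star_star, ← C.op_img (hv k)]
    rw [mul_assoc y, ← mul_assoc (C.op g), e2, mul_assoc (star (v k)), ← mul_assoc y,
      C.E_mul_right (mul_mem (C.op_mem _) (star_mem (haA k))) (mul_mem hyM (star_mem (hv k).1)),
      hyv, zero_mul]
  refine ⟨fun g hg χ => ?_, ?_⟩
  · have h : 0 ≤ C.op (C.Er (X * C.op g * X) - ∑ k, C.sqf (a k) * C.img (v k) g) := by
      rw [key, pos]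
      exact C.E_nonneg (mul_mem (mul_mem hyM (C.op_mem_M g)) (star_mem hyM))
        (star_right_conjugate_nonneg (C.op_nonneg hg) y)
    exact sub_nonneg.1 (C.apply_nonneg h χ)
  have hperp : ∀ z ∈ C.spanA (fun k => star (v k)),
      z C.Ω ∈ C.N ∧ ⟪z C.Ω, star y C.Ω⟫_ℂ = 0 := by
    intro z hz
    induction hz using Submodule.span_induction with
    | mem z hz =>
      obtain ⟨k, b, hb, rfl⟩ := hz
      refine ⟨?_, ?_⟩
      · rw [C.decomp hb, mul_add, mul_smul_comm, add_apply, smul_apply]
        exact C.N.add_mem (C.GN_op_apply_mem_N (C.GN_star (hv k)) _)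
          (C.N.smul_mem _ (C.GN_op_apply_mem_N (C.GN_star (hv k)) _))
      · rw [C.inner_apply, star_mul, star_star, mul_assoc,
          ← C.tr_E (mul_mem (C.hAM (star_mem hb)) (mul_mem (hv k).1 (star_mem hyM))),
          C.E_mul_left (star_mem hb) (mul_mem (hv k).1 (star_mem hyM))]
        have h := C.E_star (mul_mem hyM (star_mem (hv k).1))
        rw [star_mul, star_star, hyv, star_zero] at h
        simp [h, tr]
    | zero => simp
    | add x z _ _ h1 h2 =>
      rw [add_apply, inner_add_left, h1.2, h2.2, add_zero]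
      exact ⟨C.N.add_mem h1.1 h2.1, rfl⟩
    | smul c x _ h1 =>
      rw [smul_apply, inner_smul_left, h1.2, mul_zero]
      exact ⟨C.N.smul_mem c h1.1, rfl⟩
  have hX0' : star X0 ∈ C.spanA fun k => star (v k) := by
    rw [hX0, star_sum]
    exact Submodule.sum_mem _ fun k _ => Submodule.subset_span
      ⟨k, star (a k), star_mem (haA k), star_mul _ _⟩
  have hd := hperp _ (Submodule.sub_mem _ ha0 hX0')
  set d := (a0 - star X0) C.Ω with hddef
  have hsplit : star y C.Ω = (X - a0) C.Ω + d := by
    simp [hy, hs.star_eq, hddef, star_sub]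
  have hdκ : ‖d‖ ≤ κ := by
    have h0 := hd.2
    rw [hsplit, inner_add_right, add_comm, add_eq_zero_iff_eq_neg] at h0
    have h1 := congrArg (fun w : ℂ => ‖w‖) h0
    simp only [norm_neg, inner_self_eq_norm_sq_to_K, norm_pow] at h1
    have h2 := hnear d hd.1
    rcases (norm_nonneg d).eq_or_lt with h | h
    · rw [← h]; exact hκ
    · refine le_of_mul_le_mul_right ?_ h
      rw [← sq]
      simpa using h1.trans_le h2
  have hy' : ∀ z ∈ C.N, ‖⟪z, star y C.Ω⟫_ℂ‖ ≤ (2 * κ) * ‖z‖ := by
    intro z hz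
    rw [hsplit, inner_add_right]
    refine (norm_add_le _ _).trans ?_
    have := (norm_inner_le_norm (𝕜 := ℂ) z d).trans
      (mul_le_mul_of_nonneg_left hdκ (norm_nonneg z))
    linarith [hnear z hz]
  filter_upwards [C.eventually_nrm_E_le hyM hX (fun w hw _ => C.inter_apply_mem_N hw) hy' hη]
    with s h
  refine le_trans (le_of_eq (Finset.sum_congr rfl fun c _ => ?_)) h
  rw [sq, ← C.nrm_op_sq, ← key]

/-- The weighted normalisers approximating `g ↦ E (X g X)` from below. -/
theorem exists_family {X : K →L[ℂ] K} (hX : X ∈ C.M) (hs : IsSelfAdjoint X) {ε : ℝ}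
    (hε : 0 < ε) :
    ∃ (n : ℕ) (f : Fin n → C(C.Spec, ℝ)) (u : Fin n → K →L[ℂ] K), (∀ k, u k ∈ C.GN) ∧
      (∀ k χ, 0 ≤ f k χ) ∧
      (∀ g, (∀ χ, 0 ≤ g χ) → ∀ χ, C.symOp f u g χ ≤ C.Er (X * C.op g * X) χ) ∧
      ∀ᶠ s : Part C in atTop,
        ∑ c, C.intA ((C.Er (X * C.op (s.c c) * X) - C.symOp f u (s.c c)) ^ 2) ≤ ε := by
  classical
  set κ := √(ε / (8 * (‖X‖ ^ 2 + 1))) with hκdef
  have hκ : 0 < κ := Real.sqrt_pos.2 (by positivity)
  obtain ⟨a0, ha0, hnear⟩ := C.exists_span_near X hκ
  obtain ⟨W, hW, haW⟩ := Submodule.mem_span_finite_of_mem_span ha0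
  obtain ⟨n, u, hu, horth, hspan⟩ := C.exists_orth (W ∪ W.image star) fun w hw => by
    rcases Finset.mem_union.1 hw with hw | hw
    · exact hW hw
    · obtain ⟨x, hx, rfl⟩ := Finset.mem_image.1 hw
      exact C.GN_star (hW hx)
  have hboth : a0 ∈ C.spanA u ∧ star a0 ∈ C.spanA u := by
    clear hnear ha0
    induction haW using Submodule.span_induction with
    | mem x hx => exact ⟨hspan x (Finset.mem_union_left _ hx),
        hspan _ (Finset.mem_union_right _ (Finset.mem_image_of_mem star hx))⟩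
    | zero => simp
    | add x z _ _ h1 h2 => exact ⟨Submodule.add_mem _ h1.1 h2.1,
        by rw [star_add]; exact Submodule.add_mem _ h1.2 h2.2⟩
    | smul c x _ h1 => exact ⟨Submodule.smul_mem _ c h1.1,
        by rw [star_smul]; exact Submodule.smul_mem _ _ h1.2⟩
  have horth' : ∀ k l, k ≠ l → C.E (star (u k) * star (star (u l))) = 0 := by
    intro k l hkl
    have h := C.E_mul_star_GN (C.GN_star (hu l)) (star_mem (hu k).1)
    simp only [star_star] at h ⊢
    rw [← h, horth l k hkl.symm]
    simp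
  obtain ⟨b1, e1⟩ := C.family_side hX hs hu horth
    (by simpa using C.spanA_star hu hboth.2) hκ.le (half_pos hε) hnear
  obtain ⟨b2, e2⟩ := C.family_side hX hs (fun k => C.GN_star (hu k)) horth'
    (by simpa using hboth.1) hκ.le (half_pos hε) hnear
  set f := fun k => C.sqf (C.E (X * star (u k))) with hf
  have himg : ∀ k, C.sqf (C.E (X * star (star (u k)))) = C.img (star (u k)) (f k) := by
    intro k
    have hm : X * star (u k) ∈ C.M := mul_mem hX (star_mem (hu k).1)
    set c := C.E (X * star (u k)) with hc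
    have hcA : c ∈ C.A := C.E_mem _
    have e : star (u k) * c * u k = star (C.E (X * u k)) := by
      rw [hc, ← C.E_conj (hu k) hm, ← mul_assoc (star (u k)), mul_assoc _ _ (u k),
        C.E_mul_right (C.GN_star_mul_self (hu k)) (mul_mem (star_mem (hu k).1) hX),
        C.A_comm (C.E_mem _) (C.GN_star_mul_self (hu k)),
        ← C.E_mul_left (C.GN_star_mul_self (hu k)) (mul_mem (star_mem (hu k).1) hX),
        ← mul_assoc _ _ X, show star (u k) * u k * star (u k) = star (u k) by
          simpa using (C.GN_star (hu k)).2.1,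
        ← C.E_star (mul_mem hX (hu k).1), star_mul, hs.star_eq]
    refine C.op_inj ?_
    rw [star_star, C.op_sqf (C.E_mem _), C.op_img (C.GN_star (hu k)), hf, C.op_sqf hcA, star_star,
      C.A_comm (star_mem (C.E_mem _)) (C.E_mem _)]
    have e' := congrArg star e
    rw [star_mul, star_mul, star_star, star_star, ← mul_assoc] at e'
    rw [← e, ← e']
    calc star (u k) * star c * u k * (star (u k) * c * u k)
        = star (u k) * (star c * (u k * star (u k))) * c * u k := by simp only [mul_assoc]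
      _ = (star (u k) * (u k * star (u k))) * star c * c * u k := by
          rw [C.A_comm (star_mem hcA) (C.GN_mul_star_self (hu k))]
          simp only [mul_assoc]
      _ = star (u k) * (star c * c) * u k := by
          rw [show star (u k) * (u k * star (u k)) = star (u k) by
              rw [← mul_assoc]; simpa using (C.GN_star (hu k)).2.1,
            mul_assoc (star (u k))]
  have hsym : ∀ g, C.symOp f u g = (1 / 2 : ℝ) • ((∑ k, f k * C.img (u k) g) +
      ∑ k, C.sqf (C.E (X * star (star (u k)))) * C.img (star (u k)) g) := by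
    intro g
    simp only [himg]
    rw [symOp, smul_apply, _root_.sum_apply, ← Finset.sum_add_distrib]
    congr 1
    exact Finset.sum_congr rfl fun k _ => by
      rw [add_apply, C.mono_apply _ (hu k), C.mono_apply _ (C.GN_star (hu k))]
  refine ⟨n, f, u, hu, fun k χ => Complex.normSq_nonneg _, fun g hg χ => ?_, ?_⟩
  · rw [hsym]
    simp only [ContinuousMap.smul_apply, ContinuousMap.add_apply, smul_eq_mul]
    linarith [b1 g hg χ, b2 g hg χ]
  filter_upwards [e1, e2] with s h1 h2
  have hb : ‖X‖ ^ 2 * (2 * κ) ^ 2 ≤ ε / 2 := by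
    have hk2 : κ ^ 2 * (8 * (‖X‖ ^ 2 + 1)) = ε := by
      rw [hκdef, Real.sq_sqrt (by positivity)]
      field_simp
    nlinarith [sq_nonneg κ]
  have hpt : ∀ c, C.intA ((C.Er (X * C.op (s.c c) * X) - C.symOp f u (s.c c)) ^ 2) ≤
      (1 / 2) * C.intA ((C.Er (X * C.op (s.c c) * X) - ∑ k, f k * C.img (u k) (s.c c)) ^ 2) +
      (1 / 2) * C.intA ((C.Er (X * C.op (s.c c) * X) -
        ∑ k, C.sqf (C.E (X * star (star (u k)))) * C.img (star (u k)) (s.c c)) ^ 2) := by
    intro c
    rw [← C.intA_smul, ← C.intA_smul, ← C.intA_add, hsym]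
    refine C.intA_mono fun χ => ?_
    simp only [sq, ContinuousMap.mul_apply, ContinuousMap.sub_apply, ContinuousMap.smul_apply,
      ContinuousMap.add_apply, smul_eq_mul]
    nlinarith [sq_nonneg ((∑ k, f k * C.img (u k) (s.c c)) χ -
      (∑ k, C.sqf (C.E (X * star (star (u k)))) * C.img (star (u k)) (s.c c)) χ)]
  refine (Finset.sum_le_sum fun c _ => hpt c).trans ?_
  rw [Finset.sum_add_distrib, ← Finset.mul_sum, ← Finset.mul_sum, hf]
  linarith

end Ctx

end Vale.Agent.P078.Expected
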