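import Vale.Agent.P078.Expected.Norm.Forms
import Vale.Agent.P078.Finite.Lifts

/-!
The cut-off kernel of finitely many operators with transposes, and sign patterns on which summed
forms do no worse than their pairings.
-/

noncomputable section

open scoped InnerProductSpace
open Filter Topology

namespace Vale.Agent.P078.Expected

universe u

variable {K : Type u} [NormedAddCommGroup K] [InnerProductSpace ℂ K] [CompleteSpace K]

namespace Ctx

variable (C : Ctx K) {r : ℕ}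

theorem rem_mem {G : C.Op} (hG : G ∈ C.Ops) (c : ℝ) : C.rem G c ∈ C.Ops :=
  sub_mem C.one_mem_Ops (Submodule.smul_mem _ _ hG)

theorem neum_mem {G : C.Op} (hG : G ∈ C.Ops) (c : ℝ) (n : ℕ) : C.neum G c n ∈ C.Ops :=
  Submodule.smul_mem _ _ (sum_mem fun k _ => C.pow_mem_Ops (C.rem_mem hG c) k)

theorem adj_rem {G : C.Op} (hG : C.Adj G G) (c : ℝ) : C.Adj (C.rem G c) (C.rem G c) :=
  C.adj_one.sub (hG.smul _)

theorem adj_neum {G : C.Op} (hG : C.Adj G G) (c : ℝ) (n : ℕ) :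
    C.Adj (C.neum G c n) (C.neum G c n) :=
  (Adj.sum _ fun k _ => (C.adj_rem hG c).pow C k).smul _

theorem adj_gram {Lo Lt : Fin r → C.Op} (h : ∀ j, C.Adj (Lo j) (Lt j)) :
    C.Adj (∑ j, Lo j * Lt j) (∑ j, Lo j * Lt j) :=
  Adj.sum _ fun j _ => (h j).mul (h j).symm

theorem smul_rem {G : C.Op} {c : ℝ} (hc : c ≠ 0) : c • (1 - C.rem G c) = G := by
  rw [rem, sub_sub_cancel, smul_smul, mul_inv_cancel₀ hc, one_smul]

theorem mul_neum {G : C.Op} {c : ℝ} (hc : c ≠ 0) (n : ℕ) :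
    G * C.neum G c n = 1 - C.rem G c ^ n := by
  conv_lhs => arg 1; rw [← C.smul_rem (G := G) hc]
  rw [neum, smul_mul_assoc, mul_smul_comm, smul_smul, mul_inv_cancel₀ hc, one_smul,
    mul_neg_geom_sum]

theorem neum_two_mul {G : C.Op} {c : ℝ} (hc : c ≠ 0) (n : ℕ) :
    C.neum G c (2 * n) =
      C.neum G c n + C.neum G c n - C.neum G c n * G * C.neum G c n := by
  rw [mul_assoc _ G, C.mul_neum hc, mul_sub, mul_one]
  have e : C.neum G c n * C.rem G c ^ n =
      c⁻¹ • ∑ k ∈ Finset.range n, C.rem G c ^ (n + k) := by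
    rw [neum, smul_mul_assoc, Finset.sum_mul]
    refine congrArg _ (Finset.sum_congr rfl fun k _ => ?_)
    rw [← pow_add, add_comm]
  rw [e, neum, neum, two_mul, Finset.sum_range_add, smul_add]
  abel

theorem sum_mul_kerBlock {Lo Lt : Fin r → C.Op} {c : ℝ} (hc : c ≠ 0) (n : ℕ) (i : Fin r) :
    ∑ j, Lo j * C.kerBlock Lo Lt c n j i = C.rem (∑ j, Lo j * Lt j) c ^ n * Lo i := by
  have e : ∀ j, Lo j * C.kerBlock Lo Lt c n j i = (if j = i then Lo j else 0) -
      Lo j * Lt j * (C.neum (∑ k, Lo k * Lt k) c n * Lo i) := fun j => by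
    rw [kerBlock, mul_sub, mul_ite, mul_one, mul_zero]
    simp only [mul_assoc]
  rw [Finset.sum_congr rfl fun j _ => e j, Finset.sum_sub_distrib, ← Finset.sum_mul, ← mul_assoc,
    C.mul_neum hc, sub_mul, one_mul]
  simp

theorem sum_kerBlock_mul {Lo Lt : Fin r → C.Op} {c : ℝ} (hc : c ≠ 0) (n : ℕ) (j : Fin r) :
    ∑ i, C.kerBlock Lo Lt c n j i * C.kerBlock Lo Lt c n i j =
      1 - Lt j * C.neum (∑ k, Lo k * Lt k) c (2 * n) * Lo j := by
  rw [C.neum_two_mul hc]
  set G := ∑ k, Lo k * Lt k with hG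
  set h := C.neum G c n with hh
  have e : ∀ i, C.kerBlock Lo Lt c n j i * C.kerBlock Lo Lt c n i j =
      (if j = i then 1 else 0) - (if j = i then Lt j * h * Lo j else 0) -
        (if j = i then Lt j * h * Lo j else 0) + Lt j * h * (Lo i * Lt i) * h * Lo j := by
    intro i
    simp only [kerBlock, ← hG, ← hh]
    rcases eq_or_ne j i with rfl | hne
    · simp only [if_true, sub_mul, mul_sub, one_mul, mul_one, mul_assoc]
      abel
    · simp only [if_neg hne, if_neg hne.symm, sub_mul, mul_sub, zero_mul, mul_zero, mul_assoc]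
      abel
  rw [Finset.sum_congr rfl fun i _ => e i, Finset.sum_add_distrib, Finset.sum_sub_distrib,
    Finset.sum_sub_distrib, ← Finset.sum_mul, ← Finset.sum_mul, ← Finset.mul_sum, ← hG]
  simp only [Finset.sum_ite_eq, Finset.mem_univ, if_true, add_mul, mul_add, sub_mul, mul_sub,
    mul_assoc]
  abel

theorem kerBlock_mem {Lo Lt : Fin r → C.Op} (h : ∀ j, C.Adj (Lo j) (Lt j)) (c : ℝ) (n : ℕ)
    (j i : Fin r) : C.kerBlock Lo Lt c n j i ∈ C.Ops := by
  refine sub_mem ?_ (C.mul_mem_Ops (C.mul_mem_Ops (h j).right_mem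
    (C.neum_mem (C.adj_gram h).left_mem c n)) (h i).left_mem)
  split_ifs
  exacts [C.one_mem_Ops, zero_mem _]

theorem adj_kerBlock {Lo Lt : Fin r → C.Op} (h : ∀ j, C.Adj (Lo j) (Lt j)) (c : ℝ) (n : ℕ)
    (j i : Fin r) : C.Adj (C.kerBlock Lo Lt c n j i) (C.kerBlock Lo Lt c n i j) := by
  unfold kerBlock
  have h2 := ((h j).symm.mul (C.adj_neum (C.adj_gram h) c n)).mul (h i)
  rw [← mul_assoc (Lt i)] at h2
  rcases eq_or_ne j i with rfl | hne
  · rw [if_pos rfl]
    exact C.adj_one.sub h2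
  · rw [if_neg hne, if_neg hne.symm]
    exact Adj.zero.sub h2

theorem norm_rem_le_two {G : C.Op} {c : ℝ} (hc : 0 < c) (hG : ‖G‖ ≤ c) : ‖C.rem G c‖ ≤ 2 := by
  have h2 : ‖c⁻¹ • G‖ ≤ 1 := by
    refine (ContinuousLinearMap.opNorm_smul_le _ _).trans ?_
    rw [Real.norm_eq_abs, abs_of_pos (inv_pos.2 hc), inv_mul_le_iff₀ hc, mul_one]
    exact hG
  have h3 : ‖C.rem G c‖ ≤ ‖(1 : C.Op)‖ + ‖c⁻¹ • G‖ := norm_sub_le (E := C.Op) _ _
  linarith [C.norm_one_Op_le]

theorem norm_kerBlock_le {Lo Lt : Fin r → C.Op} {c : ℝ} (hc : 0 < c)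
    (hG : ‖∑ k, Lo k * Lt k‖ ≤ c) (n : ℕ) (j i : Fin r) :
    ‖C.kerBlock Lo Lt c n j i‖ ≤ 1 + ‖Lt j‖ * ‖Lo i‖ * (c⁻¹ * n * 2 ^ n) := by
  have hn : ‖C.neum (∑ k, Lo k * Lt k) c n‖ ≤ c⁻¹ * n * 2 ^ n := by
    refine (ContinuousLinearMap.opNorm_smul_le _ _).trans ?_
    rw [Real.norm_eq_abs, abs_of_pos (inv_pos.2 hc), mul_assoc]
    refine mul_le_mul_of_nonneg_left ?_ (inv_nonneg.2 hc.le)
    refine (norm_sum_le (E := C.Op) _ _).trans ((Finset.sum_le_card_nsmul _ _ (2 ^ n)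
      fun k hk => ?_).trans_eq ?_)
    · exact ((C.norm_pow_Op_le _ k).trans (pow_le_pow_left₀ (ContinuousLinearMap.opNorm_nonneg _)
        (C.norm_rem_le_two hc hG) k)).trans
        (pow_le_pow_right₀ one_le_two (Finset.mem_range.1 hk).le)
    · rw [Finset.card_range, nsmul_eq_mul]
  refine (norm_sub_le (E := C.Op) _ _).trans (add_le_add ?_ ?_)
  · split_ifs
    · exact C.norm_one_Op_le
    · exact ContinuousLinearMap.opNorm_zero.trans_le zero_le_one
  · refine (C.norm_mul_Op_le _ _).trans ((mul_le_mul_of_nonneg_right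
      ((C.norm_mul_Op_le _ _).trans (mul_le_mul_of_nonneg_left hn
        (ContinuousLinearMap.opNorm_nonneg _))) (ContinuousLinearMap.opNorm_nonneg _)).trans_eq ?_)
    ring

namespace Form

variable {C} {F : Form C} {Lo Lt : Fin r → C.Op} {c : ℝ}

theorem pair_gram_nonneg (hP : F.PSD) (h : ∀ j, C.Adj (Lo j) (Lt j)) {X : C.Op}
    (hX : X ∈ C.Ops) : 0 ≤ F.pair (X * ∑ j, Lo j * Lt j) X := by
  rw [Finset.mul_sum, F.pair_sum_left _ (fun j _ =>
    C.mul_mem_Ops hX (C.mul_mem_Ops (h j).left_mem (h j).right_mem)) hX]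
  refine Finset.sum_nonneg fun j _ => ?_
  rw [← mul_assoc, (h j).swap' F _ (C.mul_mem_Ops hX (h j).left_mem) X hX]
  exact F.pair_nonneg hP (C.mul_mem_Ops hX (h j).left_mem)

theorem pair_pow_rem_nonneg (hS : F.Symm) (hP : F.PSD) (h : ∀ j, C.Adj (Lo j) (Lt j))
    (hc : 0 < c) (hG : ‖∑ j, Lo j * Lt j‖ ≤ c) {X : C.Op} (hX : X ∈ C.Ops) (k : ℕ) :
    0 ≤ F.pair (X * C.rem (∑ j, Lo j * Lt j) c ^ k) X := by
  set G := ∑ j, Lo j * Lt j with hGdef
  have hGA : C.Adj G G := C.adj_gram h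
  have ha := C.adj_rem hGA c
  have hXa : ∀ m, X * C.rem G c ^ m ∈ C.Ops := fun m =>
    C.mul_mem_Ops hX (C.pow_mem_Ops ha.left_mem m)
  have hone : ∀ Z ∈ C.Ops, 0 ≤ F.pair (Z * C.rem G c) Z := by
    intro Z hZ
    have hle := (le_abs_self _).trans (abs_pair_mul_le hS hP hGA hZ)
    have hle' := hle.trans (mul_le_mul_of_nonneg_right hG (F.pair_nonneg hP hZ))
    have hZG := C.mul_mem_Ops hZ hGA.left_mem
    rw [rem, mul_sub, mul_one, mul_smul_comm,
      F.pair_sub_left hZ (Submodule.smul_mem _ _ hZG) hZ, F.pair_smul_left _ hZG hZ]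
    have := mul_le_mul_of_nonneg_left hle' (inv_nonneg.2 hc.le)
    rw [← mul_assoc, inv_mul_cancel₀ hc.ne', one_mul] at this
    linarith
  obtain ⟨m, rfl⟩ | ⟨m, rfl⟩ := Nat.even_or_odd k
  · rw [pow_add, ← mul_assoc, (ha.pow C m).swap F _ (hXa m) X hX]
    exact F.pair_nonneg hP (hXa m)
  · rw [show 2 * m + 1 = m + 1 + m by omega, pow_add, pow_add, pow_one, ← mul_assoc, ← mul_assoc,
      (ha.pow C m).swap F _ (C.mul_mem_Ops (hXa m) ha.left_mem) X hX]
    exact hone _ (hXa m)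

/-- The diagonal pairings of the blocks. -/
theorem sum_pair_kerBlock (F : Form C) (h : ∀ j, C.Adj (Lo j) (Lt j)) (hc : c ≠ 0) (n : ℕ)
    (j : Fin r) :
    ∑ i, F.pair (C.kerBlock Lo Lt c n j i) (C.kerBlock Lo Lt c n j i) =
      F.pair 1 1 - F.pair 1 (Lt j * C.neum (∑ k, Lo k * Lt k) c (2 * n) * Lo j) := by
  have hm := fun a b => C.kerBlock_mem h c n a b
  have e : ∀ i, F.pair (C.kerBlock Lo Lt c n j i) (C.kerBlock Lo Lt c n j i) =
      F.pair 1 (C.kerBlock Lo Lt c n j i * C.kerBlock Lo Lt c n i j) := fun i => by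
    have := (C.adj_kerBlock h c n j i).swap F 1 C.one_mem_Ops _ (hm j i)
    rwa [one_mul] at this
  rw [Finset.sum_congr rfl fun i _ => e i,
    ← F.pair_sum_right _ C.one_mem_Ops fun i _ => C.mul_mem_Ops (hm j i) (hm i j),
    C.sum_kerBlock_mul hc, F.pair_sub_right C.one_mem_Ops C.one_mem_Ops]
  exact C.mul_mem_Ops (C.mul_mem_Ops (h j).right_mem (C.neum_mem (C.adj_gram h).left_mem _ _))
    (h j).left_mem

/-- The leverage of one operator is nonnegative. -/
theorem pair_leverage_nonneg (hS : F.Symm) (hP : F.PSD) (h : ∀ j, C.Adj (Lo j) (Lt j))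
    (hc : 0 < c) (hG : ‖∑ j, Lo j * Lt j‖ ≤ c) (n : ℕ) (j : Fin r) :
    0 ≤ F.pair 1 (Lt j * C.neum (∑ k, Lo k * Lt k) c n * Lo j) := by
  set G := ∑ k, Lo k * Lt k with hGdef
  have ha : ∀ k, C.rem G c ^ k ∈ C.Ops := fun k =>
    C.pow_mem_Ops (C.rem_mem (C.adj_gram h).left_mem c) k
  have hterm : ∀ k, Lt j * C.rem G c ^ k ∈ C.Ops := fun k =>
    C.mul_mem_Ops (h j).right_mem (ha k)
  rw [neum, mul_smul_comm, smul_mul_assoc, Finset.mul_sum, Finset.sum_mul,
    F.pair_smul_right _ C.one_mem_Ops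
      (sum_mem fun k _ => C.mul_mem_Ops (hterm k) (h j).left_mem),
    F.pair_sum_right _ C.one_mem_Ops fun k _ => C.mul_mem_Ops (hterm k) (h j).left_mem]
  refine mul_nonneg (inv_nonneg.2 hc.le) (Finset.sum_nonneg fun k _ => ?_)
  rw [← (h j).swap' F 1 C.one_mem_Ops _ (hterm k), one_mul, F.pair_comm hS]
  exact pair_pow_rem_nonneg hS hP h hc hG (h j).right_mem k

/-- The joint value of the operators on the blocks is small. -/
theorem sum_pair_pushed_le (hS : F.Symm) (hP : F.PSD) (h : ∀ j, C.Adj (Lo j) (Lt j))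
    (hc : 0 < c) (hG : ‖∑ j, Lo j * Lt j‖ ≤ c) (n : ℕ) :
    ∑ i, F.pair (∑ j, Lo j * C.kerBlock Lo Lt c n j i) (∑ j, Lo j * C.kerBlock Lo Lt c n j i) ≤
      c * F.pair 1 1 / (2 * n + 1) := by
  set G := ∑ k, Lo k * Lt k with hGdef
  set a := C.rem G c with hadef
  have hGA : C.Adj G G := C.adj_gram h
  have ha := C.adj_rem hGA c
  have han : ∀ k, a ^ k ∈ C.Ops := fun k => C.pow_mem_Ops ha.left_mem k
  have h1a : C.Adj (1 - a) (1 - a) := C.adj_one.sub ha
  set p : ℕ → ℝ := fun k => F.pair 1 (a ^ k) with hp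
  set q : ℕ → ℝ := fun k => p k - p (k + 1) with hq
  have e1 : ∀ i, F.pair (∑ j, Lo j * C.kerBlock Lo Lt c n j i)
      (∑ j, Lo j * C.kerBlock Lo Lt c n j i) = F.pair 1 (a ^ n * (Lo i * Lt i) * a ^ n) := by
    intro i
    rw [C.sum_mul_kerBlock hc.ne', ← hGdef, ← hadef]
    have hA : C.Adj (a ^ n * Lo i) (Lt i * a ^ n) := (ha.pow C n).mul (h i)
    have := hA.swap F 1 C.one_mem_Ops _ hA.left_mem
    rw [one_mul] at this
    rw [this]
    simp only [mul_assoc]
  have e2 : a ^ n * G * a ^ n = c • (a ^ (2 * n) - a ^ (2 * n + 1)) := by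
    conv_lhs => rw [← C.smul_rem (G := G) hc.ne', ← hadef]
    rw [mul_smul_comm, smul_mul_assoc, mul_sub, mul_one, sub_mul, ← pow_succ, ← pow_add, ← pow_add,
      show n + 1 + n = 2 * n + 1 by omega, ← two_mul]
  have e3 : ∑ i, F.pair (∑ j, Lo j * C.kerBlock Lo Lt c n j i)
      (∑ j, Lo j * C.kerBlock Lo Lt c n j i) = c * q (2 * n) := by
    rw [Finset.sum_congr rfl fun i _ => e1 i,
      ← F.pair_sum_right _ C.one_mem_Ops fun i _ => C.mul_mem_Ops (C.mul_mem_Ops (han n)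
        (C.mul_mem_Ops (h i).left_mem (h i).right_mem)) (han n),
      ← Finset.sum_mul, ← Finset.mul_sum, ← hGdef, e2,
      F.pair_smul_right _ C.one_mem_Ops (sub_mem (han _) (han _)),
      F.pair_sub_right C.one_mem_Ops (han _) (han _)]
  have hpos : ∀ k, 0 ≤ p k := fun k => by
    have := pair_pow_rem_nonneg hS hP h hc hG C.one_mem_Ops k
    rwa [one_mul, F.pair_comm hS] at this
  have hstep : ∀ k, q (k + 1) ≤ q k := by
    intro k
    have h0 := pair_pow_rem_nonneg hS hP h hc hG h1a.left_mem k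
    rw [F.pair_comm hS] at h0
    have hsw := h1a.swap F 1 C.one_mem_Ops _ (C.mul_mem_Ops h1a.left_mem (han k))
    rw [one_mul] at hsw
    rw [← hGdef, ← hadef, hsw] at h0
    have ee : (1 - a) * a ^ k * (1 - a) = a ^ k - a ^ (k + 1) - (a ^ (k + 1) - a ^ (k + 2)) := by
      have hcm : a * a ^ k = a ^ k * a := (pow_succ' a k).symm.trans (pow_succ a k)
      rw [show k + 2 = k + 1 + 1 by rfl, pow_succ' a (k + 1), pow_succ a k]
      simp only [sub_mul, mul_sub, one_mul, mul_one, mul_assoc, hcm]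
      rw [← mul_assoc a (a ^ k) a, hcm, mul_assoc]
    rw [ee, F.pair_sub_right C.one_mem_Ops (sub_mem (han _) (han _)) (sub_mem (han _) (han _)),
      F.pair_sub_right C.one_mem_Ops (han _) (han _),
      F.pair_sub_right C.one_mem_Ops (han _) (han _)] at h0
    simp only [hq, hp]
    rw [show k + 1 + 1 = k + 2 by rfl]
    linarith
  have hanti : Antitone q := antitone_nat_of_succ_le hstep
  have hsum : (2 * (n : ℝ) + 1) * q (2 * n) ≤ F.pair 1 1 := by
    calc (2 * (n : ℝ) + 1) * q (2 * n) = ∑ _k ∈ Finset.range (2 * n + 1), q (2 * n) := by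
          simp [Finset.sum_const, nsmul_eq_mul]
      _ ≤ ∑ k ∈ Finset.range (2 * n + 1), q k :=
          Finset.sum_le_sum fun k hk => hanti (Nat.lt_succ_iff.1 (Finset.mem_range.1 hk))
      _ = p 0 - p (2 * n + 1) := Finset.sum_range_sub' p (2 * n + 1)
      _ ≤ p 0 := sub_le_self _ (hpos _)
      _ = F.pair 1 1 := by simp [hp]
  rw [e3, mul_div_assoc]
  refine mul_le_mul_of_nonneg_left ?_ hc.le
  rw [le_div_iff₀ (by positivity)]
  linarith [mul_comm (q (2 * n)) (2 * (n : ℝ) + 1)]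

end Form

/-! ### Sign patterns -/

/-- A sign pattern pushed through operators does no worse than the sums over the cells. -/
theorem exists_pattern {ι : Type*} [Fintype ι] (s : Part C) (F : ι → Form C)
    (T : ι → Fin r → C.Op) : ∃ w : Fin r → C(C.Spec, ℝ), (∀ i χ, w i χ * w i χ = 1) ∧
      (∀ i, ‖w i‖ ≤ 1) ∧
      ∑ k, (F k).B (∑ i, T k i (w i)) (∑ i, T k i (w i)) ≤
        ∑ k, ∑ i, (F k).pairS s (T k i) (T k i) := by
  classical
  obtain ⟨e, he, hle⟩ := Finite.exists_signs (Finset.univ : Finset (Fin r × Fin s.n))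
    fun x y => ∑ k, (F k).B (T k x.1 (s.c x.2)) (T k y.1 (s.c y.2))
  refine ⟨fun i => s.pattern fun c => e (i, c), fun i χ => ?_, fun i => ?_, ?_⟩
  · obtain ⟨c₀, hc₀⟩ := s.exists_one χ
    rw [s.pattern_apply _ hc₀]
    rcases he (i, c₀) with h | h <;> rw [h] <;> norm_num
  · refine s.norm_pattern_le fun c => ?_
    rcases he (i, c) with h | h <;> rw [h] <;> norm_num
  have hv : ∀ k, ∑ i, T k i (s.pattern fun c => e (i, c)) =
      ∑ x : Fin r × Fin s.n, e x • T k x.1 (s.c x.2) := fun k => by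
    simp only [Part.pattern, map_sum, map_smul, Fintype.sum_prod_type]
  have hexp : ∀ k, (F k).B (∑ i, T k i (s.pattern fun c => e (i, c)))
      (∑ i, T k i (s.pattern fun c => e (i, c))) =
      ∑ x : Fin r × Fin s.n, ∑ y : Fin r × Fin s.n,
        e x * e y * (F k).B (T k x.1 (s.c x.2)) (T k y.1 (s.c y.2)) := fun k => by
    rw [hv k]
    simp only [map_sum, map_smul, LinearMap.sum_apply, LinearMap.smul_apply, smul_eq_mul,
      Finset.mul_sum]
    rw [Finset.sum_comm]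
    exact Finset.sum_congr rfl fun x _ => Finset.sum_congr rfl fun y _ => by ring
  rw [Finset.sum_congr rfl fun k _ => hexp k, Finset.sum_comm]
  have hswap : ∀ x : Fin r × Fin s.n,
      ∑ k, ∑ y : Fin r × Fin s.n, e x * e y * (F k).B (T k x.1 (s.c x.2)) (T k y.1 (s.c y.2)) =
      ∑ y : Fin r × Fin s.n, e x * e y *
        ∑ k, (F k).B (T k x.1 (s.c x.2)) (T k y.1 (s.c y.2)) := by
    intro x
    rw [Finset.sum_comm]
    exact Finset.sum_congr rfl fun y _ => by rw [Finset.mul_sum]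
  rw [Finset.sum_congr rfl fun x _ => hswap x]
  refine hle.trans (le_of_eq ?_)
  rw [Finset.sum_comm]
  exact Finset.sum_congr rfl fun k _ => by rw [Fintype.sum_prod_type]; rfl

/-- A sign pattern pushed through operators does no worse than the pairings. -/
theorem exists_direction {ι : Type*} [Fintype ι] (F : ι → Form C) {T : ι → Fin r → C.Op}
    (hT : ∀ k i, T k i ∈ C.Ops) {η : ℝ} (hη : 0 < η) :
    ∃ w : Fin r → C(C.Spec, ℝ), (∀ i χ, w i χ * w i χ = 1) ∧ (∀ i, ‖w i‖ ≤ 1) ∧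
      ∑ k, (F k).B (∑ i, T k i (w i)) (∑ i, T k i (w i)) ≤
        ∑ k, ∑ i, (F k).pair (T k i) (T k i) + η := by
  have ht : Tendsto (fun s => ∑ k, ∑ i, (F k).pairS s (T k i) (T k i)) atTop
      (𝓝 (∑ k, ∑ i, (F k).pair (T k i) (T k i))) :=
    tendsto_finsetSum _ fun k _ => tendsto_finsetSum _ fun i _ =>
      (F k).tendsto_pairS (hT k i) (hT k i)
  obtain ⟨s, hs⟩ := (ht.eventually (eventually_le_nhds (lt_add_of_pos_right _ hη))).exists
  obtain ⟨w, h1, h2, h3⟩ := C.exists_pattern s F T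
  exact ⟨w, h1, h2, h3.trans hs⟩

end Ctx

end Vale.Agent.P078.Expected
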