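import Vale.Agent.P078.Expected.Norm.Defs

/-!
The data of the leverage bound inside an inclusion with expectation.
-/

noncomputable section

namespace Vale.Agent.P078.Expected

universe u

variable {K : Type u} [NormedAddCommGroup K] [InnerProductSpace ℂ K] [CompleteSpace K]

/-- Weights, diagonals and symmetric families with a positive subinvariant weight. -/
structure LossData (C : Ctx K) (r : ℕ) where
  ζ : ℝ
  τ : ℝ
  R : Fin r → C(C.Spec, ℝ)
  a : Fin r → C(C.Spec, ℝ)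
  len : Fin r → ℕ
  f : (j : Fin r) → Fin (len j) → C(C.Spec, ℝ)
  u : (j : Fin r) → Fin (len j) → K →L[ℂ] K
  lam : C(C.Spec, ℝ)
  hr : 1 ≤ r
  hζ : 0 < ζ
  hζ1 : ζ ≤ 1 / 2
  hτ : 0 < τ
  R_nonneg : ∀ j χ, 0 ≤ R j χ
  R_le : ∀ j χ, R j χ ≤ 1 / 2
  a_lower : ∀ j χ, τ ≤ a j χ
  a_le : ∀ j χ, a j χ ≤ 2
  u_mem : ∀ j k, u j k ∈ C.GN
  f_nonneg : ∀ j k χ, 0 ≤ f j k χ
  lam_pos : ∀ χ, 0 < lam χ
  sub : ∀ j g, (∀ χ, 0 ≤ g χ) →
    C.intA (lam * C.symOp (f j) (u j) g) + τ * C.intA (lam * g) ≤ C.intA (lam * (a j * g))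

namespace LossData

variable {C : Ctx K} {r : ℕ} (D : LossData C r)

/-- The scaling of the variables of one colour, for a weight `ω` above `ζ`. -/
def m (ω : Fin r → C(C.Spec, ℝ)) (j : Fin r) : C(C.Spec, ℝ) :=
  ⟨fun χ => (√(max (ω j χ) D.ζ))⁻¹,
    (((ω j).continuous.max continuous_const).sqrt).inv₀ fun _ =>
      (Real.sqrt_pos.2 (lt_max_of_lt_right D.hζ)).ne'⟩

/-- The operator of one colour. -/
def L (j : Fin r) : C.Op := C.mulC (D.a j) - C.symOp (D.f j) (D.u j)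

/-- The scaled operator of one colour. -/
def Lo (ω : Fin r → C(C.Spec, ℝ)) (j : Fin r) : C.Op := D.L j * C.mulC (D.m ω j)

/-- Its transpose. -/
def Lt (ω : Fin r → C(C.Spec, ℝ)) (j : Fin r) : C.Op := C.mulC (D.m ω j) * D.L j

/-- The sum of the squares. -/
def G (ω : Fin r → C(C.Spec, ℝ)) : C.Op := ∑ j, D.Lo ω j * D.Lt ω j

end LossData

/-- For some weight `ω`, the leverage of the colours together with the excess of `ω` over the
weights is small against the total weight. -/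
def LossBound (C : Ctx K) : Prop :=
  ∀ {r : ℕ} (D : LossData C r), 64 ≤ r * D.ζ →
    ∃ ω : Fin r → C(C.Spec, ℝ), (∀ j χ, D.R j χ + D.ζ ≤ ω j χ ∧ ω j χ ≤ 1) ∧
      ∀ F : Fin r → Ctx.Form C,
        (∀ j g h, (F j).B g h = C.intA (D.lam * (D.R j * (D.m ω j * D.m ω j)) * (g * h))) →
        ∀ c : ℝ, 16 * r / D.ζ ≤ c → ∀ n : ℕ,
          ∑ j, (F j).pair 1 (D.Lt ω j * C.neum (D.G ω) c n * D.Lo ω j) +
              ∑ j, C.intA (D.lam * (ω j - D.R j - D.ζ • 1)) ≤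
            16 * C.intA D.lam +
              72 / √(r * D.ζ) * (C.intA (D.lam * ∑ j, D.R j) + r * D.ζ * C.intA D.lam)

end Vale.Agent.P078.Expected
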