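import Vale.Agent.P078.Expected.Norm.Defs

/-!
Forms summed over fine partitions: constructions, the transposes of the weighted image maps and the
Schwarz inequality for symmetric operators.
-/

noncomputable section

open scoped InnerProductSpace
open Filter Topology

namespace Vale.Agent.P078.Expected

universe u

variable {K : Type u} [NormedAddCommGroup K] [InnerProductSpace ℂ K] [CompleteSpace K]

namespace Part

variable {C : Ctx K}

theorem nonneg (s : Part C) (i : Fin s.n) (χ : C.Spec) : 0 ≤ s.c i χ := by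
  rcases s.values i χ with h | h <;> simp [h]

/-- Only one piece of a coarser partition meets a piece of a finer one. -/
theorem sum_refine {s t : Part C} (h : s ≤ t) (j : Fin t.n) {α : Type*} [AddCommMonoid α]
    (φ : C(C.Spec, ℝ) → α) (h0 : φ 0 = 0) : ∑ i, φ (s.c i * t.c j) = φ (t.c j) := by
  by_cases hne : t.c j = 0
  · simp [hne, h0]
  obtain ⟨χ, hχ⟩ : ∃ χ, t.c j χ = 1 := by
    by_contra hn
    exact hne (ContinuousMap.ext fun χ => (t.values j χ).resolve_right fun e => hn ⟨χ, e⟩)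
  obtain ⟨i, hi⟩ := s.exists_one χ
  have hij : s.c i * t.c j = t.c j := (h i j).resolve_right fun e => by
    have := congrArg (fun F : C(C.Spec, ℝ) => F χ) e
    simp [hi, hχ] at this
  rw [Finset.sum_eq_single i (fun k _ hk => ?_) fun hn => absurd (Finset.mem_univ i) hn, hij]
  rw [← hij, ← mul_assoc, s.orth hk, zero_mul, h0]

/-- A combination of the pieces of a partition. -/
def pattern (s : Part C) (e : Fin s.n → ℝ) : C(C.Spec, ℝ) := ∑ c, e c • s.c c

theorem pattern_apply (s : Part C) (e : Fin s.n → ℝ) {χ : C.Spec} {c₀ : Fin s.n}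
    (h : s.c c₀ χ = 1) : s.pattern e χ = e c₀ := by
  simp only [pattern, ContinuousMap.sum_apply, ContinuousMap.smul_apply, smul_eq_mul]
  rw [Finset.sum_eq_single c₀ (fun c _ hc => ?_) fun hn => absurd (Finset.mem_univ _) hn, h,
    mul_one]
  have := congrArg (fun F : C(C.Spec, ℝ) => F χ) (s.orth hc)
  simp only [ContinuousMap.mul_apply, h, mul_one, ContinuousMap.zero_apply] at this
  rw [this, mul_zero]

theorem norm_pattern_le (s : Part C) {e : Fin s.n → ℝ} (he : ∀ c, |e c| ≤ 1) :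
    ‖s.pattern e‖ ≤ 1 :=
  (ContinuousMap.norm_le _ zero_le_one).2 fun χ => by
    obtain ⟨c₀, h⟩ := s.exists_one χ
    rw [Real.norm_eq_abs, s.pattern_apply e h]
    exact he c₀

end Part

namespace Ctx

variable (C : Ctx K)

/-! ### The operators -/

theorem img_one_left (g : C(C.Spec, ℝ)) : C.img 1 g = g := by
  rw [img, star_one, one_mul, mul_one, C.re_op]

theorem mulC_one : C.mulC 1 = 1 :=
  ContinuousLinearMap.ext fun g => by rw [C.mulC_apply, one_mul]; rfl

theorem mulC_add (f g : C(C.Spec, ℝ)) : C.mulC (f + g) = C.mulC f + C.mulC g :=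
  ContinuousLinearMap.ext fun h => by
    simp only [add_apply, C.mulC_apply, add_mul]

theorem mulC_sub (f g : C(C.Spec, ℝ)) : C.mulC (f - g) = C.mulC f - C.mulC g :=
  ContinuousLinearMap.ext fun h => by
    simp only [sub_apply, C.mulC_apply, sub_mul]

theorem mulC_smul (t : ℝ) (f : C(C.Spec, ℝ)) : C.mulC (t • f) = t • C.mulC f :=
  ContinuousLinearMap.ext fun h => by
    simp only [smul_apply, C.mulC_apply, smul_mul_assoc]

theorem norm_mulC_le (f : C(C.Spec, ℝ)) : ‖C.mulC f‖ ≤ ‖f‖ :=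
  LinearMap.mkContinuous_norm_le _ (norm_nonneg f) _

theorem mulC_eq_mono (f : C(C.Spec, ℝ)) : C.mulC f = C.mono f 1 :=
  ContinuousLinearMap.ext fun g => by rw [C.mono_apply f C.GN_one, C.img_one_left, C.mulC_apply]

theorem imgL_eq_mono (u : K →L[ℂ] K) : C.imgL u = C.mono 1 u := by
  rw [mono, C.mulC_one, one_mul]

theorem monos_mul (f g : C(C.Spec, ℝ)) {u v : K →L[ℂ] K} (hu : u ∈ C.GN) (hv : v ∈ C.GN) :
    C.mono f u * C.mono g v = C.mono (f * C.img u g) (u * v) := by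
  refine ContinuousLinearMap.ext fun h => ?_
  change C.mono f u (C.mono g v h) = _
  rw [C.mono_apply g hv, C.mono_apply f hu, C.mono_apply _ (C.GN_mul hu hv), C.img_mul hu,
    C.img_img hu hv, mul_assoc]

theorem mono_mem (f : C(C.Spec, ℝ)) {u : K →L[ℂ] K} (hu : u ∈ C.GN) : C.mono f u ∈ C.Ops :=
  Submodule.subset_span ⟨f, u, hu, rfl⟩

theorem mulC_mem (f : C(C.Spec, ℝ)) : C.mulC f ∈ C.Ops := by
  rw [C.mulC_eq_mono]
  exact C.mono_mem f C.GN_one

theorem imgL_mem {u : K →L[ℂ] K} (hu : u ∈ C.GN) : C.imgL u ∈ C.Ops := by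
  rw [C.imgL_eq_mono]
  exact C.mono_mem 1 hu

theorem one_mem_Ops : (1 : C.Op) ∈ C.Ops := by
  rw [← C.mulC_one]
  exact C.mulC_mem 1

theorem mul_mem_Ops {S T : C.Op} (hS : S ∈ C.Ops) (hT : T ∈ C.Ops) : S * T ∈ C.Ops := by
  induction hT using Submodule.span_induction with
  | mem T hT =>
    obtain ⟨g, v, hv, rfl⟩ := hT
    induction hS using Submodule.span_induction with
    | mem S hS =>
      obtain ⟨f, u, hu, rfl⟩ := hS
      rw [C.monos_mul f g hu hv]
      exact C.mono_mem _ (C.GN_mul hu hv)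
    | zero => rw [zero_mul]; exact zero_mem _
    | add x y _ _ hx hy => rw [add_mul]; exact add_mem hx hy
    | smul t x _ hx => rw [smul_mul_assoc]; exact Submodule.smul_mem _ t hx
  | zero => rw [mul_zero]; exact zero_mem _
  | add x y _ _ hx hy => rw [mul_add]; exact add_mem hx hy
  | smul t x _ hx => rw [mul_smul_comm]; exact Submodule.smul_mem _ t hx

theorem pow_mem_Ops {T : C.Op} (hT : T ∈ C.Ops) (m : ℕ) : T ^ m ∈ C.Ops := by
  induction m with
  | zero => rw [pow_zero]; exact C.one_mem_Ops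
  | succ m ih => rw [pow_succ]; exact C.mul_mem_Ops ih hT

theorem norm_mul_Op_le (S T : C.Op) : ‖S * T‖ ≤ ‖S‖ * ‖T‖ :=
  ContinuousLinearMap.opNorm_comp_le S T

theorem norm_one_Op_le : ‖(1 : C.Op)‖ ≤ 1 := ContinuousLinearMap.norm_id_le

theorem norm_pow_Op_le (S : C.Op) (m : ℕ) : ‖S ^ m‖ ≤ ‖S‖ ^ m := by
  induction m with
  | zero => rw [pow_zero, pow_zero]; exact C.norm_one_Op_le
  | succ m ih =>
    rw [pow_succ, pow_succ]
    exact (C.norm_mul_Op_le _ _).trans
      (mul_le_mul_of_nonneg_right ih (ContinuousLinearMap.opNorm_nonneg S))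

theorem symOp_mem {n : ℕ} (f : Fin n → C(C.Spec, ℝ)) {u : Fin n → K →L[ℂ] K}
    (hu : ∀ k, u k ∈ C.GN) : C.symOp f u ∈ C.Ops :=
  Submodule.smul_mem _ _
    (sum_mem fun k _ => add_mem (C.mono_mem _ (hu k)) (C.mono_mem _ (C.GN_star (hu k))))

theorem sum_abs_apply_le (T : C.Op) (s : Part C) (χ : C.Spec) :
    ∑ c, |T (s.c c) χ| ≤ ‖T‖ := by
  set e : Fin s.n → ℝ := fun c => if 0 ≤ T (s.c c) χ then 1 else -1
  have he : ∀ c, |e c| ≤ 1 := fun c => by simp only [e]; split_ifs <;> simp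
  have h1 : T (s.pattern e) χ = ∑ c, |T (s.c c) χ| := by
    simp only [Part.pattern, map_sum, map_smul, ContinuousMap.sum_apply, ContinuousMap.smul_apply,
      smul_eq_mul]
    refine Finset.sum_congr rfl fun c _ => ?_
    simp only [e]
    split_ifs with h
    · rw [one_mul, abs_of_nonneg h]
    · rw [neg_one_mul, abs_of_neg (not_le.1 h)]
  rw [← h1]
  refine (le_abs_self _).trans ?_
  rw [← Real.norm_eq_abs]
  refine ((T (s.pattern e)).norm_coe_le_norm χ).trans ?_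
  exact T.le_of_opNorm_le_of_le le_rfl (s.norm_pattern_le he) |>.trans_eq (mul_one _)

namespace Form

variable {C} (F : Form C)

/-! ### Sums and limits -/

theorem exists_pairS_le : ∃ k : ℝ, 0 ≤ k ∧ ∀ (s : Part C) (T T' : C.Op),
    |F.pairS s T T'| ≤ k * ‖T‖ * ‖T'‖ := by
  obtain ⟨k, hk, h⟩ := F.bound
  exact ⟨k, hk, fun s T T' => h _ _ _ _ _ (norm_nonneg T) (norm_nonneg T')
    (C.sum_abs_apply_le T s) (C.sum_abs_apply_le T' s)⟩

theorem pairS_add_left (s : Part C) (S T T' : C.Op) :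
    F.pairS s (S + T) T' = F.pairS s S T' + F.pairS s T T' := by
  simp only [pairS, add_apply, map_add, LinearMap.add_apply, Finset.sum_add_distrib]

theorem pairS_add_right (s : Part C) (S T T' : C.Op) :
    F.pairS s S (T + T') = F.pairS s S T + F.pairS s S T' := by
  simp only [pairS, add_apply, map_add, Finset.sum_add_distrib]

theorem pairS_smul_left (s : Part C) (t : ℝ) (T T' : C.Op) :
    F.pairS s (t • T) T' = t * F.pairS s T T' := by
  simp only [pairS, smul_apply, map_smul, LinearMap.smul_apply, smul_eq_mul, Finset.mul_sum]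

theorem pairS_smul_right (s : Part C) (t : ℝ) (T T' : C.Op) :
    F.pairS s T (t • T') = t * F.pairS s T T' := by
  simp only [pairS, smul_apply, map_smul, smul_eq_mul, Finset.mul_sum]

theorem exists_tendsto_pairS {T T' : C.Op} (hT : T ∈ C.Ops) (hT' : T' ∈ C.Ops) :
    ∃ l, Tendsto (fun s => F.pairS s T T') atTop (𝓝 l) := by
  induction hT using Submodule.span_induction with
  | mem T hT =>
    induction hT' using Submodule.span_induction with
    | mem T' hT' => exact F.conv T hT T' hT'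
    | zero => exact ⟨0, by simp [pairS]⟩
    | add x y _ _ hx hy =>
      obtain ⟨l, hl⟩ := hx
      obtain ⟨m, hm⟩ := hy
      exact ⟨l + m, (hl.add hm).congr fun s => (F.pairS_add_right s _ _ _).symm⟩
    | smul t x _ hx =>
      obtain ⟨l, hl⟩ := hx
      exact ⟨t * l, (hl.const_mul t).congr fun s => (F.pairS_smul_right s t _ _).symm⟩
  | zero => exact ⟨0, by simp [pairS]⟩
  | add x y _ _ hx hy =>
    obtain ⟨l, hl⟩ := hx
    obtain ⟨m, hm⟩ := hy
    exact ⟨l + m, (hl.add hm).congr fun s => (F.pairS_add_left s _ _ _).symm⟩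
  | smul t x _ hx =>
    obtain ⟨l, hl⟩ := hx
    exact ⟨t * l, (hl.const_mul t).congr fun s => (F.pairS_smul_left s t _ _).symm⟩

theorem tendsto_pairS {T T' : C.Op} (hT : T ∈ C.Ops) (hT' : T' ∈ C.Ops) :
    Tendsto (fun s => F.pairS s T T') atTop (𝓝 (F.pair T T')) :=
  tendsto_nhds_limUnder (F.exists_tendsto_pairS hT hT')

theorem pair_eq_of_tendsto {T T' : C.Op} {l : ℝ}
    (h : Tendsto (fun s => F.pairS s T T') atTop (𝓝 l)) : F.pair T T' = l :=
  h.limUnder_eq

theorem pair_add_left {S T T' : C.Op} (hS : S ∈ C.Ops) (hT : T ∈ C.Ops) (hT' : T' ∈ C.Ops) :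
    F.pair (S + T) T' = F.pair S T' + F.pair T T' :=
  F.pair_eq_of_tendsto (((F.tendsto_pairS hS hT').add (F.tendsto_pairS hT hT')).congr
    fun s => (F.pairS_add_left s _ _ _).symm)

theorem pair_add_right {S T T' : C.Op} (hS : S ∈ C.Ops) (hT : T ∈ C.Ops) (hT' : T' ∈ C.Ops) :
    F.pair S (T + T') = F.pair S T + F.pair S T' :=
  F.pair_eq_of_tendsto (((F.tendsto_pairS hS hT).add (F.tendsto_pairS hS hT')).congr
    fun s => (F.pairS_add_right s _ _ _).symm)

theorem pair_smul_left (t : ℝ) {T T' : C.Op} (hT : T ∈ C.Ops) (hT' : T' ∈ C.Ops) :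
    F.pair (t • T) T' = t * F.pair T T' :=
  F.pair_eq_of_tendsto (((F.tendsto_pairS hT hT').const_mul t).congr
    fun s => (F.pairS_smul_left s t _ _).symm)

theorem pair_smul_right (t : ℝ) {T T' : C.Op} (hT : T ∈ C.Ops) (hT' : T' ∈ C.Ops) :
    F.pair T (t • T') = t * F.pair T T' :=
  F.pair_eq_of_tendsto (((F.tendsto_pairS hT hT').const_mul t).congr
    fun s => (F.pairS_smul_right s t _ _).symm)

theorem pair_zero_left (T' : C.Op) : F.pair 0 T' = 0 :=
  F.pair_eq_of_tendsto (by simp [pairS])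

theorem pair_zero_right (T : C.Op) : F.pair T 0 = 0 :=
  F.pair_eq_of_tendsto (by simp [pairS])

theorem pair_sub_left {S T T' : C.Op} (hS : S ∈ C.Ops) (hT : T ∈ C.Ops) (hT' : T' ∈ C.Ops) :
    F.pair (S - T) T' = F.pair S T' - F.pair T T' := by
  rw [eq_sub_iff_add_eq, ← F.pair_add_left (sub_mem hS hT) hT hT', sub_add_cancel]

theorem pair_sub_right {S T T' : C.Op} (hS : S ∈ C.Ops) (hT : T ∈ C.Ops) (hT' : T' ∈ C.Ops) :
    F.pair S (T - T') = F.pair S T - F.pair S T' := by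
  rw [eq_sub_iff_add_eq, ← F.pair_add_right hS (sub_mem hT hT') hT', sub_add_cancel]

theorem pair_sum_left {ι : Type*} (t : Finset ι) {T : ι → C.Op} {T' : C.Op}
    (hT : ∀ i ∈ t, T i ∈ C.Ops) (hT' : T' ∈ C.Ops) :
    F.pair (∑ i ∈ t, T i) T' = ∑ i ∈ t, F.pair (T i) T' := by
  refine F.pair_eq_of_tendsto ((tendsto_finsetSum t fun i hi =>
    F.tendsto_pairS (hT i hi) hT').congr fun s => ?_)
  simp only [pairS, sum_apply, map_sum, LinearMap.sum_apply]
  exact Finset.sum_comm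

theorem pair_sum_right {ι : Type*} (t : Finset ι) {T : C.Op} {T' : ι → C.Op}
    (hT : T ∈ C.Ops) (hT' : ∀ i ∈ t, T' i ∈ C.Ops) :
    F.pair T (∑ i ∈ t, T' i) = ∑ i ∈ t, F.pair T (T' i) := by
  refine F.pair_eq_of_tendsto ((tendsto_finsetSum t fun i hi =>
    F.tendsto_pairS hT (hT' i hi)).congr fun s => ?_)
  simp only [pairS, sum_apply, map_sum]
  exact Finset.sum_comm

theorem exists_pair_le : ∃ k : ℝ, 0 ≤ k ∧ ∀ T ∈ C.Ops, ∀ T' ∈ C.Ops,
    |F.pair T T'| ≤ k * ‖T‖ * ‖T'‖ := by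
  obtain ⟨k, hk, h⟩ := F.exists_pairS_le
  exact ⟨k, hk, fun T hT T' hT' =>
    le_of_tendsto (F.tendsto_pairS hT hT').abs (Eventually.of_forall fun s => h s T T')⟩

theorem pair_nonneg (hP : F.PSD) {T : C.Op} (hT : T ∈ C.Ops) : 0 ≤ F.pair T T :=
  ge_of_tendsto (F.tendsto_pairS hT hT)
    (Eventually.of_forall fun s => Finset.sum_nonneg fun c _ => hP _)

theorem pair_comm (hS : F.Symm) (T T' : C.Op) : F.pair T T' = F.pair T' T := by
  have : (fun s : Part C => F.pairS s T T') = fun s => F.pairS s T' T :=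
    funext fun s => Finset.sum_congr rfl fun c _ => hS _ _
  rw [pair, this, pair]

/-- The value at the identity of a form given by a functional of the product. -/
theorem pair_one_of_mul (φ : C(C.Spec, ℝ) →ₗ[ℝ] ℝ) (h : ∀ g k, F.B g k = φ (g * k)) :
    F.pair 1 1 = φ 1 := by
  refine F.pair_eq_of_tendsto (tendsto_const_nhds.congr fun s => ?_)
  simp only [pairS, one_apply_eq_self, h, s.idem, ← map_sum, s.sum_eq]

end Form

/-! ### Constructions -/

theorem sum_sq_apply_le {n : ℕ} (x : Fin n → C(C.Spec, ℝ)) {a : ℝ} (ha : 0 ≤ a)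
    (h : ∀ χ, ∑ i, |x i χ| ≤ a) (v : K) : ∑ i, ‖C.op (x i) v‖ ^ 2 ≤ (a * ‖v‖) ^ 2 := by
  have h1 : ∀ i, ‖C.op (x i) v‖ ^ 2 = (⟪v, C.op (x i * x i) v⟫_ℂ).re := fun i => by
    rw [← inner_self_eq_norm_sq (𝕜 := ℂ), ← ContinuousLinearMap.adjoint_inner_right,
      ← ContinuousLinearMap.star_eq_adjoint, (C.op_sa _).star_eq, map_mul]
    rfl
  rw [Finset.sum_congr rfl fun i _ => h1 i, ← Complex.re_sum, ← inner_sum, ← _root_.sum_apply,
    ← map_sum]
  have h2 : ‖∑ i, x i * x i‖ ≤ a ^ 2 := (ContinuousMap.norm_le _ (sq_nonneg a)).2 fun χ => by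
    simp only [ContinuousMap.sum_apply, ContinuousMap.mul_apply, Real.norm_eq_abs]
    rw [abs_of_nonneg (Finset.sum_nonneg fun i _ => mul_self_nonneg _)]
    calc ∑ i, x i χ * x i χ = ∑ i, |x i χ| ^ 2 :=
          Finset.sum_congr rfl fun i _ => by rw [sq_abs, sq]
      _ ≤ (∑ i, |x i χ|) ^ 2 :=
          Finset.sum_sq_le_sq_sum_of_nonneg fun i _ => abs_nonneg _
      _ ≤ a ^ 2 := pow_le_pow_left₀ (Finset.sum_nonneg fun i _ => abs_nonneg _) (h χ) 2
  refine (Complex.re_le_norm _).trans ((norm_inner_le_norm _ _).trans ?_)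
  calc ‖v‖ * ‖C.op (∑ i, x i * x i) v‖ ≤ ‖v‖ * (a ^ 2 * ‖v‖) :=
        mul_le_mul_of_nonneg_left ((C.op _).le_of_opNorm_le ((C.norm_op _).trans_le h2) v)
          (norm_nonneg v)
    _ = (a * ‖v‖) ^ 2 := by ring

theorem inner_op_move (x : C(C.Spec, ℝ)) (T : K →L[ℂ] K) (ξ η : K) :
    ⟪ξ, (C.op x * T) η⟫_ℂ = ⟪C.op x ξ, T η⟫_ℂ := by
  rw [← ContinuousLinearMap.adjoint_inner_right (C.op x) ξ (T η),
    ← ContinuousLinearMap.star_eq_adjoint, (C.op_sa x).star_eq]
  rfl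

/-- The form `Re ⟪ξ, g X h η⟫`. -/
def pinchB (ξ η : K) (X : K →L[ℂ] K) : C(C.Spec, ℝ) →ₗ[ℝ] C(C.Spec, ℝ) →ₗ[ℝ] ℝ :=
  LinearMap.mk₂ ℝ (fun g h => (⟪ξ, (C.op g * X * C.op h) η⟫_ℂ).re)
    (fun g g' h => by simp only [map_add, add_mul, add_apply, inner_add_right, Complex.add_re])
    (fun t g h => by
      simp only [map_smul, smul_mul_assoc, smul_apply, smul_eq_mul]
      rw [← Complex.coe_smul, inner_smul_right, Complex.re_ofReal_mul])
    (fun g h h' => by simp only [map_add, mul_add, add_apply, inner_add_right, Complex.add_re])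
    (fun t g h => by
      simp only [map_smul, mul_smul_comm, smul_apply, smul_eq_mul]
      rw [← Complex.coe_smul, inner_smul_right, Complex.re_ofReal_mul])

theorem pinchB_apply (ξ η : K) (X : K →L[ℂ] K) (g h : C(C.Spec, ℝ)) :
    C.pinchB ξ η X g h = (⟪ξ, (C.op g * X * C.op h) η⟫_ℂ).re := rfl

theorem tendsto_pinch_mono (ξ η : K) {X : K →L[ℂ] K} (hX : X ∈ C.M) (f g : C(C.Spec, ℝ))
    {u v : K →L[ℂ] K} (hu : u ∈ C.GN) (hv : v ∈ C.GN) :
    Tendsto (fun s : Part C => ∑ c, C.pinchB ξ η X (C.mono f u (s.c c)) (C.mono g v (s.c c)))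
      atTop (𝓝 (⟪ξ, (C.op f * u * C.E (star u * X * C.op g * v) * star v) η⟫_ℂ).re) := by
  have hM : star u * X * C.op g * v ∈ C.M :=
    mul_mem (mul_mem (mul_mem (star_mem hu.1) hX) (C.op_mem_M g)) hv.1
  refine ((Complex.continuous_re.tendsto _).comp ((tendsto_const_nhds (x := ξ)).inner
    (((C.op f * u).continuous.tendsto _).comp (C.tendsto_pinchP hM (star v η))))).congr fun s => ?_
  simp only [Function.comp_apply, pinchB_apply, C.mono_apply f hu, C.mono_apply g hv, map_mul,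
    C.op_img hu, C.op_img hv]
  rw [← Complex.re_sum, ← inner_sum, ← _root_.sum_apply]
  congr 2
  rw [← mul_apply_eq_comp, ← mul_apply_eq_comp]
  congr 1
  simp only [pinchP, Finset.mul_sum, Finset.sum_mul, mul_assoc]

namespace Form

variable {C}

/-- The form `Re ⟪ξ, g X h η⟫` may be summed. -/
def pinch (ξ η : K) {X : K →L[ℂ] K} (hX : X ∈ C.M) : Form C where
  B := C.pinchB ξ η X
  bound := by
    refine ⟨‖X‖ * ‖ξ‖ * ‖η‖, by positivity, fun n x y a b ha hb hx hy => ?_⟩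
    have h1 : ∀ i, |C.pinchB ξ η X (x i) (y i)| ≤ ‖X‖ * (‖C.op (x i) ξ‖ * ‖C.op (y i) η‖) :=
      fun i => by
        rw [C.pinchB_apply, mul_assoc (C.op (x i)), C.inner_op_move]
        refine (Complex.abs_re_le_norm _).trans ((norm_inner_le_norm _ _).trans ?_)
        calc ‖C.op (x i) ξ‖ * ‖(X * C.op (y i)) η‖
            ≤ ‖C.op (x i) ξ‖ * (‖X‖ * ‖C.op (y i) η‖) :=
              mul_le_mul_of_nonneg_left (X.le_opNorm _) (norm_nonneg _)
          _ = _ := by ring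
    refine (Finset.abs_sum_le_sum_abs _ _).trans ((Finset.sum_le_sum fun i _ => h1 i).trans ?_)
    rw [← Finset.mul_sum]
    have hcs := Finset.sum_mul_sq_le_sq_mul_sq Finset.univ (fun i => ‖C.op (x i) ξ‖)
      (fun i => ‖C.op (y i) η‖)
    have h2 : (∑ i, ‖C.op (x i) ξ‖ * ‖C.op (y i) η‖) ^ 2 ≤ (a * ‖ξ‖ * (b * ‖η‖)) ^ 2 := by
      rw [mul_pow (a * ‖ξ‖)]
      exact hcs.trans (mul_le_mul (C.sum_sq_apply_le x ha hx ξ) (C.sum_sq_apply_le y hb hy η)
        (Finset.sum_nonneg fun i _ => sq_nonneg _) (sq_nonneg _))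
    have h3 := (pow_le_pow_iff_left₀ (Finset.sum_nonneg fun i _ => by positivity)
      (by positivity) two_ne_zero).1 h2
    calc ‖X‖ * ∑ i, ‖C.op (x i) ξ‖ * ‖C.op (y i) η‖ ≤ ‖X‖ * (a * ‖ξ‖ * (b * ‖η‖)) :=
          mul_le_mul_of_nonneg_left h3 (norm_nonneg X)
      _ = _ := by ring
  conv := by
    rintro T ⟨f, u, hu, rfl⟩ T' ⟨g, v, hv, rfl⟩
    exact ⟨_, C.tendsto_pinch_mono ξ η hX f g hu hv⟩

theorem pinch_B (ξ η : K) {X : K →L[ℂ] K} (hX : X ∈ C.M) (g h : C(C.Spec, ℝ)) :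
    (pinch ξ η hX).B g h = (⟪ξ, (C.op g * X * C.op h) η⟫_ℂ).re := rfl

theorem pair_pinch_mono (ξ η : K) {X : K →L[ℂ] K} (hX : X ∈ C.M) (f g : C(C.Spec, ℝ))
    {u v : K →L[ℂ] K} (hu : u ∈ C.GN) (hv : v ∈ C.GN) :
    (pinch ξ η hX).pair (C.mono f u) (C.mono g v) =
      (⟪ξ, (C.op f * u * C.E (star u * X * C.op g * v) * star v) η⟫_ℂ).re :=
  (pinch ξ η hX).pair_eq_of_tendsto (C.tendsto_pinch_mono ξ η hX f g hu hv)

theorem pair_pinch_one (ξ η : K) {X : K →L[ℂ] K} (hX : X ∈ C.M) (f g : C(C.Spec, ℝ)) :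
    (pinch ξ η hX).pair (C.mulC f) (C.mulC g) =
      (⟪ξ, (C.op f * C.E X * C.op g) η⟫_ℂ).re := by
  rw [C.mulC_eq_mono, C.mulC_eq_mono, pair_pinch_mono ξ η hX f g C.GN_one C.GN_one]
  simp only [star_one, one_mul, mul_one]
  rw [C.E_mul_right (C.op_mem g) hX, mul_assoc (C.op f)]

section ofPos

variable {B : C(C.Spec, ℝ) →ₗ[ℝ] C(C.Spec, ℝ) →ₗ[ℝ] ℝ}
  (hpos : ∀ g h : C(C.Spec, ℝ), (∀ χ, 0 ≤ g χ) → (∀ χ, 0 ≤ h χ) → 0 ≤ B g h)

include hpos

theorem pos_mono {g g' h h' : C(C.Spec, ℝ)} (hg : ∀ χ, 0 ≤ g χ) (hg' : ∀ χ, g χ ≤ g' χ)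
    (hh : ∀ χ, 0 ≤ h χ) (hh' : ∀ χ, h χ ≤ h' χ) : B g h ≤ B g' h' := by
  have h1 := hpos (g' - g) h' (fun χ => sub_nonneg.2 (hg' χ)) fun χ => (hh χ).trans (hh' χ)
  have h2 := hpos g (h' - h) hg fun χ => sub_nonneg.2 (hh' χ)
  simp only [map_sub, LinearMap.sub_apply] at h1 h2
  linarith

theorem pos_bound (n : ℕ) (x y : Fin n → C(C.Spec, ℝ)) (a b : ℝ)
    (hx : ∀ χ, ∑ i, |x i χ| ≤ a) (hy : ∀ χ, ∑ i, |y i χ| ≤ b) :
    |∑ i, B (x i) (y i)| ≤ B 1 1 * a * b := by
  set p : C(C.Spec, ℝ) → C(C.Spec, ℝ) := fun f => f ⊔ 0 with hp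
  set A : C(C.Spec, ℝ) → C(C.Spec, ℝ) := fun f => p f + p (-f) with hA
  have hp0 : ∀ f χ, 0 ≤ p f χ := fun f χ => le_max_right _ _
  have hA0 : ∀ f χ, 0 ≤ A f χ := fun f χ => add_nonneg (hp0 f χ) (hp0 (-f) χ)
  have hsplit : ∀ f, f = p f - p (-f) := fun f => ContinuousMap.ext fun χ =>
    (max_zero_sub_max_neg_zero_eq_self (f χ)).symm
  have habs : ∀ f χ, A f χ = |f χ| := fun f χ => by
    change max (f χ) 0 + max (-f χ) 0 = _
    rcases le_total 0 (f χ) with h | h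
    · rw [max_eq_left h, max_eq_right (neg_nonpos.2 h), add_zero, abs_of_nonneg h]
    · rw [max_eq_right h, max_eq_left (neg_nonneg.2 h), zero_add, abs_of_nonpos h]
  have h1 : ∀ f g, |B f g| ≤ B (A f) (A g) := fun f g => by
    conv_lhs => rw [hsplit f, hsplit g]
    simp only [hA, map_sub, map_add, LinearMap.sub_apply, LinearMap.add_apply]
    have a1 := hpos _ _ (hp0 f) (hp0 g)
    have a2 := hpos _ _ (hp0 f) (hp0 (-g))
    have a3 := hpos _ _ (hp0 (-f)) (hp0 g)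
    have a4 := hpos _ _ (hp0 (-f)) (hp0 (-g))
    rw [abs_le]
    constructor <;> linarith
  refine (Finset.abs_sum_le_sum_abs _ _).trans ((Finset.sum_le_sum fun i _ => h1 _ _).trans ?_)
  calc ∑ i, B (A (x i)) (A (y i)) ≤ ∑ i, ∑ j, B (A (x i)) (A (y j)) :=
        Finset.sum_le_sum fun i _ => Finset.single_le_sum (f := fun j => B (A (x i)) (A (y j)))
          (fun j _ => hpos _ _ (hA0 _) (hA0 _)) (Finset.mem_univ i)
    _ = B (∑ i, A (x i)) (∑ j, A (y j)) := by simp only [map_sum, LinearMap.sum_apply]; rw [Finset.sum_comm]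
    _ ≤ B (a • 1) (b • 1) := by
        refine pos_mono hpos (fun χ => ?_) (fun χ => ?_) (fun χ => ?_) fun χ => ?_
        all_goals simp only [ContinuousMap.sum_apply, habs, ContinuousMap.smul_apply,
          ContinuousMap.one_apply, smul_eq_mul, mul_one]
        exacts [Finset.sum_nonneg fun i _ => abs_nonneg _, hx χ,
          Finset.sum_nonneg fun i _ => abs_nonneg _, hy χ]
    _ = _ := by simp only [map_smul, LinearMap.smul_apply, smul_eq_mul]; ring

theorem pos_antitone {f g : C(C.Spec, ℝ)} {u v : K →L[ℂ] K} (hu : u ∈ C.GN) (hv : v ∈ C.GN)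
    (hf : ∀ χ, 0 ≤ f χ) (hg : ∀ χ, 0 ≤ g χ) :
    Antitone fun s : Part C => ∑ c, B (C.mono f u (s.c c)) (C.mono g v (s.c c)) := by
  intro s t hst
  have hn : ∀ {f : C(C.Spec, ℝ)} {u : K →L[ℂ] K}, u ∈ C.GN → (∀ χ, 0 ≤ f χ) →
      ∀ i j χ, 0 ≤ C.mono f u (s.c i * t.c j) χ := fun {f u} hu hf i j χ => by
    rw [C.mono_apply f hu]
    exact mul_nonneg (hf χ) (C.img_nonneg hu (fun ψ => mul_nonneg (s.nonneg i ψ) (t.nonneg j ψ)) χ)
  have hsplit : ∀ i, s.c i = ∑ j, s.c i * t.c j := fun i => by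
    rw [← Finset.mul_sum, t.sum_eq, mul_one]
  calc ∑ j, B (C.mono f u (t.c j)) (C.mono g v (t.c j))
      = ∑ j, ∑ i, B (C.mono f u (s.c i * t.c j)) (C.mono g v (s.c i * t.c j)) :=
        Finset.sum_congr rfl fun j _ =>
          (Part.sum_refine hst j (fun x => B (C.mono f u x) (C.mono g v x)) (by simp)).symm
    _ = ∑ i, ∑ j, B (C.mono f u (s.c i * t.c j)) (C.mono g v (s.c i * t.c j)) := Finset.sum_comm
    _ ≤ ∑ i, ∑ j, ∑ k, B (C.mono f u (s.c i * t.c j)) (C.mono g v (s.c i * t.c k)) :=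
        Finset.sum_le_sum fun i _ => Finset.sum_le_sum fun j _ => Finset.single_le_sum
          (fun k _ => hpos _ _ (hn hu hf i j) (hn hv hg i k)) (Finset.mem_univ j)
    _ = ∑ i, B (C.mono f u (s.c i)) (C.mono g v (s.c i)) := by
        refine Finset.sum_congr rfl fun i _ => ?_
        conv_rhs => rw [hsplit i]
        simp only [map_sum, LinearMap.sum_apply]
        rw [Finset.sum_comm]

theorem pos_exists_tendsto (f g : C(C.Spec, ℝ)) {u v : K →L[ℂ] K} (hu : u ∈ C.GN)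
    (hv : v ∈ C.GN) : ∃ l, Tendsto
      (fun s : Part C => ∑ c, B (C.mono f u (s.c c)) (C.mono g v (s.c c))) atTop (𝓝 l) := by
  have key : ∀ f g : C(C.Spec, ℝ), (∀ χ, 0 ≤ f χ) → (∀ χ, 0 ≤ g χ) → ∃ l, Tendsto
      (fun s : Part C => ∑ c, B (C.mono f u (s.c c)) (C.mono g v (s.c c))) atTop (𝓝 l) := by
    intro f g hf hg
    refine ⟨_, tendsto_atTop_ciInf (pos_antitone hpos hu hv hf hg) ⟨0, ?_⟩⟩
    rintro _ ⟨s, rfl⟩
    refine Finset.sum_nonneg fun c _ => hpos _ _ (fun χ => ?_) fun χ => ?_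
    · rw [C.mono_apply f hu]
      exact mul_nonneg (hf χ) (C.img_nonneg hu (s.nonneg c) χ)
    · rw [C.mono_apply g hv]
      exact mul_nonneg (hg χ) (C.img_nonneg hv (s.nonneg c) χ)
  have hp0 : ∀ (f : C(C.Spec, ℝ)) χ, 0 ≤ (f ⊔ 0) χ := fun f χ => le_max_right _ _
  have hsplit : ∀ f : C(C.Spec, ℝ), f = f ⊔ 0 - (-f) ⊔ 0 := fun f => ContinuousMap.ext fun χ =>
    (max_zero_sub_max_neg_zero_eq_self (f χ)).symm
  obtain ⟨l1, h1⟩ := key _ _ (hp0 f) (hp0 g)
  obtain ⟨l2, h2⟩ := key _ _ (hp0 f) (hp0 (-g))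
  obtain ⟨l3, h3⟩ := key _ _ (hp0 (-f)) (hp0 g)
  obtain ⟨l4, h4⟩ := key _ _ (hp0 (-f)) (hp0 (-g))
  refine ⟨l1 - l2 - (l3 - l4), ((h1.sub h2).sub (h3.sub h4)).congr fun s => ?_⟩
  conv_rhs => rw [hsplit f, hsplit g]
  simp only [C.mono_apply _ hu, C.mono_apply _ hv, sub_mul, map_sub, LinearMap.sub_apply,
    Finset.sum_sub_distrib]
  ring

omit hpos in
/-- A form nonnegative on nonnegative symbols may be summed. -/
def ofPos (B : C(C.Spec, ℝ) →ₗ[ℝ] C(C.Spec, ℝ) →ₗ[ℝ] ℝ)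
    (hpos : ∀ g h : C(C.Spec, ℝ), (∀ χ, 0 ≤ g χ) → (∀ χ, 0 ≤ h χ) → 0 ≤ B g h) : Form C where
  B := B
  bound := ⟨B 1 1, hpos 1 1 (fun _ => zero_le_one) fun _ => zero_le_one,
    fun n x y a b _ _ hx hy => pos_bound hpos n x y a b hx hy⟩
  conv := by
    rintro T ⟨f, u, hu, rfl⟩ T' ⟨g, v, hv, rfl⟩
    exact pos_exists_tendsto hpos f g hu hv

end ofPos

theorem ofPos_B (B : C(C.Spec, ℝ) →ₗ[ℝ] C(C.Spec, ℝ) →ₗ[ℝ] ℝ) (hpos) :
    (ofPos B hpos).B = B := rfl

/-- The sum of two forms. -/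
def add (F F' : Form C) : Form C where
  B := F.B + F'.B
  bound := by
    obtain ⟨k, hk, h⟩ := F.bound
    obtain ⟨k', hk', h'⟩ := F'.bound
    refine ⟨k + k', add_nonneg hk hk', fun n x y a b ha hb hx hy => ?_⟩
    simp only [LinearMap.add_apply, Finset.sum_add_distrib]
    refine (abs_add_le _ _).trans ?_
    rw [add_mul, add_mul]
    exact add_le_add (h n x y a b ha hb hx hy) (h' n x y a b ha hb hx hy)
  conv T hT T' hT' := by
    obtain ⟨l, hl⟩ := F.conv T hT T' hT'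
    obtain ⟨m, hm⟩ := F'.conv T hT T' hT'
    exact ⟨l + m, (hl.add hm).congr fun s => by
      simp only [LinearMap.add_apply, Finset.sum_add_distrib]⟩

/-- A multiple of a form. -/
def smul (t : ℝ) (F : Form C) : Form C where
  B := t • F.B
  bound := by
    obtain ⟨k, hk, h⟩ := F.bound
    refine ⟨|t| * k, by positivity, fun n x y a b ha hb hx hy => ?_⟩
    simp only [LinearMap.smul_apply, smul_eq_mul, ← Finset.mul_sum, abs_mul]
    calc |t| * |∑ i, F.B (x i) (y i)| ≤ |t| * (k * a * b) :=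
          mul_le_mul_of_nonneg_left (h n x y a b ha hb hx hy) (abs_nonneg t)
      _ = _ := by ring
  conv T hT T' hT' := by
    obtain ⟨l, hl⟩ := F.conv T hT T' hT'
    exact ⟨t * l, (hl.const_mul t).congr fun s => by
      simp only [LinearMap.smul_apply, smul_eq_mul, Finset.mul_sum]⟩

/-- A form with its variables exchanged. -/
def flip (F : Form C) : Form C where
  B := F.B.flip
  bound := by
    obtain ⟨k, hk, h⟩ := F.bound
    refine ⟨k, hk, fun n x y a b ha hb hx hy => ?_⟩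
    simp only [LinearMap.flip_apply]
    exact (h n y x b a hb ha hy hx).trans_eq (by ring)
  conv T hT T' hT' := F.conv T' hT' T hT

/-- The symmetric part of a form. -/
def symz (F : Form C) : Form C := smul (1 / 2) (add F F.flip)

/-- The form `B (f g) (f h)`. -/
def pullback (F : Form C) (f : C(C.Spec, ℝ)) : Form C where
  B := F.B.compl₁₂ (LinearMap.mulLeft ℝ f) (LinearMap.mulLeft ℝ f)
  bound := by
    obtain ⟨k, hk, h⟩ := F.bound
    refine ⟨k * ‖f‖ * ‖f‖, by positivity, fun n x y a b ha hb hx hy => ?_⟩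
    have key : ∀ (x : Fin n → C(C.Spec, ℝ)) (a : ℝ), (∀ χ, ∑ i, |x i χ| ≤ a) →
        ∀ χ, ∑ i, |(f * x i) χ| ≤ ‖f‖ * a := fun x a hx χ => by
      simp only [ContinuousMap.mul_apply, abs_mul, ← Finset.mul_sum]
      exact mul_le_mul (f.norm_coe_le_norm χ) (hx χ)
        (Finset.sum_nonneg fun i _ => abs_nonneg _) (norm_nonneg f)
    simp only [LinearMap.compl₁₂_apply, LinearMap.mulLeft_apply]
    exact (h n _ _ _ _ (by positivity) (by positivity) (key x a hx) (key y b hy)).trans_eq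
      (by ring)
  conv := by
    rintro T ⟨g, u, hu, rfl⟩ T' ⟨g', v, hv, rfl⟩
    obtain ⟨l, hl⟩ := F.conv _ ⟨f * g, u, hu, rfl⟩ _ ⟨f * g', v, hv, rfl⟩
    exact ⟨l, hl.congr fun s => by
      simp only [LinearMap.compl₁₂_apply, LinearMap.mulLeft_apply, C.mono_apply _ hu,
        C.mono_apply _ hv, mul_assoc]⟩

theorem add_B (F F' : Form C) (g h : C(C.Spec, ℝ)) : (F.add F').B g h = F.B g h + F'.B g h := rfl

theorem smul_B (t : ℝ) (F : Form C) (g h : C(C.Spec, ℝ)) : (smul t F).B g h = t * F.B g h := rfl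

theorem flip_B (F : Form C) (g h : C(C.Spec, ℝ)) : F.flip.B g h = F.B h g := rfl

theorem pullback_B (F : Form C) (f g h : C(C.Spec, ℝ)) :
    (F.pullback f).B g h = F.B (f * g) (f * h) := rfl

theorem symz_B (F : Form C) (g h : C(C.Spec, ℝ)) :
    F.symz.B g h = 1 / 2 * (F.B g h + F.B h g) := rfl

theorem symz_symm (F : Form C) : F.symz.Symm := fun g h => by rw [symz_B, symz_B]; ring

theorem pullback_symm {F : Form C} (hF : F.Symm) (f : C(C.Spec, ℝ)) : (F.pullback f).Symm :=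
  fun _ _ => hF _ _

theorem add_symm {F F' : Form C} (hF : F.Symm) (hF' : F'.Symm) : (F.add F').Symm :=
  fun g h => by rw [add_B, add_B, hF, hF']

theorem smul_symm (t : ℝ) {F : Form C} (hF : F.Symm) : (smul t F).Symm :=
  fun g h => by rw [smul_B, smul_B, hF]

theorem pair_add_form (F F' : Form C) {T T' : C.Op} (hT : T ∈ C.Ops) (hT' : T' ∈ C.Ops) :
    (F.add F').pair T T' = F.pair T T' + F'.pair T T' :=
  (F.add F').pair_eq_of_tendsto (((F.tendsto_pairS hT hT').add (F'.tendsto_pairS hT hT')).congr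
    fun s => by simp only [pairS, add_B, Finset.sum_add_distrib])

theorem pair_smul_form (t : ℝ) (F : Form C) {T T' : C.Op} (hT : T ∈ C.Ops) (hT' : T' ∈ C.Ops) :
    (smul t F).pair T T' = t * F.pair T T' :=
  (smul t F).pair_eq_of_tendsto (((F.tendsto_pairS hT hT').const_mul t).congr
    fun s => by simp only [pairS, smul_B, Finset.mul_sum])

theorem pair_flip (F : Form C) (T T' : C.Op) : F.flip.pair T T' = F.pair T' T := rfl

theorem pair_symz (F : Form C) {T T' : C.Op} (hT : T ∈ C.Ops) (hT' : T' ∈ C.Ops) :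
    F.symz.pair T T' = 1 / 2 * (F.pair T T' + F.pair T' T) := by
  rw [symz, pair_smul_form _ _ hT hT', pair_add_form _ _ hT hT', pair_flip]

theorem pair_pullback (F : Form C) (f : C(C.Spec, ℝ)) (T T' : C.Op) :
    (F.pullback f).pair T T' = F.pair (C.mulC f * T) (C.mulC f * T') := rfl

end Form

/-! ### Transposes -/

namespace Adj

variable {C}

theorem symm {T T' : C.Op} (h : C.Adj T T') : C.Adj T' T :=
  ⟨h.right_mem, h.left_mem, h.swap', h.swap⟩

theorem zero : C.Adj 0 0 :=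
  ⟨zero_mem _, zero_mem _,
    fun F X _ Y _ => by rw [mul_zero, mul_zero, F.pair_zero_left, F.pair_zero_right],
    fun F X _ Y _ => by rw [mul_zero, mul_zero, F.pair_zero_left, F.pair_zero_right]⟩

theorem add {S S' T T' : C.Op} (h : C.Adj S S') (h' : C.Adj T T') :
    C.Adj (S + T) (S' + T') := by
  refine ⟨add_mem h.left_mem h'.left_mem, add_mem h.right_mem h'.right_mem, ?_, ?_⟩
  · intro F X hX Y hY
    rw [mul_add, mul_add, F.pair_add_left (C.mul_mem_Ops hX h.left_mem)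
      (C.mul_mem_Ops hX h'.left_mem) hY, F.pair_add_right hX (C.mul_mem_Ops hY h.right_mem)
      (C.mul_mem_Ops hY h'.right_mem), h.swap F X hX Y hY, h'.swap F X hX Y hY]
  · intro F X hX Y hY
    rw [mul_add, mul_add, F.pair_add_left (C.mul_mem_Ops hX h.right_mem)
      (C.mul_mem_Ops hX h'.right_mem) hY, F.pair_add_right hX (C.mul_mem_Ops hY h.left_mem)
      (C.mul_mem_Ops hY h'.left_mem), h.swap' F X hX Y hY, h'.swap' F X hX Y hY]

theorem smul (t : ℝ) {T T' : C.Op} (h : C.Adj T T') : C.Adj (t • T) (t • T') := by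
  refine ⟨Submodule.smul_mem _ t h.left_mem, Submodule.smul_mem _ t h.right_mem, ?_, ?_⟩
  · intro F X hX Y hY
    rw [mul_smul_comm, mul_smul_comm, F.pair_smul_left t (C.mul_mem_Ops hX h.left_mem) hY,
      F.pair_smul_right t hX (C.mul_mem_Ops hY h.right_mem), h.swap F X hX Y hY]
  · intro F X hX Y hY
    rw [mul_smul_comm, mul_smul_comm, F.pair_smul_left t (C.mul_mem_Ops hX h.right_mem) hY,
      F.pair_smul_right t hX (C.mul_mem_Ops hY h.left_mem), h.swap' F X hX Y hY]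

theorem sub {S S' T T' : C.Op} (h : C.Adj S S') (h' : C.Adj T T') :
    C.Adj (S - T) (S' - T') := by
  have e : ∀ W Z : C.Op, W + (-1 : ℝ) • Z = W - Z := fun W Z =>
    ContinuousLinearMap.ext fun x => by
      simp only [add_apply, smul_apply, sub_apply, neg_smul, one_smul, ← sub_eq_add_neg]
  simpa only [e] using h.add (h'.smul (-1))

theorem sum {ι : Type*} (t : Finset ι) {T T' : ι → C.Op} (h : ∀ i ∈ t, C.Adj (T i) (T' i)) :
    C.Adj (∑ i ∈ t, T i) (∑ i ∈ t, T' i) := by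
  classical
  induction t using Finset.induction_on with
  | empty => simpa using Adj.zero
  | @insert i t hi ih =>
    rw [Finset.sum_insert hi, Finset.sum_insert hi]
    exact (h i (Finset.mem_insert_self i t)).add (ih fun j hj => h j (Finset.mem_insert_of_mem hj))

theorem mul {S S' T T' : C.Op} (h : C.Adj S S') (h' : C.Adj T T') :
    C.Adj (S * T) (T' * S') := by
  refine ⟨C.mul_mem_Ops h.left_mem h'.left_mem, C.mul_mem_Ops h'.right_mem h.right_mem, ?_, ?_⟩
  · intro F X hX Y hY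
    rw [← mul_assoc, ← mul_assoc, h'.swap F _ (C.mul_mem_Ops hX h.left_mem) Y hY,
      h.swap F X hX _ (C.mul_mem_Ops hY h'.right_mem)]
  · intro F X hX Y hY
    rw [← mul_assoc, ← mul_assoc, h.swap' F _ (C.mul_mem_Ops hX h'.right_mem) Y hY,
      h'.swap' F X hX _ (C.mul_mem_Ops hY h.left_mem)]

end Adj

theorem adj_imgL_aux {w : K →L[ℂ] K} (hw : w ∈ C.GN) (F : Form C) {X Y : C.Op}
    (hX : X ∈ C.Ops) (hY : Y ∈ C.Ops) :
    F.pair (X * C.imgL w) Y = F.pair X (Y * C.imgL (star w)) := by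
  have hw' := C.GN_star hw
  have hXw := C.mul_mem_Ops hX (C.imgL_mem hw)
  have hYw := C.mul_mem_Ops hY (C.imgL_mem hw')
  have hp := C.img_idem hw' (one_mul (1 : C(C.Spec, ℝ)))
  set p := C.img (star w) 1 with hpdef
  have hww : ∀ c, C.img (star w) (C.img w c) = p * c := fun c => by
    refine C.op_inj ?_
    rw [C.op_img hw', C.op_img hw, map_mul, C.op_img_one hw', star_star]
    calc star w * (w * C.op c * star w) * w = (star w * w) * (C.op c * (star w * w)) := by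
          simp only [mul_assoc]
      _ = (star w * w) * ((star w * w) * C.op c) := by
          rw [C.A_comm (C.op_mem c) (C.GN_star_mul_self hw)]
      _ = star w * (w * star w * w) * C.op c := by simp only [mul_assoc]
      _ = _ := by rw [hw.2.1]
  have hback : ∀ c, C.img w c = C.img w (p * c) := fun c => by
    rw [hpdef, ← C.mul_img hw, one_mul]
  have hout : ∀ c, C.img (star w) ((1 - C.img w 1) * c) = 0 := fun c => by
    have e : C.img (star w) (1 - C.img w 1) = 0 := by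
      rw [← C.imgL_apply hw', map_sub, C.imgL_apply hw', C.imgL_apply hw', hww, mul_one, sub_self]
    rw [C.img_mul hw', e, zero_mul]
  refine tendsto_nhds_unique_of_eventuallyEq (F.tendsto_pairS hXw hY)
    ((F.tendsto_pairS hX hYw).comp
      (tendsto_atTop.2 fun s₁ => C.eventually_le_imgPart hw s₁)) ?_
  filter_upwards [eventually_ge_atTop (Part.pair p hp)] with s hs
  change F.pairS s (X * C.imgL w) Y = F.pairS (C.imgPart hw s) X (Y * C.imgL (star w))
  symm
  rw [Form.pairS, Form.pairS, imgPart,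
    Part.sum_ofFintype (fun d => F.B (X d) ((Y * C.imgL (star w)) d)), Fintype.sum_sum_type]
  simp only [Sum.elim_inl, Sum.elim_inr, mul_apply_eq_comp, C.imgL_apply hw,
    C.imgL_apply hw', hout, map_zero, Finset.sum_const_zero, add_zero, hww]
  refine Finset.sum_congr rfl fun c _ => ?_
  rcases Part.resolve hs c with e | e
  · rw [e]
  · rw [hback (s.c c), e, C.img_zero hw]
    simp

theorem adj_imgL {u : K →L[ℂ] K} (hu : u ∈ C.GN) : C.Adj (C.imgL u) (C.imgL (star u)) := by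
  refine ⟨C.imgL_mem hu, C.imgL_mem (C.GN_star hu),
    fun F X hX Y hY => C.adj_imgL_aux hu F hX hY, fun F X hX Y hY => ?_⟩
  simpa only [star_star] using C.adj_imgL_aux (C.GN_star hu) F hX hY

theorem adj_mulC_aux (a : C(C.Spec, ℝ)) (F : Form C) {X Y : C.Op} (hX : X ∈ C.Ops)
    (hY : Y ∈ C.Ops) : F.pair (X * C.mulC a) Y = F.pair X (Y * C.mulC a) := by
  have hL := fun b => C.mul_mem_Ops hX (C.mulC_mem b)
  have hR := fun b => C.mul_mem_Ops hY (C.mulC_mem b)
  let D : C(C.Spec, ℝ) →ₗ[ℝ] ℝ :=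
    { toFun := fun b => F.pair (X * C.mulC b) Y - F.pair X (Y * C.mulC b)
      map_add' := fun b b' => by
        rw [C.mulC_add, mul_add, mul_add, F.pair_add_left (hL b) (hL b') hY,
          F.pair_add_right hX (hR b) (hR b')]
        ring
      map_smul' := fun t b => by
        rw [C.mulC_smul, mul_smul_comm, mul_smul_comm, F.pair_smul_left t (hL b) hY,
          F.pair_smul_right t hX (hR b), RingHom.id_apply, smul_eq_mul]
        ring }
  have hidem : ∀ p, p * p = p → D p = 0 := by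
    intro p hp
    refine sub_eq_zero.2 (tendsto_nhds_unique_of_eventuallyEq (F.tendsto_pairS (hL p) hY)
      (F.tendsto_pairS hX (hR p)) ?_)
    filter_upwards [eventually_ge_atTop (Part.pair p hp)] with s hs
    refine Finset.sum_congr rfl fun c _ => ?_
    simp only [mul_apply_eq_comp, C.mulC_apply]
    rcases Part.resolve hs c with e | e <;> rw [e]
    simp
  obtain ⟨k, hk, hbd⟩ := F.exists_pair_le
  have hsmall : ∀ b, |D b| ≤ 2 * (k * ‖X‖ * ‖Y‖) * ‖b‖ := fun b => by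
    refine (abs_sub _ _).trans ?_
    have h1 := hbd _ (hL b) _ hY
    have h2 := hbd _ hX _ (hR b)
    have e1 : ‖X * C.mulC b‖ ≤ ‖X‖ * ‖b‖ :=
      (C.norm_mul_Op_le _ _).trans (mul_le_mul_of_nonneg_left (C.norm_mulC_le b) (norm_nonneg X))
    have e2 : ‖Y * C.mulC b‖ ≤ ‖Y‖ * ‖b‖ :=
      (C.norm_mul_Op_le _ _).trans (mul_le_mul_of_nonneg_left (C.norm_mulC_le b) (norm_nonneg Y))
    have m1 := mul_le_mul_of_nonneg_right (mul_le_mul_of_nonneg_left e1 hk) (norm_nonneg Y)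
    have m2 := mul_le_mul_of_nonneg_left e2 (mul_nonneg hk (norm_nonneg X))
    linarith
  refine sub_eq_zero.1 (abs_nonpos_iff.1 (le_of_forall_pos_le_add fun ε hε => ?_))
  set M := 2 * (k * ‖X‖ * ‖Y‖) + 1
  have hM : 0 < M := by positivity
  obtain ⟨n, w, p, hp, happ⟩ := C.exists_simple a (div_pos hε hM)
  have e : D (a - ∑ i, w i • p i) = D a := by
    rw [map_sub, map_sum]
    simp only [map_smul, hidem _ (hp _), smul_zero, Finset.sum_const_zero, sub_zero]
  change |D a| ≤ 0 + ε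
  rw [← e, zero_add]
  refine (hsmall _).trans ?_
  calc 2 * (k * ‖X‖ * ‖Y‖) * ‖a - ∑ i, w i • p i‖ ≤ M * (ε / M) :=
        mul_le_mul (le_add_of_nonneg_right zero_le_one)
          ((ContinuousMap.norm_le _ (div_pos hε hM).le).2 fun χ => by
            rw [ContinuousMap.sub_apply, ContinuousMap.sum_apply, Real.norm_eq_abs]
            exact happ χ) (norm_nonneg _) hM.le
    _ = ε := mul_div_cancel₀ ε hM.ne'

theorem adj_mulC (f : C(C.Spec, ℝ)) : C.Adj (C.mulC f) (C.mulC f) :=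
  ⟨C.mulC_mem f, C.mulC_mem f, fun F _ hX _ hY => C.adj_mulC_aux f F hX hY,
    fun F _ hX _ hY => C.adj_mulC_aux f F hX hY⟩

theorem adj_one : C.Adj 1 1 := by
  have := C.adj_mulC 1
  rwa [C.mulC_one] at this

theorem adj_mono (f : C(C.Spec, ℝ)) {u : K →L[ℂ] K} (hu : u ∈ C.GN) :
    C.Adj (C.mono f u) (C.mono (C.img (star u) f) (star u)) := by
  have e : C.imgL (star u) * C.mulC f = C.mono (C.img (star u) f) (star u) := by
    rw [C.imgL_eq_mono, C.mulC_eq_mono, C.monos_mul 1 f (C.GN_star hu) C.GN_one, one_mul, mul_one]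
  rw [← e]
  exact (C.adj_mulC f).mul (C.adj_imgL hu)

theorem Adj.pow {T T' : C.Op} (h : C.Adj T T') (m : ℕ) : C.Adj (T ^ m) (T' ^ m) := by
  induction m with
  | zero => rw [pow_zero, pow_zero]; exact C.adj_one
  | succ m ih =>
    rw [pow_succ, pow_succ']
    exact ih.mul h

theorem adj_symOp {n : ℕ} (f : Fin n → C(C.Spec, ℝ)) {u : Fin n → K →L[ℂ] K}
    (hu : ∀ k, u k ∈ C.GN) : C.Adj (C.symOp f u) (C.symOp f u) := by
  refine (Adj.sum _ fun k _ => ?_).smul _
  have h := C.adj_mono (f k) (hu k)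
  have := h.add h.symm
  rwa [add_comm (C.mono (C.img (star (u k)) (f k)) (star (u k)))] at this

/-! ### The Schwarz inequality -/

namespace Form

variable {C} {F : Form C}

theorem pair_sq_le (hS : F.Symm) (hP : F.PSD) {Z W : C.Op} (hZ : Z ∈ C.Ops) (hW : W ∈ C.Ops) :
    F.pair Z W ^ 2 ≤ F.pair Z Z * F.pair W W := by
  have key : ∀ t : ℝ, 0 ≤ F.pair W W * (t * t) + 2 * F.pair Z W * t + F.pair Z Z := fun t => by
    have htW : t • W ∈ C.Ops := Submodule.smul_mem _ t hW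
    have h := F.pair_nonneg hP (add_mem hZ htW)
    rw [F.pair_add_left hZ htW (add_mem hZ htW), F.pair_add_right hZ hZ htW,
      F.pair_add_right htW hZ htW, F.pair_smul_right t hZ hW, F.pair_smul_left t hW hZ,
      F.pair_smul_left t hW htW, F.pair_smul_right t hW hW, F.pair_comm hS W Z] at h
    linarith
  have := discrim_le_zero key
  rw [discrim] at this
  linarith

theorem pair_mul_self_le (hS : F.Symm) (hP : F.PSD) {G X : C.Op} (hG : C.Adj G G)
    (hX : X ∈ C.Ops) : F.pair (X * G) (X * G) ≤ ‖G‖ ^ 2 * F.pair X X := by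
  set a : ℕ → ℝ := fun m => F.pair (X * G ^ m) (X * G ^ m) with ha
  have hm : ∀ m, X * G ^ m ∈ C.Ops := fun m =>
    C.mul_mem_Ops hX (C.pow_mem_Ops hG.left_mem m)
  have hsq : ∀ m, a m ^ 2 ≤ a 0 * a (2 * m) := fun m => by
    have e : a m = F.pair X (X * G ^ (2 * m)) := by
      rw [ha, two_mul, pow_add, ← mul_assoc]
      exact (hG.pow C m).swap F X hX _ (hm m)
    rw [e]
    refine (pair_sq_le hS hP hX (hm (2 * m))).trans_eq ?_
    simp [ha]
  have ha0 : ∀ m, 0 ≤ a m := fun m => F.pair_nonneg hP (hm m)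
  obtain ⟨k, hk, hbd⟩ := F.exists_pair_le
  set D := k * ‖X‖ * ‖X‖ with hD
  have hup : ∀ j, a (2 ^ j) ≤ D * (‖G‖ ^ 2) ^ (2 ^ j) := fun j => by
    have hn : ‖X * G ^ (2 ^ j)‖ ≤ ‖X‖ * ‖G‖ ^ (2 ^ j) := (C.norm_mul_Op_le _ _).trans
      (mul_le_mul_of_nonneg_left (C.norm_pow_Op_le G _) (norm_nonneg X))
    refine ((le_abs_self _).trans (hbd _ (hm _) _ (hm _))).trans ?_
    calc k * ‖X * G ^ (2 ^ j)‖ * ‖X * G ^ (2 ^ j)‖
        ≤ k * (‖X‖ * ‖G‖ ^ (2 ^ j)) * (‖X‖ * ‖G‖ ^ (2 ^ j)) := by gcongr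
      _ = _ := by rw [hD, sq ‖G‖, mul_pow]; ring
  have e0 : F.pair X X = a 0 := by simp [ha]
  have e1 : F.pair (X * G) (X * G) = a 1 := by simp [ha]
  rw [e0, e1]
  rcases (ha0 0).eq_or_lt with h0 | h0
  · have h1 := hsq 1
    rw [← h0, zero_mul] at h1
    rw [pow_eq_zero_iff two_ne_zero |>.1 (le_antisymm h1 (sq_nonneg _)), ← h0, mul_zero]
  have hit : ∀ j, (a 1 / a 0) ^ (2 ^ j) ≤ a (2 ^ j) / a 0 := by
    intro j
    induction j with
    | zero => simp
    | succ j ih =>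
      rw [pow_succ, pow_mul]
      refine (pow_le_pow_left₀ (pow_nonneg (div_nonneg (ha0 1) h0.le) _) ih 2).trans ?_
      rw [div_pow, div_le_div_iff₀ (pow_pos h0 2) h0, sq (a 0), mul_comm (2 ^ j) 2]
      calc a (2 ^ j) ^ 2 * a 0 ≤ a 0 * a (2 * 2 ^ j) * a 0 :=
            mul_le_mul_of_nonneg_right (hsq _) h0.le
        _ = _ := by ring
  by_contra hlt
  rw [not_le] at hlt
  set q := ‖G‖ ^ 2
  have hq : 0 ≤ q := sq_nonneg _
  have hr : q < a 1 / a 0 := by rwa [lt_div_iff₀ h0]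
  rcases hq.eq_or_lt with hq0 | hq0
  · have h1 := hup 0
    rw [pow_zero, pow_one, ← hq0, mul_zero] at h1
    rw [← hq0, zero_mul] at hlt
    linarith
  obtain ⟨j, hj⟩ := pow_unbounded_of_one_lt (D / a 0) ((one_lt_div hq0).2 hr)
  have h2 : (a 1 / a 0 / q) ^ (2 ^ j) ≤ D / a 0 := by
    rw [div_pow, div_le_iff₀ (pow_pos hq0 _)]
    refine (hit j).trans ?_
    rw [div_mul_eq_mul_div]
    exact div_le_div_of_nonneg_right (hup j) h0.le
  exact absurd (hj.trans_le ((pow_le_pow_right₀ ((one_lt_div hq0).2 hr).le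
    Nat.lt_two_pow_self.le).trans h2)) (lt_irrefl _)

theorem abs_pair_mul_le (hS : F.Symm) (hP : F.PSD) {G X : C.Op} (hG : C.Adj G G)
    (hX : X ∈ C.Ops) : |F.pair (X * G) X| ≤ ‖G‖ * F.pair X X := by
  refine abs_le_of_sq_le_sq ?_ (mul_nonneg (norm_nonneg G) (F.pair_nonneg hP hX))
  refine (pair_sq_le hS hP (C.mul_mem_Ops hX hG.left_mem) hX).trans ?_
  calc F.pair (X * G) (X * G) * F.pair X X ≤ ‖G‖ ^ 2 * F.pair X X * F.pair X X :=
        mul_le_mul_of_nonneg_right (pair_mul_self_le hS hP hG hX) (F.pair_nonneg hP hX)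
    _ = _ := by ring

theorem pair_mul_adj_le (hS : F.Symm) (hP : F.PSD) {T T' X : C.Op} (h : C.Adj T T')
    (hX : X ∈ C.Ops) : F.pair (X * T) (X * T) ≤ ‖T'‖ * ‖T‖ * F.pair X X := by
  rw [h.swap F X hX _ (C.mul_mem_Ops hX h.left_mem), mul_assoc, F.pair_comm hS]
  refine ((le_abs_self _).trans (abs_pair_mul_le hS hP (h.mul h.symm) hX)).trans ?_
  refine mul_le_mul_of_nonneg_right ?_ (F.pair_nonneg hP hX)
  rw [mul_comm ‖T'‖]
  exact C.norm_mul_Op_le _ _

theorem pair_self_le (hS : F.Symm) (hP : F.PSD) {T T' : C.Op} (h : C.Adj T T') :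
    F.pair T T ≤ ‖T'‖ * ‖T‖ * F.pair 1 1 := by
  simpa only [one_mul] using pair_mul_adj_le hS hP h C.one_mem_Ops

end Form

end Ctx

end Vale.Agent.P078.Expected
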