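import Vale.Agent.P078.Expected.Expect

/-!
Normalising partial isometries of an inclusion with expectation: algebra, images of symbols and of
partitions.
-/

noncomputable section

open scoped InnerProductSpace ComplexConjugate
open Filter Topology

namespace Vale.Agent.P078.Expected

universe u

variable {K : Type u} [NormedAddCommGroup K] [InnerProductSpace ℂ K] [CompleteSpace K]

namespace Ctx

variable (C : Ctx K)

/-- The normalising partial isometries. -/
def GN : Set (K →L[ℂ] K) :=
  {u | u ∈ C.M ∧ u * star u * u = u ∧ (∀ a ∈ C.A, u * a * star u ∈ C.A) ∧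
    ∀ a ∈ C.A, star u * a * u ∈ C.A}

theorem GN_mem {u : K →L[ℂ] K} (hu : u ∈ C.GN) : u ∈ C.M := hu.1

theorem GN_star_mul_self {u : K →L[ℂ] K} (hu : u ∈ C.GN) : star u * u ∈ C.A := by
  simpa using hu.2.2.2 1 (one_mem _)

theorem GN_mul_star_self {u : K →L[ℂ] K} (hu : u ∈ C.GN) : u * star u ∈ C.A := by
  simpa using hu.2.2.1 1 (one_mem _)

theorem GN_one : (1 : K →L[ℂ] K) ∈ C.GN :=
  ⟨one_mem _, by simp, fun a ha => by simpa using ha, fun a ha => by simpa using ha⟩

theorem GN_star {u : K →L[ℂ] K} (hu : u ∈ C.GN) : star u ∈ C.GN := by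
  refine ⟨star_mem hu.1, ?_, fun a ha => ?_, fun a ha => ?_⟩
  · have h := congrArg star hu.2.1
    simpa [mul_assoc] using h
  · simpa using hu.2.2.2 a ha
  · simpa using hu.2.2.1 a ha

theorem GN_mul {u v : K →L[ℂ] K} (hu : u ∈ C.GN) (hv : v ∈ C.GN) : u * v ∈ C.GN := by
  refine ⟨mul_mem hu.1 hv.1, ?_, fun a ha => ?_, fun a ha => ?_⟩
  · calc u * v * star (u * v) * (u * v)
        = u * ((v * star v) * (star u * u)) * v := by simp only [star_mul, mul_assoc]
      _ = u * ((star u * u) * (v * star v)) * v := by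
          rw [C.A_comm (C.GN_mul_star_self hv) (C.GN_star_mul_self hu)]
      _ = (u * star u * u) * (v * star v * v) := by simp only [mul_assoc]
      _ = u * v := by rw [hu.2.1, hv.2.1]
  · have := hu.2.2.1 _ (hv.2.2.1 a ha)
    simpa [mul_assoc] using this
  · have := hv.2.2.2 _ (hu.2.2.2 a ha)
    simpa [mul_assoc] using this

theorem GN_op {p : C(C.Spec, ℝ)} (hp : p * p = p) : C.op p ∈ C.GN := by
  refine ⟨C.op_mem_M p, ?_, fun a ha => ?_, fun a ha => ?_⟩
  · rw [(C.op_sa p).star_eq, ← map_mul, hp, ← map_mul, hp]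
  · exact mul_mem (mul_mem (C.op_mem p) ha) (star_mem (C.op_mem p))
  · exact mul_mem (mul_mem (star_mem (C.op_mem p)) ha) (C.op_mem p)

theorem GN_comm {u : K →L[ℂ] K} (hu : u ∈ C.GN) {f : K →L[ℂ] K} (hf : f ∈ C.A) :
    u * f = u * f * (star u * u) := by
  rw [mul_assoc, C.A_comm hf (C.GN_star_mul_self hu), ← mul_assoc, ← mul_assoc, hu.2.1]

theorem E_eq_of_tr {y a' : K →L[ℂ] K} (hy : y ∈ C.M) (ha : a' ∈ C.A)
    (h : ∀ g ∈ C.A, C.tr (g * y) = C.tr (g * a')) : C.E y = a' := by
  set d := C.E y - a' with hd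
  have hdA : d ∈ C.A := sub_mem (C.E_mem y) ha
  have h1 : C.tr (star d * C.E y) = C.tr (star d * y) := by
    rw [← C.tr_E (mul_mem (C.hAM (star_mem hdA)) hy), C.E_mul_left (star_mem hdA) hy]
  have h2 : C.tr (star d * d) = 0 := by
    conv_lhs => arg 2; arg 2; rw [hd]
    rw [mul_sub, C.tr_sub, h1, h _ (star_mem hdA), sub_self]
  rw [C.tr_star_mul_self, sq_eq_zero_iff, Complex.ofReal_eq_zero] at h2
  exact sub_eq_zero.1 (C.hsep d (C.hAM hdA) (norm_eq_zero.1 h2))

/-- The symbol of `u p u*`. -/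
def img (u : K →L[ℂ] K) (p : C(C.Spec, ℝ)) : C(C.Spec, ℝ) := C.re (u * C.op p * star u)

theorem op_img {u : K →L[ℂ] K} (hu : u ∈ C.GN) (p : C(C.Spec, ℝ)) :
    C.op (C.img u p) = u * C.op p * star u :=
  C.op_re (hu.2.2.1 _ (C.op_mem p)) (IsSelfAdjoint.conjugate (C.op_sa p) u)

theorem img_idem {u : K →L[ℂ] K} (hu : u ∈ C.GN) {p : C(C.Spec, ℝ)} (hp : p * p = p) :
    C.img u p * C.img u p = C.img u p := by
  refine C.op_inj ?_
  rw [map_mul, C.op_img hu]
  calc u * C.op p * star u * (u * C.op p * star u)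
      = (u * C.op p * (star u * u)) * (C.op p * star u) := by simp only [mul_assoc]
    _ = (u * C.op p) * (C.op p * star u) := by rw [← C.GN_comm hu (C.op_mem p)]
    _ = _ := by rw [mul_assoc u, ← mul_assoc (C.op p), ← map_mul, hp, ← mul_assoc]

theorem sum_img {u : K →L[ℂ] K} (hu : u ∈ C.GN) (s : Part C) :
    ∑ i, C.img u (s.c i) = C.img u 1 := by
  refine C.op_inj ?_
  simp only [map_sum, C.op_img hu]
  rw [← Finset.sum_mul, ← Finset.mul_sum, C.op_sum_eq, map_one]

theorem mul_img {u : K →L[ℂ] K} (hu : u ∈ C.GN) (p c : C(C.Spec, ℝ)) :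
    p * C.img u c = C.img u (C.img (star u) p * c) := by
  refine C.op_inj ?_
  rw [map_mul, C.op_img hu, C.op_img hu, map_mul, C.op_img (C.GN_star hu), star_star]
  calc C.op p * (u * C.op c * star u) = C.op p * ((u * star u * u) * C.op c * star u) := by
        rw [hu.2.1]
    _ = (C.op p * (u * star u)) * (u * C.op c * star u) := by simp only [mul_assoc]
    _ = ((u * star u) * C.op p) * (u * C.op c * star u) := by
        rw [C.A_comm (C.op_mem p) (C.GN_mul_star_self hu)]
    _ = _ := by simp only [mul_assoc]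

theorem img_zero {u : K →L[ℂ] K} (hu : u ∈ C.GN) : C.img u 0 = 0 := by
  refine C.op_inj ?_
  rw [C.op_img hu, map_zero, mul_zero, zero_mul]

/-- The image of a partition under `u`, completed by the old pieces outside `u u*`. -/
def imgPart {u : K →L[ℂ] K} (hu : u ∈ C.GN) (s : Part C) : Part C :=
  Part.ofFintype
    (Sum.elim (fun i => C.img u (s.c i)) (fun j => (1 - C.img u 1) * s.c j) :
      Fin s.n ⊕ Fin s.n → C(C.Spec, ℝ))
    (fun k => by
      rcases k with i | j
      · exact C.img_idem hu (s.idem i)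
      · simp only [Sum.elim_inr]
        rw [mul_mul_mul_comm, s.idem, mul_sub, mul_one, sub_mul 1 (C.img u 1) (C.img u 1), one_mul,
          C.img_idem hu (one_mul 1), sub_self, sub_zero])
    (by
      rw [Fintype.sum_sum_type]
      simp only [Sum.elim_inl, Sum.elim_inr]
      rw [C.sum_img hu, ← Finset.mul_sum, s.sum_eq, mul_one, add_sub_cancel])

theorem eventually_le_imgPart {u : K →L[ℂ] K} (hu : u ∈ C.GN) (s₁ : Part C) :
    ∀ᶠ s : Part C in atTop, s₁ ≤ C.imgPart hu s := by
  have hr : ∀ k, C.img (star u) (s₁.c k) * C.img (star u) (s₁.c k) = C.img (star u) (s₁.c k) :=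
    fun k => C.img_idem (C.GN_star hu) (s₁.idem k)
  filter_upwards [eventually_ge_atTop s₁,
    eventually_all.2 fun k => eventually_ge_atTop (Part.pair _ (hr k))] with s h1 h2
  refine Part.le_ofFintype fun k x => ?_
  rcases x with i | j
  · simp only [Sum.elim_inl]
    rw [C.mul_img hu]
    rcases Part.resolve (h2 k) i with e | e
    · exact Or.inl (by rw [e])
    · exact Or.inr (by rw [e, C.img_zero hu])
  · simp only [Sum.elim_inr]
    rw [mul_left_comm]
    rcases h1 k j with e | e
    · exact Or.inl (by rw [e])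
    · exact Or.inr (by rw [e, mul_zero])

theorem op_img_one {u : K →L[ℂ] K} (hu : u ∈ C.GN) : C.op (C.img u 1) = u * star u := by
  rw [C.op_img hu, map_one, mul_one]

/-- The pinching by an image partition, seen through `u`. -/
theorem pinchP_imgPart {u : K →L[ℂ] K} (hu : u ∈ C.GN) (s : Part C) (x : K →L[ℂ] K) :
    star u * C.pinchP (C.imgPart hu s) x * u = C.pinchP s (star u * x * u) := by
  have h3 : star u * u * star u = star u := by
    simpa [mul_assoc] using congrArg star hu.2.1
  have e1 : ∀ c, star u * C.op (C.img u c) = C.op c * star u := fun c => by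
    rw [C.op_img hu]
    calc star u * (u * C.op c * star u) = (star u * u) * C.op c * star u := by
          simp only [mul_assoc]
      _ = C.op c * (star u * u) * star u := by rw [C.A_comm (C.GN_star_mul_self hu) (C.op_mem c)]
      _ = _ := by rw [mul_assoc, h3]
  have e2 : ∀ c, C.op (C.img u c) * u = u * C.op c := fun c => by
    have h := congrArg star (e1 c)
    rwa [star_mul, star_mul, star_star, (C.op_sa _).star_eq, (C.op_sa c).star_eq] at h
  have z1 : star u * C.op (1 - C.img u 1) = 0 := by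
    rw [map_sub, map_one, C.op_img_one hu, mul_sub, mul_one, ← mul_assoc, h3, sub_self]
  rw [pinchP, Finset.mul_sum, Finset.sum_mul, imgPart, Part.sum_ofFintype
    (fun c => star u * (C.op c * x * C.op c) * u), Fintype.sum_sum_type]
  simp only [Sum.elim_inl, Sum.elim_inr]
  rw [Finset.sum_eq_zero (s := Finset.univ) (f := fun j => star u *
    (C.op ((1 - C.img u 1) * s.c j) * x * C.op ((1 - C.img u 1) * s.c j)) * u) (fun j _ => by
      rw [← mul_assoc (star u), ← mul_assoc (star u), map_mul, ← mul_assoc (star u), z1]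
      simp), add_zero, pinchP]
  refine Finset.sum_congr rfl fun i _ => ?_
  calc star u * (C.op (C.img u (s.c i)) * x * C.op (C.img u (s.c i))) * u
      = (star u * C.op (C.img u (s.c i))) * x * (C.op (C.img u (s.c i)) * u) := by
        simp only [mul_assoc]
    _ = _ := by rw [e1, e2]; simp only [mul_assoc]

/-- The expectation commutes with normalising partial isometries. -/
theorem E_conj {u x : K →L[ℂ] K} (hu : u ∈ C.GN) (hx : x ∈ C.M) :
    C.E (star u * x * u) = star u * C.E x * u := by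
  refine C.E_eq_of_tendsto (mul_mem (mul_mem (star_mem hu.1) hx) hu.1) fun v => ?_
  have ht : Tendsto (fun s : Part C => C.imgPart hu s) atTop atTop :=
    tendsto_atTop.2 fun s₁ => C.eventually_le_imgPart hu s₁
  refine (((star u).continuous.tendsto _).comp ((C.tendsto_pinchP hx (u v)).comp ht)).congr
    fun s => ?_
  have e : star u * C.pinchP (C.imgPart hu s) x * u = C.pinchP s (star u * x * u) := by
    rw [C.pinchP_imgPart hu s x]
  exact congrArg (fun R : K →L[ℂ] K => R v) e

theorem norm_GN_le {u : K →L[ℂ] K} (hu : u ∈ C.GN) : ‖u‖ ≤ 1 := by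
  have h1 : (star u * u) * (star u * u) = star u * u := by
    calc (star u * u) * (star u * u) = star u * (u * star u * u) := by simp only [mul_assoc]
      _ = _ := by rw [hu.2.1]
  have h2 : ‖star u * u‖ ≤ 1 :=
    IsStarProjection.norm_le _ ⟨h1, IsSelfAdjoint.star_mul_self u⟩
  rw [CStarRing.norm_star_mul_self] at h2
  nlinarith [norm_nonneg u]

theorem img_add {u : K →L[ℂ] K} (hu : u ∈ C.GN) (p q : C(C.Spec, ℝ)) :
    C.img u (p + q) = C.img u p + C.img u q := by
  refine C.op_inj ?_
  rw [map_add, C.op_img hu, C.op_img hu, C.op_img hu, map_add, mul_add, add_mul]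

theorem img_smul {u : K →L[ℂ] K} (hu : u ∈ C.GN) (t : ℝ) (p : C(C.Spec, ℝ)) :
    C.img u (t • p) = t • C.img u p := by
  refine C.op_inj ?_
  rw [map_smul, C.op_img hu, C.op_img hu, map_smul, mul_smul_comm, smul_mul_assoc]

theorem img_mul {u : K →L[ℂ] K} (hu : u ∈ C.GN) (p q : C(C.Spec, ℝ)) :
    C.img u (p * q) = C.img u p * C.img u q := by
  refine C.op_inj ?_
  rw [map_mul, C.op_img hu, C.op_img hu, C.op_img hu, map_mul]
  calc u * (C.op p * C.op q) * star u = (u * C.op p) * (C.op q * star u) := by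
        simp only [mul_assoc]
    _ = (u * C.op p * (star u * u)) * (C.op q * star u) := by rw [← C.GN_comm hu (C.op_mem p)]
    _ = _ := by simp only [mul_assoc]

theorem img_img {u v : K →L[ℂ] K} (hu : u ∈ C.GN) (hv : v ∈ C.GN) (p : C(C.Spec, ℝ)) :
    C.img u (C.img v p) = C.img (u * v) p := by
  refine C.op_inj ?_
  rw [C.op_img hu, C.op_img hv, C.op_img (C.GN_mul hu hv), star_mul]
  simp only [mul_assoc]

theorem img_nonneg {u : K →L[ℂ] K} (hu : u ∈ C.GN) {p : C(C.Spec, ℝ)} (hp : ∀ χ, 0 ≤ p χ)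
    (χ : C.Spec) : 0 ≤ C.img u p χ := by
  refine C.apply_nonneg ?_ χ
  rw [C.op_img hu]
  exact star_right_conjugate_nonneg (C.op_nonneg hp) u

theorem norm_img_le {u : K →L[ℂ] K} (hu : u ∈ C.GN) (p : C(C.Spec, ℝ)) :
    ‖C.img u p‖ ≤ ‖p‖ := by
  rw [← C.norm_op, C.op_img hu, ← C.norm_op p]
  refine (norm_mul_le _ _).trans ?_
  rw [norm_star]
  calc ‖u * C.op p‖ * ‖u‖ ≤ (‖u‖ * ‖C.op p‖) * ‖u‖ :=
        mul_le_mul_of_nonneg_right (norm_mul_le _ _) (norm_nonneg _)
    _ ≤ (1 * ‖C.op p‖) * 1 := by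
        have := C.norm_GN_le hu
        gcongr
    _ = ‖C.op p‖ := by ring

end Ctx

end Vale.Agent.P078.Expected
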