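import Vale.Agent.P078.Expected.Norm.Basic

/-!
The operators on symbols spanned by the weighted images under normalising partial isometries, the
bilinear forms summed over fine partitions, and the cut-off kernels.
-/

noncomputable section

open scoped InnerProductSpace
open Filter Topology

namespace Vale.Agent.P078.Expected

universe u

variable {K : Type u} [NormedAddCommGroup K] [InnerProductSpace ℂ K] [CompleteSpace K]

namespace Ctx

variable (C : Ctx K)

/-- Operators on real symbols. -/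
abbrev Op : Type u := C(C.Spec, ℝ) →L[ℝ] C(C.Spec, ℝ)

/-- Multiplication by a symbol. -/
def mulC (f : C(C.Spec, ℝ)) : C.Op :=
  (LinearMap.mulLeft ℝ f).mkContinuous ‖f‖ fun v => norm_mul_le f v

/-- The image map of a normalising partial isometry (zero otherwise). -/
def imgL (u : K →L[ℂ] K) : C.Op :=
  open Classical in
  if hu : u ∈ C.GN then
    LinearMap.mkContinuous
      { toFun := C.img u
        map_add' := C.img_add hu
        map_smul' := C.img_smul hu } 1 fun p => (C.norm_img_le hu p).trans_eq (one_mul _).symm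
  else 0

theorem mulC_apply (f g : C(C.Spec, ℝ)) : C.mulC f g = f * g := rfl

theorem imgL_apply {u : K →L[ℂ] K} (hu : u ∈ C.GN) (g : C(C.Spec, ℝ)) :
    C.imgL u g = C.img u g := by
  rw [imgL, dif_pos hu]
  rfl

/-- A weighted image map. -/
def mono (f : C(C.Spec, ℝ)) (u : K →L[ℂ] K) : C.Op := C.mulC f * C.imgL u

theorem mono_apply (f : C(C.Spec, ℝ)) {u : K →L[ℂ] K} (hu : u ∈ C.GN) (g : C(C.Spec, ℝ)) :
    C.mono f u g = f * C.img u g := by
  change C.mulC f (C.imgL u g) = _
  rw [C.imgL_apply hu, C.mulC_apply]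

/-- The weighted image maps. -/
def monos : Set C.Op := {T | ∃ (f : C(C.Spec, ℝ)) (u : K →L[ℂ] K), u ∈ C.GN ∧ T = C.mono f u}

/-- The combinations of weighted image maps. -/
def Ops : Submodule ℝ C.Op := Submodule.span ℝ C.monos

/-- A bilinear form on symbols that may be summed over fine partitions along `Ops`. -/
structure Form (C : Ctx K) where
  B : C(C.Spec, ℝ) →ₗ[ℝ] C(C.Spec, ℝ) →ₗ[ℝ] ℝ
  bound : ∃ k : ℝ, 0 ≤ k ∧ ∀ (n : ℕ) (x y : Fin n → C(C.Spec, ℝ)) (a b : ℝ), 0 ≤ a → 0 ≤ b →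
    (∀ χ, ∑ i, |x i χ| ≤ a) → (∀ χ, ∑ i, |y i χ| ≤ b) → |∑ i, B (x i) (y i)| ≤ k * a * b
  conv : ∀ T ∈ C.monos, ∀ T' ∈ C.monos, ∃ l : ℝ,
    Tendsto (fun s : Part C => ∑ c, B (T (s.c c)) (T' (s.c c))) atTop (𝓝 l)

namespace Form

variable {C} (F : Form C)

/-- The sum over the cells of a partition. -/
def pairS (s : Part C) (T T' : C.Op) : ℝ := ∑ c, F.B (T (s.c c)) (T' (s.c c))

/-- The limit of the sums over cells. -/
def pair (T T' : C.Op) : ℝ := limUnder atTop fun s : Part C => F.pairS s T T'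

/-- The form is symmetric. -/
def Symm : Prop := ∀ g h, F.B g h = F.B h g

/-- The form is nonnegative on the diagonal. -/
def PSD : Prop := ∀ g, 0 ≤ F.B g g

end Form

/-- `T'` is the transpose of `T` for every summed form. -/
structure Adj (T T' : C.Op) : Prop where
  left_mem : T ∈ C.Ops
  right_mem : T' ∈ C.Ops
  swap : ∀ (F : Form C), ∀ X ∈ C.Ops, ∀ Y ∈ C.Ops, F.pair (X * T) Y = F.pair X (Y * T')
  swap' : ∀ (F : Form C), ∀ X ∈ C.Ops, ∀ Y ∈ C.Ops, F.pair (X * T') Y = F.pair X (Y * T)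

/-- The symmetrised operator of a finite family of weights on normalising partial isometries. -/
def symOp {n : ℕ} (f : Fin n → C(C.Spec, ℝ)) (u : Fin n → K →L[ℂ] K) : C.Op :=
  (1 / 2 : ℝ) • ∑ k, (C.mono (f k) (u k) + C.mono (C.img (star (u k)) (f k)) (star (u k)))

/-- One minus a normalised operator. -/
def rem (G : C.Op) (c : ℝ) : C.Op := 1 - c⁻¹ • G

/-- The truncated Neumann inverse. -/
def neum (G : C.Op) (c : ℝ) (n : ℕ) : C.Op := c⁻¹ • ∑ k ∈ Finset.range n, C.rem G c ^ k

/-- The blocks of the cut-off kernel. -/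
def kerBlock {r : ℕ} (Lo Lt : Fin r → C.Op) (c : ℝ) (n : ℕ) (j i : Fin r) : C.Op :=
  (if j = i then 1 else 0) - Lt j * C.neum (∑ k, Lo k * Lt k) c n * Lo i

end Ctx

end Vale.Agent.P078.Expected
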