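import Vale.Agent.P078.Expected.Norm.Defs

/-!
The point space of `A`: the measure of the state, the point maps of normalising partial isometries,
their null sets and densities, and the limit of the sums over cells of a moved partition.
-/

noncomputable section

open scoped InnerProductSpace ENNReal CompactlySupported
open Filter Topology MeasureTheory

namespace Vale.Agent.P078.Expected

universe u

variable {K : Type u} [NormedAddCommGroup K] [InnerProductSpace ℂ K] [CompleteSpace K]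

namespace Ctx

variable (C : Ctx K)

instance instMeasSpec : MeasurableSpace C.Spec := borel C.Spec

instance instBorelSpec : BorelSpace C.Spec := ⟨rfl⟩

/-- The state as a positive functional. -/
def intP : C_c(C.Spec, ℝ) →ₚ[ℝ] ℝ :=
  PositiveLinearMap.mk₀
    { toFun := fun f => C.intA f.toContinuousMap
      map_add' := fun f g => by
        rw [← C.intA_add]; rfl
      map_smul' := fun c f => by
        rw [RingHom.id_apply, smul_eq_mul, ← C.intA_smul]; rfl }
    fun f hf => C.intA_nonneg hf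

/-- The measure of the state. -/
def meas : Measure C.Spec := RealRMK.rieszMeasure C.intP

instance instRegularMeas : C.meas.Regular := RealRMK.regular_rieszMeasure _

instance instFiniteMeas : IsFiniteMeasure C.meas := ⟨isCompact_univ.measure_lt_top⟩

theorem integral_meas (f : C(C.Spec, ℝ)) : ∫ χ, f χ ∂C.meas = C.intA f :=
  RealRMK.integral_rieszMeasure (Λ := C.intP) ⟨f, HasCompactSupport.of_compactSpace f⟩

theorem integrable_symbol (f : C(C.Spec, ℝ)) : Integrable f C.meas :=
  f.continuous.integrable_of_hasCompactSupport (HasCompactSupport.of_compactSpace f)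

/-- The clopen set of a projection. -/
def supp (p : C(C.Spec, ℝ)) : Set C.Spec := {χ | p χ = 1}

theorem isClopen_supp {p : C(C.Spec, ℝ)} (hp : p * p = p) : IsClopen (C.supp p) := by
  refine ⟨isClosed_eq p.continuous continuous_const, ?_⟩
  have h : C.supp p = p ⁻¹' Set.Ioi (1 / 2) := by
    ext χ
    change p χ = 1 ↔ 1 / 2 < p χ
    rcases idem_values hp χ with h | h <;> rw [h] <;> norm_num
  rw [h]
  exact isOpen_Ioi.preimage p.continuous

theorem indicator_supp {p : C(C.Spec, ℝ)} (hp : p * p = p) (χ : C.Spec) :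
    (C.supp p).indicator 1 χ = p χ := by
  rcases idem_values hp χ with h | h <;> simp [Set.indicator, supp, h]

theorem intA_idem {p : C(C.Spec, ℝ)} (hp : p * p = p) :
    C.intA p = C.meas.real (C.supp p) := by
  rw [← C.integral_meas, ← integral_indicator_one (C.isClopen_supp hp).1.measurableSet]
  exact integral_congr_ae (ae_of_all _ fun χ => (C.indicator_supp hp χ).symm)

/-- A projection between a compact set and an open set. -/
theorem exists_proj_between {S U : Set C.Spec} (hS : IsCompact S) (hU : IsOpen U) (h : S ⊆ U) :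
    ∃ p : C(C.Spec, ℝ), p * p = p ∧ S ⊆ C.supp p ∧ C.supp p ⊆ U := by
  obtain ⟨f, hf0, hf1, -⟩ := exists_continuous_zero_one_of_isCompact' hS hU.isClosed_compl
    (Set.disjoint_left.2 fun χ hχ hc => hc (h hχ))
  refine ⟨C.cutAt f (1 / 2), C.cutAt_idem _ _, fun χ hχ => ?_, fun χ hχ => ?_⟩
  · rcases idem_values (C.cutAt_idem f (1 / 2)) χ with e | e
    · have := C.le_of_cutAt_eq_zero e
      rw [hf1 hχ, Pi.one_apply] at this
      norm_num at this
    · exact e
  · by_contra hc
    have := C.le_of_cutAt_eq_one (show C.cutAt f (1 / 2) χ = 1 from hχ)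
    rw [hf0 hc, Pi.zero_apply] at this
    norm_num at this

/-- Projections of small state are strongly small. -/
theorem exists_small (v : K) {ε : ℝ} (hε : 0 < ε) :
    ∃ δ > 0, ∀ p : C(C.Spec, ℝ), p * p = p → C.intA p < δ → ‖C.op p v‖ < ε := by
  obtain ⟨_, ⟨T, hT, rfl⟩, hd⟩ := Metric.mem_closure_iff.1 (C.dense_comm v) (ε / 2) (half_pos hε)
  rw [dist_eq_norm] at hd
  refine ⟨(ε / (2 * (‖T‖ + 1))) ^ 2, by positivity, fun p hp hsmall => ?_⟩
  have h1 : ‖C.op p C.Ω‖ ^ 2 = C.intA p := by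
    rw [← inner_self_eq_norm_sq (𝕜 := ℂ), ← ContinuousLinearMap.adjoint_inner_right,
      ← ContinuousLinearMap.star_eq_adjoint, (C.op_sa _).star_eq]
    change RCLike.re ⟪C.Ω, (C.op p * C.op p) C.Ω⟫_ℂ = _
    rw [← map_mul, hp]
    rfl
  have h2 : ‖C.op p C.Ω‖ < ε / (2 * (‖T‖ + 1)) := by
    rw [← pow_lt_pow_iff_left₀ (norm_nonneg _) (by positivity) two_ne_zero, h1]
    exact hsmall
  have h3 : C.op p (T C.Ω) = T (C.op p C.Ω) :=
    congrArg (fun S : K →L[ℂ] K => S C.Ω) (hT _ (C.op_mem_M p))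
  have h4 : ‖C.op p‖ ≤ 1 := by
    rw [C.norm_op]
    exact (ContinuousMap.norm_le _ zero_le_one).2 fun χ => by
      rcases idem_values hp χ with e | e <;> simp [e]
  calc ‖C.op p v‖ = ‖C.op p (v - T C.Ω) + T (C.op p C.Ω)‖ := by rw [map_sub, h3, sub_add_cancel]
    _ ≤ 1 * ‖v - T C.Ω‖ + ‖T‖ * (ε / (2 * (‖T‖ + 1))) :=
        (norm_add_le _ _).trans (add_le_add
          (((C.op p).le_opNorm _).trans (mul_le_mul_of_nonneg_right h4 (norm_nonneg _)))
          ((T.le_opNorm _).trans (mul_le_mul_of_nonneg_left h2.le (norm_nonneg _))))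
    _ < ε / 2 + ε / 2 := by
        refine add_lt_add_of_lt_of_le (by linarith) ?_
        rw [← mul_div_assoc, div_le_iff₀ (by positivity)]
        nlinarith [norm_nonneg T]
    _ = ε := add_halves ε

theorem exists_small_img {u : K →L[ℂ] K} (hu : u ∈ C.GN) {ε : ℝ} (hε : 0 < ε) :
    ∃ δ > 0, ∀ p : C(C.Spec, ℝ), p * p = p → C.intA p < δ → C.intA (C.img u p) < ε := by
  obtain ⟨δ, hδ, h⟩ := C.exists_small (star u C.Ω) (Real.sqrt_pos.2 hε)
  refine ⟨δ, hδ, fun p hp hsmall => ?_⟩
  have h1 : C.intA (C.img u p) = ‖C.op p (star u C.Ω)‖ ^ 2 := by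
    have e : star (C.op p * star u) * (C.op p * star u) = u * C.op p * star u := by
      rw [star_mul, star_star, (C.op_sa p).star_eq, mul_assoc, ← mul_assoc (C.op p), ← map_mul,
        hp, ← mul_assoc]
    rw [intA, C.op_img hu, ← e, C.tr_star_mul_self, ← Complex.ofReal_pow, Complex.ofReal_re]
    rfl
  rw [h1, ← Real.sq_sqrt hε.le]
  exact pow_lt_pow_left₀ (h p hp hsmall) (norm_nonneg _) two_ne_zero

/-- The points of the initial domain of `u`. -/
def src (u : K →L[ℂ] K) : Set C.Spec := C.supp (C.img u 1)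

theorem isClopen_src {u : K →L[ℂ] K} (hu : u ∈ C.GN) : IsClopen (C.src u) :=
  C.isClopen_supp (C.img_idem hu (one_mul 1))

theorem measurableSet_src {u : K →L[ℂ] K} (hu : u ∈ C.GN) : MeasurableSet (C.src u) :=
  (C.isClopen_src hu).1.measurableSet

/-- Evaluation of an image at a point of the initial domain. -/
def charAt {u : K →L[ℂ] K} (hu : u ∈ C.GN) {χ : C.Spec} (hχ : χ ∈ C.src u) :
    C(C.Spec, ℝ) →ₐ[ℝ] ℝ :=
  AlgHom.ofLinearMap
    { toFun := fun g => C.img u g χ
      map_add' := fun g h => by rw [C.img_add hu]; rfl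
      map_smul' := fun c g => by rw [C.img_smul hu]; rfl }
    hχ (fun g h => by
      change C.img u (g * h) χ = C.img u g χ * C.img u h χ
      rw [C.img_mul hu]; rfl)

open WeakDual in
/-- The point map of a normalising partial isometry (the identity off its initial domain). -/
def pt (u : K →L[ℂ] K) (χ : C.Spec) : C.Spec :=
  open Classical in
  if h : u ∈ C.GN ∧ χ ∈ C.src u then
    (CharacterSpace.homeoEval C.Spec ℝ).symm (CharacterSpace.equivAlgHom.symm (C.charAt h.1 h.2))
  else χ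

theorem pt_of_not_mem {u : K →L[ℂ] K} {χ : C.Spec} (h : χ ∉ C.src u) : C.pt u χ = χ := by
  rw [pt, dif_neg fun e => h e.2]

open WeakDual in
theorem img_apply {u : K →L[ℂ] K} (hu : u ∈ C.GN) {χ : C.Spec} (hχ : χ ∈ C.src u)
    (g : C(C.Spec, ℝ)) : C.img u g χ = g (C.pt u χ) := by
  rw [pt, dif_pos ⟨hu, hχ⟩]
  set φ := CharacterSpace.equivAlgHom.symm (C.charAt hu hχ)
  have h1 : CharacterSpace.homeoEval C.Spec ℝ ((CharacterSpace.homeoEval C.Spec ℝ).symm φ) g =
      φ g := by
    rw [Homeomorph.apply_symm_apply]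
  exact h1.symm

theorem img_apply_zero {u : K →L[ℂ] K} (hu : u ∈ C.GN) {χ : C.Spec} (hχ : χ ∉ C.src u)
    (g : C(C.Spec, ℝ)) : C.img u g χ = 0 := by
  have h : C.img u 1 χ = 0 :=
    (idem_values (C.img_idem hu (one_mul 1)) χ).resolve_right hχ
  have e := congrArg (fun F : C(C.Spec, ℝ) => F χ) (C.img_mul hu g 1)
  simp only [mul_one, ContinuousMap.mul_apply, h, mul_zero] at e
  exact e

theorem img_apply_ite {u : K →L[ℂ] K} (hu : u ∈ C.GN) (g : C(C.Spec, ℝ)) (χ : C.Spec) :
    C.img u g χ = (C.src u).indicator (fun ξ => g (C.pt u ξ)) χ := by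
  by_cases h : χ ∈ C.src u
  · rw [Set.indicator_of_mem h, C.img_apply hu h]
  · rw [Set.indicator_of_notMem h, C.img_apply_zero hu h]

theorem spec_ext {χ ξ : C.Spec} (h : ∀ g : C(C.Spec, ℝ), g χ = g ξ) : χ = ξ :=
  (WeakDual.CharacterSpace.homeoEval C.Spec ℝ).injective (DFunLike.ext _ _ h)

open WeakDual in
theorem continuous_pt {u : K →L[ℂ] K} (hu : u ∈ C.GN) : Continuous (C.pt u) := by
  rw [← (CharacterSpace.homeoEval C.Spec ℝ).comp_continuous_iff]
  refine Continuous.subtype_mk (WeakDual.continuous_of_continuous_eval fun g => ?_) _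
  change Continuous fun χ => g (C.pt u χ)
  have e : (fun χ => g (C.pt u χ)) = fun χ => C.img u g χ + (1 - C.img u 1 χ) * g χ := by
    funext χ
    by_cases h : χ ∈ C.src u
    · rw [show C.img u 1 χ = 1 from h, C.img_apply hu h]; ring
    · rw [C.pt_of_not_mem h, C.img_apply_zero hu h, C.img_apply_zero hu h]; ring
  rw [e]
  fun_prop

theorem measurable_pt {u : K →L[ℂ] K} (hu : u ∈ C.GN) : Measurable (C.pt u) :=
  (C.continuous_pt hu).measurable

theorem img_star_one {u : K →L[ℂ] K} (hu : u ∈ C.GN) :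
    C.img u (C.img (star u) 1) = C.img u 1 := by
  refine C.op_inj ?_
  rw [C.op_img hu, C.op_img_one (C.GN_star hu), C.op_img_one hu, star_star, ← mul_assoc, hu.2.1]

theorem pt_mem {u : K →L[ℂ] K} (hu : u ∈ C.GN) {χ : C.Spec} (hχ : χ ∈ C.src u) :
    C.pt u χ ∈ C.src (star u) := by
  change C.img (star u) 1 (C.pt u χ) = 1
  rw [← C.img_apply hu hχ, C.img_star_one hu]
  exact hχ

theorem img_img_star {u : K →L[ℂ] K} (hu : u ∈ C.GN) (g : C(C.Spec, ℝ)) :
    C.img u (C.img (star u) g) = g * C.img u 1 := by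
  refine C.op_inj ?_
  rw [map_mul, C.op_img hu, C.op_img (C.GN_star hu), C.op_img_one hu, star_star]
  calc u * (star u * C.op g * u) * star u = (u * star u) * C.op g * (u * star u) := by
        simp only [mul_assoc]
    _ = C.op g * (u * star u) * (u * star u) := by
        rw [C.A_comm (C.GN_mul_star_self hu) (C.op_mem g)]
    _ = _ := by
        rw [mul_assoc, ← mul_assoc (u * star u) u (star u), hu.2.1]

theorem pt_star_pt {u : K →L[ℂ] K} (hu : u ∈ C.GN) {χ : C.Spec} (hχ : χ ∈ C.src u) :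
    C.pt (star u) (C.pt u χ) = χ := by
  refine C.spec_ext fun g => ?_
  rw [← C.img_apply (C.GN_star hu) (C.pt_mem hu hχ), ← C.img_apply hu hχ, C.img_img_star hu,
    ContinuousMap.mul_apply, show C.img u 1 χ = 1 from hχ, mul_one]

theorem pt_mem' {u : K →L[ℂ] K} (hu : u ∈ C.GN) {χ : C.Spec} (hχ : χ ∈ C.src (star u)) :
    C.pt (star u) χ ∈ C.src u := by
  simpa using C.pt_mem (C.GN_star hu) hχ

theorem pt_pt_star {u : K →L[ℂ] K} (hu : u ∈ C.GN) {χ : C.Spec} (hχ : χ ∈ C.src (star u)) :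
    C.pt u (C.pt (star u) χ) = χ := by
  simpa using C.pt_star_pt (C.GN_star hu) hχ

theorem src_mul {u v : K →L[ℂ] K} (hu : u ∈ C.GN) (hv : v ∈ C.GN) {χ : C.Spec} :
    χ ∈ C.src (u * v) ↔ χ ∈ C.src u ∧ C.pt u χ ∈ C.src v := by
  change C.img (u * v) 1 χ = 1 ↔ _
  rw [← C.img_img hu hv]
  by_cases h : χ ∈ C.src u
  · rw [C.img_apply hu h]
    exact ⟨fun e => ⟨h, e⟩, fun e => e.2⟩
  · rw [C.img_apply_zero hu h]
    simp [h]

theorem pt_mul {u v : K →L[ℂ] K} (hu : u ∈ C.GN) (hv : v ∈ C.GN) {χ : C.Spec}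
    (hχ : χ ∈ C.src u) (hχ' : C.pt u χ ∈ C.src v) :
    C.pt (u * v) χ = C.pt v (C.pt u χ) := by
  refine C.spec_ext fun g => ?_
  rw [← C.img_apply hv hχ', ← C.img_apply hu hχ, C.img_img hu hv,
    C.img_apply (C.GN_mul hu hv) ((C.src_mul hu hv).2 ⟨hχ, hχ'⟩)]

/-- Point maps preserve null sets. -/
theorem meas_preimage_null {u : K →L[ℂ] K} (hu : u ∈ C.GN) {E : Set C.Spec} (hE : MeasurableSet E)
    (h0 : C.meas E = 0) : C.meas (C.src u ∩ C.pt u ⁻¹' E) = 0 := by
  have hm : MeasurableSet (C.src u ∩ C.pt u ⁻¹' E) :=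
    (C.measurableSet_src hu).inter (C.measurable_pt hu hE)
  rw [hm.measure_eq_iSup_isCompact_of_ne_top (measure_ne_top _ _)]
  simp only [ENNReal.iSup_eq_zero]
  intro S hSsub hS
  refine le_antisymm (le_of_forall_gt_imp_ge_of_dense fun ε hε => ?_) bot_le
  rcases eq_or_ne ε ⊤ with rfl | hεt
  · exact le_top
  obtain ⟨δ, hδ, hsmall⟩ := C.exists_small_img hu (ENNReal.toReal_pos hε.ne' hεt)
  obtain ⟨U, hUS, hUo, hU⟩ := (C.pt u '' S).exists_isOpen_lt_of_lt
    (μ := C.meas) (ENNReal.ofReal δ) (by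
      refine lt_of_le_of_lt (measure_mono ?_) (h0 ▸ ENNReal.ofReal_pos.2 hδ)
      rintro _ ⟨χ, hχ, rfl⟩
      exact (hSsub hχ).2)
  obtain ⟨p, hp, hpS, hpU⟩ := C.exists_proj_between (hS.image (C.continuous_pt hu)) hUo hUS
  have hsm : C.intA p < δ := by
    rw [C.intA_idem hp]
    exact ENNReal.toReal_lt_of_lt_ofReal (lt_of_le_of_lt (measure_mono hpU) hU)
  have h1 := hsmall p hp hsm
  rw [C.intA_idem (C.img_idem hu hp)] at h1
  refine le_trans (measure_mono fun χ hχ => ?_)
    ((ENNReal.toReal_le_toReal (measure_ne_top _ _) hεt).1 h1.le)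
  change C.img u p χ = 1
  rw [C.img_apply hu (hSsub hχ).1]
  exact hpS ⟨χ, hχ, rfl⟩

/-- The measure of the final domain moved to the initial one. -/
def pulled (u : K →L[ℂ] K) : Measure C.Spec :=
  (C.meas.restrict (C.src (star u))).map (C.pt (star u))

instance instFinitePulled (u : K →L[ℂ] K) : IsFiniteMeasure (C.pulled u) :=
  inferInstanceAs (IsFiniteMeasure ((C.meas.restrict (C.src (star u))).map (C.pt (star u))))

/-- The Jacobian of the point map. -/
def jac (u : K →L[ℂ] K) (χ : C.Spec) : ℝ :=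
  if 0 < ((C.pulled u).rnDeriv C.meas χ).toReal then ((C.pulled u).rnDeriv C.meas χ).toReal else 1

theorem jac_pos (u : K →L[ℂ] K) (χ : C.Spec) : 0 < C.jac u χ := by
  rw [jac]; split_ifs with h
  exacts [h, one_pos]

theorem measurable_jac (u : K →L[ℂ] K) : Measurable (C.jac u) :=
  Measurable.ite (measurableSet_lt measurable_const (Measure.measurable_rnDeriv _ _).ennreal_toReal)
    (Measure.measurable_rnDeriv _ _).ennreal_toReal measurable_const

theorem pulled_ac {u : K →L[ℂ] K} (hu : u ∈ C.GN) : C.pulled u ≪ C.meas := by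
  refine Measure.AbsolutelyContinuous.mk fun E hE h0 => ?_
  rw [pulled, Measure.map_apply (C.measurable_pt (C.GN_star hu)) hE,
    Measure.restrict_apply (C.measurable_pt (C.GN_star hu) hE), Set.inter_comm]
  exact C.meas_preimage_null (C.GN_star hu) hE h0

theorem lintegral_pulled {u : K →L[ℂ] K} (hu : u ∈ C.GN) {F : C.Spec → ℝ≥0∞} (hF : Measurable F) :
    ∫⁻ χ, F χ ∂C.pulled u = ∫⁻ χ in C.src (star u), F (C.pt (star u) χ) ∂C.meas :=
  lintegral_map hF (C.measurable_pt (C.GN_star hu))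

theorem jac_ae {u : K →L[ℂ] K} (hu : u ∈ C.GN) :
    ∀ᵐ χ ∂C.meas.restrict (C.src u),
      (C.pulled u).rnDeriv C.meas χ = ENNReal.ofReal (C.jac u χ) := by
  have hd : Measurable ((C.pulled u).rnDeriv C.meas) := Measure.measurable_rnDeriv _ _
  set Z := {χ | (C.pulled u).rnDeriv C.meas χ = 0} with hZdef
  have hZ : MeasurableSet Z := hd (measurableSet_singleton 0)
  have h0 : C.pulled u Z = 0 := by
    rw [← Measure.withDensity_rnDeriv_eq _ _ (C.pulled_ac hu), withDensity_apply _ hZ]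
    exact setLIntegral_eq_zero hZ fun χ hχ => hχ
  have hm2 : MeasurableSet (C.src (star u) ∩ C.pt (star u) ⁻¹' Z) :=
    (C.measurableSet_src (C.GN_star hu)).inter (C.measurable_pt (C.GN_star hu) hZ)
  have h1 : C.meas (C.src (star u) ∩ C.pt (star u) ⁻¹' Z) = 0 := by
    rwa [pulled, Measure.map_apply (C.measurable_pt (C.GN_star hu)) hZ,
      Measure.restrict_apply (C.measurable_pt (C.GN_star hu) hZ), Set.inter_comm] at h0
  have h2 : C.meas (Z ∩ C.src u) = 0 := by
    refine measure_mono_null (fun χ hχ => ?_) (C.meas_preimage_null hu hm2 h1)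
    exact ⟨hχ.2, C.pt_mem hu hχ.2, by
      change C.pt (star u) (C.pt u χ) ∈ Z
      rw [C.pt_star_pt hu hχ.2]; exact hχ.1⟩
  have h3 : ∀ᵐ χ ∂C.meas.restrict (C.src u), χ ∉ Z := by
    rw [ae_iff]
    simp only [not_not]
    rw [show {χ | χ ∈ Z} = Z from rfl, Measure.restrict_apply hZ]
    exact h2
  filter_upwards [h3, ae_restrict_of_ae (Measure.rnDeriv_lt_top (C.pulled u) C.meas)] with χ hz hlt
  rw [jac, if_pos (ENNReal.toReal_pos hz hlt.ne), ENNReal.ofReal_toReal hlt.ne]

/-- Change of variables along a point map. -/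
theorem lintegral_src {u : K →L[ℂ] K} (hu : u ∈ C.GN) {G : C.Spec → ℝ≥0∞} (hG : Measurable G) :
    ∫⁻ χ in C.src u, ENNReal.ofReal (C.jac u χ) * G (C.pt u χ) ∂C.meas =
      ∫⁻ χ in C.src (star u), G χ ∂C.meas := by
  have hd : Measurable ((C.pulled u).rnDeriv C.meas) := Measure.measurable_rnDeriv _ _
  have hs := C.measurableSet_src hu
  have hm : Measurable fun χ => (C.src u).indicator (fun ξ => G (C.pt u ξ)) χ :=
    (hG.comp (C.measurable_pt hu)).indicator hs
  calc ∫⁻ χ in C.src u, ENNReal.ofReal (C.jac u χ) * G (C.pt u χ) ∂C.meas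
      = ∫⁻ χ in C.src u, (C.pulled u).rnDeriv C.meas χ * G (C.pt u χ) ∂C.meas :=
        lintegral_congr_ae (by filter_upwards [C.jac_ae hu] with χ hχ; rw [hχ])
    _ = ∫⁻ χ, (C.pulled u).rnDeriv C.meas χ *
          (C.src u).indicator (fun ξ => G (C.pt u ξ)) χ ∂C.meas := by
        rw [← lintegral_indicator hs]
        congr 1
        funext χ
        by_cases h : χ ∈ C.src u <;> simp [h]
    _ = ∫⁻ χ, (C.src u).indicator (fun ξ => G (C.pt u ξ)) χ ∂C.pulled u :=
        lintegral_rnDeriv_mul (C.pulled_ac hu) hm.aemeasurable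
    _ = _ := by
        rw [C.lintegral_pulled hu hm]
        refine setLIntegral_congr_fun (C.measurableSet_src (C.GN_star hu)) fun χ hχ => ?_
        rw [Set.indicator_of_mem (C.pt_mem' hu hχ), C.pt_pt_star hu hχ]

/-- Testing against nonnegative symbols. -/
theorem ae_le_of_test {F : C.Spec → ℝ≥0∞} (hF : Measurable F) (k : C(C.Spec, ℝ))
    (hk : ∀ χ, 0 ≤ k χ)
    (h : ∀ g : C(C.Spec, ℝ), (∀ χ, 0 ≤ g χ) →
      ∫⁻ χ, ENNReal.ofReal (g χ) * F χ ∂C.meas ≤ ENNReal.ofReal (C.intA (g * k))) :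
    ∀ᵐ χ ∂C.meas, F χ ≤ ENNReal.ofReal (k χ) := by
  have key : ∀ n : ℕ, C.meas {χ | ENNReal.ofReal (k χ + 1 / (n + 1)) < F χ} = 0 := by
    intro n
    have hm : MeasurableSet {χ | ENNReal.ofReal (k χ + 1 / (n + 1)) < F χ} :=
      measurableSet_lt (k.continuous.measurable.add measurable_const).ennreal_ofReal hF
    rw [hm.measure_eq_iSup_isCompact_of_ne_top (measure_ne_top _ _)]
    simp only [ENNReal.iSup_eq_zero]
    intro S hSsub hS
    by_contra hne
    have hpos : 0 < C.meas.real S := ENNReal.toReal_pos hne (measure_ne_top _ _)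
    set η := 1 / ((n : ℝ) + 1) with hη
    have hη0 : 0 < η := by positivity
    set d := η * C.meas.real S / (2 * (‖k‖ + 1)) with hd
    have hd0 : 0 < d := by positivity
    obtain ⟨U, hUS, hUo, hU⟩ := S.exists_isOpen_lt_add (μ := C.meas) (measure_ne_top _ _)
      (ENNReal.ofReal_pos.2 hd0).ne'
    obtain ⟨p, hp, hpS, hpU⟩ := C.exists_proj_between hS hUo hUS
    have hT := h p fun χ => by rcases idem_values hp χ with e | e <;> simp [e]
    have hlow : ENNReal.ofReal (∫ χ in S, (k χ + η) ∂C.meas) ≤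
        ∫⁻ χ, ENNReal.ofReal (p χ) * F χ ∂C.meas := by
      rw [ofReal_integral_eq_lintegral_ofReal (f := fun χ => k χ + η)
        ((C.integrable_symbol k).integrableOn.add (integrable_const η))
        (ae_of_all _ fun χ => add_nonneg (hk χ) hη0.le), ← lintegral_indicator hS.measurableSet]
      refine lintegral_mono fun χ => ?_
      by_cases hχ : χ ∈ S
      · rw [Set.indicator_of_mem hχ, show p χ = 1 from hpS hχ, ENNReal.ofReal_one, one_mul]
        exact (hSsub hχ).le
      · rw [Set.indicator_of_notMem hχ]; exact bot_le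
    have hk' : ∀ χ, k χ ≤ ‖k‖ := fun χ => (le_abs_self _).trans (k.norm_coe_le_norm χ)
    have h2 := hlow.trans hT
    rw [ENNReal.ofReal_le_ofReal_iff (C.intA_nonneg fun χ => mul_nonneg
      (by rcases idem_values hp χ with e | e <;> simp [e]) (hk χ)), integral_add
      (C.integrable_symbol k).integrableOn (integrable_const η), setIntegral_const,
      smul_eq_mul] at h2
    have h3 : C.intA (p * k) ≤ (∫ χ in S, k χ ∂C.meas) + ‖k‖ * (C.meas.real (C.supp p \ S)) := by
      rw [← C.integral_meas]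
      have e : ∫ χ, (p * k) χ ∂C.meas = ∫ χ in C.supp p, k χ ∂C.meas := by
        rw [← integral_indicator (C.isClopen_supp hp).1.measurableSet]
        refine integral_congr_ae (ae_of_all _ fun χ => ?_)
        rcases idem_values hp χ with e | e <;> simp [Set.indicator, supp, e]
      rw [e, ← Set.union_sdiff_cancel hpS, setIntegral_union Set.disjoint_sdiff_right
        ((C.isClopen_supp hp).1.measurableSet.diff hS.measurableSet)
        (C.integrable_symbol k).integrableOn (C.integrable_symbol k).integrableOn]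
      refine add_le_add le_rfl ?_
      rw [Set.union_sdiff_cancel hpS]
      calc ∫ χ in C.supp p \ S, k χ ∂C.meas ≤ ∫ _χ in C.supp p \ S, ‖k‖ ∂C.meas :=
            integral_mono (C.integrable_symbol k).integrableOn (integrable_const _) hk'
        _ = _ := by rw [setIntegral_const, smul_eq_mul, mul_comm]
    have h4 : C.meas.real (C.supp p \ S) ≤ d := by
      refine ENNReal.toReal_le_of_le_ofReal hd0.le ?_
      rw [measure_sdiff hpS hS.measurableSet.nullMeasurableSet (measure_ne_top _ _),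
        tsub_le_iff_left]
      exact (measure_mono hpU).trans hU.le
    have h5 : ‖k‖ * d < C.meas.real S * η := by
      rw [hd, ← mul_div_assoc, div_lt_iff₀ (by positivity)]
      nlinarith [norm_nonneg k, mul_pos hη0 hpos]
    nlinarith [mul_le_mul_of_nonneg_left h4 (norm_nonneg k)]
  rw [ae_iff]
  refine measure_mono_null (fun χ hχ => ?_) (measure_iUnion_null key)
  rw [Set.mem_iUnion]
  have ht : Tendsto (fun n : ℕ => ENNReal.ofReal (k χ + 1 / (n + 1))) atTop
      (𝓝 (ENNReal.ofReal (k χ))) := by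
    refine ENNReal.tendsto_ofReal ?_
    simpa using (tendsto_const_nhds (x := k χ)).add (tendsto_one_div_add_atTop_nhds_zero_nat (𝕜 := ℝ))
  exact ((ht.eventually_lt_const (not_le.1 hχ)).exists)

/-- The fixed points in the initial domain. -/
def fixSet (u : K →L[ℂ] K) : Set C.Spec := {χ | χ ∈ C.src u ∧ C.pt u χ = χ}

theorem isClosed_fixSet {u : K →L[ℂ] K} (hu : u ∈ C.GN) : IsClosed (C.fixSet u) :=
  (C.isClopen_src hu).1.inter (isClosed_eq (C.continuous_pt hu) continuous_id)

/-- The points moved within their cell. -/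
def movedIn (u : K →L[ℂ] K) (s : Part C) : C(C.Spec, ℝ) := ∑ i, s.c i * C.img u (s.c i)

theorem movedIn_of_fix {u : K →L[ℂ] K} (hu : u ∈ C.GN) (s : Part C) {χ : C.Spec}
    (hχ : χ ∈ C.fixSet u) : C.movedIn u s χ = 1 := by
  rw [movedIn, ContinuousMap.sum_apply, ← s.sum_apply χ]
  refine Finset.sum_congr rfl fun i _ => ?_
  rw [ContinuousMap.mul_apply, C.img_apply hu hχ.1, hχ.2]
  rcases s.values i χ with e | e <;> simp [e]

theorem abs_movedIn_le {u : K →L[ℂ] K} (hu : u ∈ C.GN) (s : Part C) (χ : C.Spec) :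
    |C.movedIn u s χ| ≤ 1 := by
  rw [movedIn, ContinuousMap.sum_apply, ← s.sum_apply χ]
  refine (Finset.abs_sum_le_sum_abs _ _).trans (Finset.sum_le_sum fun i _ => ?_)
  have h0 : 0 ≤ s.c i χ := by rcases s.values i χ with e | e <;> simp [e]
  rw [ContinuousMap.mul_apply, abs_mul, abs_of_nonneg h0]
  refine mul_le_of_le_one_right h0 ?_
  rcases idem_values (C.img_idem hu (s.idem i)) χ with e | e <;> simp [e]

theorem eventually_movedIn_zero {u : K →L[ℂ] K} (hu : u ∈ C.GN) {U : Set C.Spec} (hU : IsOpen U)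
    (hF : C.fixSet u ⊆ U) : ∀ᶠ s : Part C in atTop, ∀ χ, χ ∉ U → C.movedIn u s χ = 0 := by
  have hloc : ∀ χ ∈ C.src u \ U, ∃ p : C(C.Spec, ℝ), p * p = p ∧ p χ = 1 ∧ p (C.pt u χ) = 0 := by
    intro χ hχ
    have hne : C.pt u χ ≠ χ := fun e => hχ.2 (hF ⟨hχ.1, e⟩)
    obtain ⟨p, hp, h1, h2⟩ := C.exists_proj_between (isCompact_singleton (x := χ))
      (isClosed_singleton (x := C.pt u χ)).isOpen_compl
      (Set.singleton_subset_iff.2 hne.symm)
    refine ⟨p, hp, h1 rfl, ?_⟩
    exact (idem_values hp _).resolve_right fun e => h2 e rfl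
  choose! p hp hp1 hp0 using hloc
  obtain ⟨b, hb, hbfin, hcov⟩ := ((C.isClopen_src hu).1.sdiff hU).isCompact.elim_finite_subcover_image
    (b := C.src u \ U) (c := fun χ => {ξ | 1 / 2 < p χ ξ ∧ p χ (C.pt u ξ) < 1 / 2})
    (fun χ _ => (isOpen_Ioi.preimage (p χ).continuous).inter
      (isOpen_Iio.preimage ((p χ).continuous.comp (C.continuous_pt hu))))
    (fun χ hχ => Set.mem_iUnion₂.2 ⟨χ, hχ, by constructor <;> simp [hp1 χ hχ, hp0 χ hχ] ; norm_num⟩)
  classical
  have hev : ∀ᶠ s : Part C in atTop, ∀ χ ∈ hbfin.toFinset, ∀ hχ : χ ∈ C.src u \ U,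
      Part.pair (p χ) (hp χ hχ) ≤ s :=
    (Finset.eventually_all _).2 fun χ hχ =>
      (eventually_ge_atTop (Part.pair (p χ) (hp χ (hb (hbfin.mem_toFinset.1 hχ))))).mono
        fun s hs _ => hs
  filter_upwards [hev] with s hs ξ hξ
  rw [movedIn, ContinuousMap.sum_apply]
  refine Finset.sum_eq_zero fun i _ => ?_
  rw [ContinuousMap.mul_apply]
  by_cases hsrc : ξ ∈ C.src u
  swap
  · rw [C.img_apply_zero hu hsrc, mul_zero]
  rw [C.img_apply hu hsrc]
  obtain ⟨χ, hχ, h1, h0⟩ := Set.mem_iUnion₂.1 (hcov ⟨hsrc, hξ⟩)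
  have hχm : χ ∈ C.src u \ U := hb hχ
  have v1 : p χ ξ = 1 := (idem_values (hp χ hχm) ξ).resolve_left fun e => by
    rw [e] at h1; norm_num at h1
  have v0 : p χ (C.pt u ξ) = 0 := (idem_values (hp χ hχm) _).resolve_right fun e => by
    rw [e] at h0; norm_num at h0
  rcases Part.resolve (hs χ (hbfin.mem_toFinset.2 hχ) hχm) i with e | e
  · have := congrArg (fun F : C(C.Spec, ℝ) => F (C.pt u ξ)) e
    simp only [ContinuousMap.mul_apply, v0, zero_mul] at this
    rw [← this, mul_zero]
  · have := congrArg (fun F : C(C.Spec, ℝ) => F ξ) e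
    simp only [ContinuousMap.mul_apply, v1, one_mul, ContinuousMap.zero_apply] at this
    rw [this, zero_mul]

/-- The sums over cells tend to the integral over the fixed points. -/
theorem tendsto_movedIn {u : K →L[ℂ] K} (hu : u ∈ C.GN) (F : C(C.Spec, ℝ)) :
    Tendsto (fun s : Part C => C.intA (F * C.movedIn u s)) atTop
      (𝓝 (∫ χ in C.fixSet u, F χ ∂C.meas)) := by
  have hfm : MeasurableSet (C.fixSet u) := (C.isClosed_fixSet hu).measurableSet
  rw [Metric.tendsto_nhds]
  intro ε hε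
  set d := ε / (‖F‖ + 1) with hd
  have hd0 : 0 < d := by positivity
  obtain ⟨U, hUF, hUo, hU⟩ := (C.fixSet u).exists_isOpen_lt_add (μ := C.meas) (measure_ne_top _ _)
    (ENNReal.ofReal_pos.2 hd0).ne'
  filter_upwards [C.eventually_movedIn_zero hu hUo hUF] with s hs
  rw [Real.dist_eq, ← C.integral_meas, ← integral_indicator hfm,
    ← integral_sub (C.integrable_symbol _) ((C.integrable_symbol F).indicator hfm)]
  have h1 : ∀ χ, |(F * C.movedIn u s) χ - (C.fixSet u).indicator F χ| ≤
      (U \ C.fixSet u).indicator (fun _ => ‖F‖) χ := by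
    intro χ
    rw [ContinuousMap.mul_apply]
    by_cases h : χ ∈ C.fixSet u
    · simp [h, C.movedIn_of_fix hu s h]
    by_cases h' : χ ∈ U
    · rw [Set.indicator_of_notMem h, Set.indicator_of_mem (show χ ∈ U \ C.fixSet u from ⟨h', h⟩), sub_zero, abs_mul]
      exact (mul_le_of_le_one_right (abs_nonneg _) (C.abs_movedIn_le hu s χ)).trans
        (F.norm_coe_le_norm χ)
    · simp [h, h', hs χ h']
  refine lt_of_le_of_lt (abs_integral_le_integral_abs.trans
    (integral_mono ((C.integrable_symbol _).sub ((C.integrable_symbol F).indicator hfm)).abs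
      ((integrable_const _).indicator (hUo.measurableSet.diff hfm)) h1)) ?_
  rw [integral_indicator_const _ (hUo.measurableSet.diff hfm), smul_eq_mul]
  have h4 : C.meas.real (U \ C.fixSet u) ≤ d := by
    refine ENNReal.toReal_le_of_le_ofReal hd0.le ?_
    rw [measure_sdiff hUF hfm.nullMeasurableSet (measure_ne_top _ _), tsub_le_iff_left]
    exact hU.le
  calc C.meas.real (U \ C.fixSet u) * ‖F‖ ≤ d * ‖F‖ :=
        mul_le_mul_of_nonneg_right h4 (norm_nonneg _)
    _ < d * (‖F‖ + 1) := mul_lt_mul_of_pos_left (lt_add_one _) hd0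
    _ = ε := by rw [hd]; field_simp

end Ctx

end Vale.Agent.P078.Expected
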