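import Vale.Agent.P078.Expected.Norm.LossDefs
import Vale.Agent.P078.Expected.Norm.Space
import Vale.Agent.P078.Expected.Leverage.Defs

/-!
The skew product of the point space by the real line and the relation generated by a finite family
of normalising partial isometries, with its kernels.
-/

noncomputable section

open scoped InnerProductSpace ENNReal
open Filter Topology MeasureTheory

namespace Vale.Agent.P078.Expected

universe u

variable {K : Type u} [NormedAddCommGroup K] [InnerProductSpace ℂ K] [CompleteSpace K]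

namespace Ctx

variable (C : Ctx K)

theorem img_one (g : C(C.Spec, ℝ)) : C.img 1 g = g :=
  C.op_inj (by rw [C.op_img C.GN_one, one_mul, star_one, mul_one])

theorem mem_src_one (χ : C.Spec) : χ ∈ C.src 1 := by
  change C.img 1 1 χ = 1
  rw [C.img_one]
  rfl

theorem pt_one (χ : C.Spec) : C.pt 1 χ = χ :=
  C.spec_ext fun g => by rw [← C.img_apply C.GN_one (C.mem_src_one χ), C.img_one]

end Ctx

namespace LossData

variable {C : Ctx K} {r : ℕ} (D : LossData C r)

/-- The generators: one family member or its adjoint. -/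
abbrev Gen : Type := (Σ j : Fin r, Fin (D.len j)) × Bool

/-- The adjoint generator. -/
def flip (g : D.Gen) : D.Gen := (g.1, !g.2)

/-- The partial isometry of a generator. -/
def gu : D.Gen → K →L[ℂ] K
  | (i, true) => D.u i.1 i.2
  | (i, false) => star (D.u i.1 i.2)

theorem gu_mem (g : D.Gen) : D.gu g ∈ C.GN := by
  rcases g with ⟨i, _ | _⟩
  · exact C.GN_star (D.u_mem _ _)
  · exact D.u_mem _ _

theorem gu_flip (g : D.Gen) : D.gu (D.flip g) = star (D.gu g) := by
  rcases g with ⟨i, _ | _⟩
  · exact (star_star _).symm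
  · rfl

theorem flip_flip (g : D.Gen) : D.flip (D.flip g) = g := by
  rcases g with ⟨i, _ | _⟩ <;> rfl

/-- The partial isometry of a word. -/
def wop : List D.Gen → K →L[ℂ] K
  | [] => 1
  | g :: w => D.gu g * wop w

theorem wop_mem : ∀ w, D.wop w ∈ C.GN
  | [] => C.GN_one
  | g :: w => C.GN_mul (D.gu_mem g) (wop_mem w)

theorem wop_append : ∀ v w, D.wop (v ++ w) = D.wop v * D.wop w
  | [], w => (one_mul _).symm
  | g :: v, w => by
    change D.gu g * D.wop (v ++ w) = D.gu g * D.wop v * D.wop w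
    rw [wop_append v w, mul_assoc]

theorem wop_single (g : D.Gen) : D.wop [g] = D.gu g := mul_one _

/-- The logarithmic cocycle of a member of the family. -/
def kap0 (i : Σ j : Fin r, Fin (D.len j)) (χ : C.Spec) : ℝ :=
  Real.log (C.jac (D.u i.1 i.2) χ * D.lam (C.pt (D.u i.1 i.2) χ) / D.lam χ)

/-- The logarithmic cocycle of a generator. -/
def kap : D.Gen → C.Spec → ℝ
  | (i, true), χ => D.kap0 i χ
  | (i, false), χ => -D.kap0 i (C.pt (star (D.u i.1 i.2)) χ)

theorem measurable_kap0 (i : Σ j : Fin r, Fin (D.len j)) : Measurable (D.kap0 i) :=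
  (((C.measurable_jac _).mul (D.lam.continuous.measurable.comp (C.measurable_pt (D.u_mem _ _)))).div
    D.lam.continuous.measurable).log

theorem measurable_kap (g : D.Gen) : Measurable (D.kap g) := by
  rcases g with ⟨i, _ | _⟩
  · exact ((D.measurable_kap0 i).comp (C.measurable_pt (C.GN_star (D.u_mem _ _)))).neg
  · exact D.measurable_kap0 i

theorem kap_flip (g : D.Gen) {χ : C.Spec} (h : χ ∈ C.src (D.gu g)) :
    D.kap (D.flip g) (C.pt (D.gu g) χ) = -D.kap g χ := by
  rcases g with ⟨i, _ | _⟩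
  · exact (neg_neg _).symm
  · change -D.kap0 i (C.pt (star (D.u i.1 i.2)) (C.pt (D.u i.1 i.2) χ)) = -D.kap0 i χ
    rw [C.pt_star_pt (D.u_mem _ _) h]

/-- The cocycle of a word. -/
def wkap : List D.Gen → C.Spec → ℝ
  | [], _ => 0
  | g :: w, χ => D.kap g χ + wkap w (C.pt (D.gu g) χ)

theorem measurable_wkap : ∀ w, Measurable (D.wkap w)
  | [] => measurable_const
  | g :: w => (D.measurable_kap g).add
      ((measurable_wkap w).comp (C.measurable_pt (D.gu_mem g)))

theorem mem_src_cons {g : D.Gen} {w : List D.Gen} {χ : C.Spec} :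
    χ ∈ C.src (D.wop (g :: w)) ↔
      χ ∈ C.src (D.gu g) ∧ C.pt (D.gu g) χ ∈ C.src (D.wop w) :=
  C.src_mul (D.gu_mem g) (D.wop_mem w)

theorem pt_cons {g : D.Gen} {w : List D.Gen} {χ : C.Spec} (h : χ ∈ C.src (D.wop (g :: w))) :
    C.pt (D.wop (g :: w)) χ = C.pt (D.wop w) (C.pt (D.gu g) χ) :=
  C.pt_mul (D.gu_mem g) (D.wop_mem w) (D.mem_src_cons.1 h).1 (D.mem_src_cons.1 h).2

theorem mem_src_append {v w : List D.Gen} {χ : C.Spec} :
    χ ∈ C.src (D.wop (v ++ w)) ↔
      χ ∈ C.src (D.wop v) ∧ C.pt (D.wop v) χ ∈ C.src (D.wop w) := by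
  rw [D.wop_append]
  exact C.src_mul (D.wop_mem v) (D.wop_mem w)

theorem pt_append {v w : List D.Gen} {χ : C.Spec} (h : χ ∈ C.src (D.wop (v ++ w))) :
    C.pt (D.wop (v ++ w)) χ = C.pt (D.wop w) (C.pt (D.wop v) χ) := by
  rw [D.wop_append]
  exact C.pt_mul (D.wop_mem v) (D.wop_mem w) (D.mem_src_append.1 h).1 (D.mem_src_append.1 h).2

theorem wkap_append : ∀ v w {χ : C.Spec}, χ ∈ C.src (D.wop (v ++ w)) →
    D.wkap (v ++ w) χ = D.wkap v χ + D.wkap w (C.pt (D.wop v) χ)
  | [], w, χ, _ => by
    change D.wkap w χ = 0 + D.wkap w (C.pt 1 χ)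
    rw [C.pt_one, zero_add]
  | g :: v, w, χ, h => by
    have h' : χ ∈ C.src (D.wop (g :: v)) ∧ _ :=
      (D.mem_src_append (v := g :: v) (w := w)).1 h
    change D.kap g χ + D.wkap (v ++ w) (C.pt (D.gu g) χ) =
      D.kap g χ + D.wkap v (C.pt (D.gu g) χ) + D.wkap w (C.pt (D.wop (g :: v)) χ)
    rw [wkap_append v w (D.mem_src_cons.1 h).2, D.pt_cons h'.1, add_assoc]

/-- The adjoint word. -/
def rev : List D.Gen → List D.Gen
  | [] => []
  | g :: w => rev w ++ [D.flip g]

theorem wop_rev : ∀ w, D.wop (D.rev w) = star (D.wop w)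
  | [] => star_one _ |>.symm
  | g :: w => by
    rw [rev, D.wop_append, wop_rev w, D.wop_single, D.gu_flip, ← star_mul]
    rfl

theorem rev_append : ∀ v w, D.rev (v ++ w) = D.rev w ++ D.rev v
  | [], w => (List.append_nil _).symm
  | g :: v, w => by
    change D.rev (v ++ w) ++ [D.flip g] = D.rev w ++ (D.rev v ++ [D.flip g])
    rw [rev_append v w, List.append_assoc]

theorem rev_rev : ∀ w, D.rev (D.rev w) = w
  | [] => rfl
  | g :: w => by
    rw [rev, D.rev_append, rev_rev w]
    change [D.flip (D.flip g)] ++ w = g :: w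
    rw [D.flip_flip]
    rfl

theorem pt_rev_mem {w : List D.Gen} {χ : C.Spec} (h : χ ∈ C.src (D.wop w)) :
    C.pt (D.wop w) χ ∈ C.src (D.wop (D.rev w)) := by
  rw [D.wop_rev]
  exact C.pt_mem (D.wop_mem w) h

theorem pt_rev_pt {w : List D.Gen} {χ : C.Spec} (h : χ ∈ C.src (D.wop w)) :
    C.pt (D.wop (D.rev w)) (C.pt (D.wop w) χ) = χ := by
  rw [D.wop_rev]
  exact C.pt_star_pt (D.wop_mem w) h

theorem wkap_rev : ∀ w {χ : C.Spec}, χ ∈ C.src (D.wop w) →
    D.wkap (D.rev w) (C.pt (D.wop w) χ) = -D.wkap w χ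
  | [], χ, _ => (neg_zero (G := ℝ)).symm
  | g :: w, χ, h => by
    obtain ⟨h1, h2⟩ := D.mem_src_cons.1 h
    have hb := D.pt_rev_mem h
    rw [D.pt_cons h] at hb ⊢
    change C.pt (D.wop w) (C.pt (D.gu g) χ) ∈ C.src (D.wop (D.rev w ++ [D.flip g])) at hb
    change D.wkap (D.rev w ++ [D.flip g]) (C.pt (D.wop w) (C.pt (D.gu g) χ)) =
      -(D.kap g χ + D.wkap w (C.pt (D.gu g) χ))
    rw [D.wkap_append _ _ hb, wkap_rev w h2, D.pt_rev_pt h2]
    change -_ + (D.kap (D.flip g) _ + 0) = _
    rw [D.kap_flip g h1]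
    ring

/-- The weighted measure of the point space. -/
def baseMeas : Measure C.Spec := C.meas.withDensity fun χ => ENNReal.ofReal (D.lam χ)

instance instSFiniteBaseMeas : SFinite D.baseMeas :=
  inferInstanceAs (SFinite (C.meas.withDensity _))

theorem lintegral_baseMeas {F : C.Spec → ℝ≥0∞} (hF : Measurable F) :
    ∫⁻ χ, F χ ∂D.baseMeas = ∫⁻ χ, ENNReal.ofReal (D.lam χ) * F χ ∂C.meas :=
  lintegral_withDensity_eq_lintegral_mul _ D.lam.continuous.measurable.ennreal_ofReal hF

theorem setLIntegral_baseMeas {S : Set C.Spec} (hS : MeasurableSet S) {F : C.Spec → ℝ≥0∞}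
    (hF : Measurable F) :
    ∫⁻ χ in S, F χ ∂D.baseMeas = ∫⁻ χ in S, ENNReal.ofReal (D.lam χ) * F χ ∂C.meas := by
  rw [← lintegral_indicator hS, D.lintegral_baseMeas (hF.indicator hS), ← lintegral_indicator hS]
  congr 1
  funext χ
  by_cases h : χ ∈ S <;> simp [h]

theorem kap0_change (i : Σ j : Fin r, Fin (D.len j)) {G : C.Spec → ℝ≥0∞} (hG : Measurable G) :
    ∫⁻ χ in C.src (D.u i.1 i.2),
        ENNReal.ofReal (Real.exp (D.kap0 i χ)) * G (C.pt (D.u i.1 i.2) χ) ∂D.baseMeas =
      ∫⁻ χ in C.src (star (D.u i.1 i.2)), G χ ∂D.baseMeas := by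
  have hu := D.u_mem i.1 i.2
  rw [D.setLIntegral_baseMeas (C.measurableSet_src (C.GN_star hu)) hG,
    D.setLIntegral_baseMeas (C.measurableSet_src hu)
      (show Measurable fun χ => ENNReal.ofReal (Real.exp (D.kap0 i χ)) *
          G (C.pt (D.u i.1 i.2) χ) from
        (D.measurable_kap0 i).exp.ennreal_ofReal.mul (hG.comp (C.measurable_pt hu))),
    ← C.lintegral_src hu (show Measurable fun χ => ENNReal.ofReal (D.lam χ) * G χ from
      D.lam.continuous.measurable.ennreal_ofReal.mul hG)]
  refine lintegral_congr fun χ => ?_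
  rw [← mul_assoc, ← mul_assoc, ← ENNReal.ofReal_mul (D.lam_pos χ).le,
    ← ENNReal.ofReal_mul (C.jac_pos _ χ).le, kap0,
    Real.exp_log (div_pos (mul_pos (C.jac_pos _ χ) (D.lam_pos _)) (D.lam_pos χ)),
    mul_div_cancel₀ _ (D.lam_pos χ).ne']

theorem kap_change (g : D.Gen) {G : C.Spec → ℝ≥0∞} (hG : Measurable G) :
    ∫⁻ χ in C.src (D.gu g),
        ENNReal.ofReal (Real.exp (D.kap g χ)) * G (C.pt (D.gu g) χ) ∂D.baseMeas =
      ∫⁻ χ in C.src (D.gu (D.flip g)), G χ ∂D.baseMeas := by
  rcases g with ⟨i, _ | _⟩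
  · have hu := D.u_mem i.1 i.2
    have h := D.kap0_change i (G := fun χ =>
      ENNReal.ofReal (Real.exp (-D.kap0 i (C.pt (star (D.u i.1 i.2)) χ))) *
        G (C.pt (star (D.u i.1 i.2)) χ))
      (((D.measurable_kap0 i).comp (C.measurable_pt (C.GN_star hu))).neg.exp.ennreal_ofReal.mul
        (hG.comp (C.measurable_pt (C.GN_star hu))))
    refine h.symm.trans (setLIntegral_congr_fun (C.measurableSet_src hu) fun χ hχ => ?_)
    rw [C.pt_star_pt hu hχ, ← mul_assoc, ← ENNReal.ofReal_mul (Real.exp_pos _).le, ← Real.exp_add,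
      add_neg_cancel, Real.exp_zero, ENNReal.ofReal_one, one_mul]
  · exact D.kap0_change i hG

theorem wkap_change : ∀ (w : List D.Gen) {G : C.Spec → ℝ≥0∞}, Measurable G →
    ∫⁻ χ in C.src (D.wop w),
        ENNReal.ofReal (Real.exp (D.wkap w χ)) * G (C.pt (D.wop w) χ) ∂D.baseMeas =
      ∫⁻ χ in C.src (D.wop (D.rev w)), G χ ∂D.baseMeas
  | [], G, _ => by
    refine setLIntegral_congr_fun (C.measurableSet_src C.GN_one) fun χ _ => ?_
    change ENNReal.ofReal (Real.exp 0) * G (C.pt 1 χ) = G χ
    simp [C.pt_one]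
  | g :: w, G, hG => by
    have hg := C.measurableSet_src (D.gu_mem g)
    have hw := C.measurableSet_src (D.wop_mem w)
    have hf := C.measurableSet_src (D.gu_mem (D.flip g))
    set A := fun χ => ENNReal.ofReal (Real.exp (D.wkap w χ)) * G (C.pt (D.wop w) χ) with hA
    have hAm : Measurable A :=
      (D.measurable_wkap w).exp.ennreal_ofReal.mul (hG.comp (C.measurable_pt (D.wop_mem w)))
    calc ∫⁻ χ in C.src (D.wop (g :: w)), ENNReal.ofReal (Real.exp (D.wkap (g :: w) χ)) *
          G (C.pt (D.wop (g :: w)) χ) ∂D.baseMeas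
        = ∫⁻ χ in C.src (D.gu g), ENNReal.ofReal (Real.exp (D.kap g χ)) *
            (C.src (D.wop w)).indicator A (C.pt (D.gu g) χ) ∂D.baseMeas := by
          rw [← lintegral_indicator (C.measurableSet_src (D.wop_mem (g :: w))),
            ← lintegral_indicator hg]
          congr 1
          funext χ
          by_cases h : χ ∈ C.src (D.wop (g :: w))
          · obtain ⟨h1, h2⟩ := D.mem_src_cons.1 h
            rw [Set.indicator_of_mem h, Set.indicator_of_mem h1, Set.indicator_of_mem h2,
              D.pt_cons h, hA]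
            dsimp only
            rw [wkap, Real.exp_add, ENNReal.ofReal_mul (Real.exp_pos _).le, mul_assoc]
          · rw [Set.indicator_of_notMem h]
            by_cases h1 : χ ∈ C.src (D.gu g)
            · rw [Set.indicator_of_mem h1,
                Set.indicator_of_notMem fun h2 => h (D.mem_src_cons.2 ⟨h1, h2⟩), mul_zero]
            · rw [Set.indicator_of_notMem h1]
      _ = ∫⁻ χ in C.src (D.gu (D.flip g)), (C.src (D.wop w)).indicator A χ ∂D.baseMeas :=
          D.kap_change g (hAm.indicator hw)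
      _ = ∫⁻ χ in C.src (D.wop w), ENNReal.ofReal (Real.exp (D.wkap w χ)) *
            (C.pt (D.wop (D.rev w)) ⁻¹' C.src (D.gu (D.flip g))).indicator G
              (C.pt (D.wop w) χ) ∂D.baseMeas := by
          rw [← lintegral_indicator hf, ← lintegral_indicator hw]
          congr 1
          funext χ
          by_cases h1 : χ ∈ C.src (D.wop w)
          · by_cases h2 : χ ∈ C.src (D.gu (D.flip g))
            · rw [Set.indicator_of_mem h2, Set.indicator_of_mem h1, Set.indicator_of_mem h1,
                Set.indicator_of_mem (by rw [Set.mem_preimage, D.pt_rev_pt h1]; exact h2)]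
            · rw [Set.indicator_of_notMem h2, Set.indicator_of_mem h1,
                Set.indicator_of_notMem (by rw [Set.mem_preimage, D.pt_rev_pt h1]; exact h2),
                mul_zero]
          · by_cases h2 : χ ∈ C.src (D.gu (D.flip g))
            · rw [Set.indicator_of_mem h2, Set.indicator_of_notMem h1, Set.indicator_of_notMem h1]
            · rw [Set.indicator_of_notMem h2, Set.indicator_of_notMem h1]
      _ = ∫⁻ χ in C.src (D.wop (D.rev w)),
            (C.pt (D.wop (D.rev w)) ⁻¹' C.src (D.gu (D.flip g))).indicator G χ ∂D.baseMeas :=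
          wkap_change w (hG.indicator (C.measurable_pt (D.wop_mem _) hf))
      _ = _ := by
          rw [← lintegral_indicator (C.measurableSet_src (D.wop_mem _)),
            ← lintegral_indicator (C.measurableSet_src (D.wop_mem _)), Set.indicator_indicator]
          refine congrArg (lintegral _) (congrArg (fun S => Set.indicator S G) (Set.ext fun χ => ?_))
          change χ ∈ C.src (D.wop (D.rev w)) ∧ _ ↔ χ ∈ C.src (D.wop (D.rev w ++ [D.flip g]))
          rw [D.mem_src_append, D.wop_single]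
          rfl

/-- The points of the skew product. -/
abbrev Y (C : Ctx K) : Type u := C.Spec × ℝ

/-- The measure on the heights. -/
def expo : Measure ℝ := volume.withDensity fun s => ENNReal.ofReal (Real.exp (-s))

instance : SFinite expo := inferInstanceAs (SFinite (volume.withDensity _))

/-- The measure of the skew product. -/
def skew : Measure (Y C) := D.baseMeas.prod expo

theorem lintegral_expo {F : ℝ → ℝ≥0∞} (hF : Measurable F) :
    ∫⁻ s, F s ∂expo = ∫⁻ s, ENNReal.ofReal (Real.exp (-s)) * F s :=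
  lintegral_withDensity_eq_lintegral_mul _
    (Real.measurable_exp.comp measurable_neg).ennreal_ofReal hF

theorem lintegral_expo_add (F : ℝ → ℝ≥0∞) (hF : Measurable F) (c : ℝ) :
    ∫⁻ s, F (s + c) ∂expo = ENNReal.ofReal (Real.exp c) * ∫⁻ s, F s ∂expo := by
  rw [lintegral_expo hF, lintegral_expo (show Measurable fun s => F (s + c) from
      hF.comp (measurable_id.add_const c)),
    ← lintegral_const_mul _ (show Measurable fun s => ENNReal.ofReal (Real.exp (-s)) * F s from
      (Real.measurable_exp.comp measurable_neg).ennreal_ofReal.mul hF),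
    ← lintegral_add_right_eq_self
      (fun s => ENNReal.ofReal (Real.exp c) * (ENNReal.ofReal (Real.exp (-s)) * F s)) c]
  refine lintegral_congr fun s => ?_
  rw [← mul_assoc, ← ENNReal.ofReal_mul (Real.exp_pos _).le, ← Real.exp_add]
  congr 3
  · ring

/-- The lift of a word. -/
def lift (w : List D.Gen) (x : Y C) : Y C := (C.pt (D.wop w) x.1, x.2 + D.wkap w x.1)

theorem measurable_lift (w : List D.Gen) : Measurable (D.lift w) :=
  ((C.measurable_pt (D.wop_mem w)).comp measurable_fst).prodMk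
    (measurable_snd.add ((D.measurable_wkap w).comp measurable_fst))

theorem lift_append {v w : List D.Gen} {x : Y C} (h : x.1 ∈ C.src (D.wop (v ++ w))) :
    D.lift (v ++ w) x = D.lift w (D.lift v x) := by
  simp only [lift, D.pt_append h, D.wkap_append v w h, add_assoc]

theorem lift_rev {w : List D.Gen} {x : Y C} (h : x.1 ∈ C.src (D.wop w)) :
    D.lift (D.rev w) (D.lift w x) = x := by
  simp only [lift, D.pt_rev_pt h, D.wkap_rev w h, add_assoc, add_neg_cancel, add_zero, Prod.mk.eta]

/-- The partial bijection of a word. -/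
def wequiv (w : List D.Gen) : PartialEquiv (Y C) (Y C) where
  toFun := D.lift w
  invFun := D.lift (D.rev w)
  source := Prod.fst ⁻¹' C.src (D.wop w)
  target := Prod.fst ⁻¹' C.src (D.wop (D.rev w))
  map_source' _ h := D.pt_rev_mem h
  map_target' x h := by
    change C.pt (D.wop (D.rev w)) x.1 ∈ C.src (D.wop w)
    have := D.pt_rev_mem (w := D.rev w) h
    rwa [D.rev_rev] at this
  left_inv' _ h := D.lift_rev h
  right_inv' x h := by
    have := D.lift_rev (w := D.rev w) (x := x) h
    rwa [D.rev_rev] at this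

/-- An enumeration of the words. -/
def word (k : ℕ) : List D.Gen := ((Encodable.decode k : Option (List D.Gen))).getD []

theorem word_surj (w : List D.Gen) : ∃ k, D.word k = w :=
  ⟨Encodable.encode w, by rw [word, Encodable.encodek]; rfl⟩

theorem measurableSet_base {S : Set C.Spec} (hS : MeasurableSet S) :
    MeasurableSet (Prod.fst ⁻¹' S : Set (Y C)) := measurable_fst hS

theorem measurableSet_lift_eq (v w : List D.Gen) : MeasurableSet
    {x : Y C | x.1 ∈ C.src (D.wop v) ∧ x.1 ∈ C.src (D.wop w) ∧ D.lift v x = D.lift w x} := by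
  have e : {x : Y C | x.1 ∈ C.src (D.wop v) ∧ x.1 ∈ C.src (D.wop w) ∧ D.lift v x = D.lift w x} =
      Prod.fst ⁻¹' (C.src (D.wop v) ∩ (C.src (D.wop w) ∩
        ({χ | C.pt (D.wop v) χ = C.pt (D.wop w) χ} ∩ {χ | D.wkap v χ = D.wkap w χ}))) := by
    ext x
    simp [lift]
  rw [e]
  exact measurableSet_base ((C.measurableSet_src (D.wop_mem v)).inter
    ((C.measurableSet_src (D.wop_mem w)).inter
      ((isClosed_eq (C.continuous_pt (D.wop_mem v))
        (C.continuous_pt (D.wop_mem w))).measurableSet.inter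
        (measurableSet_eq_fun (D.measurable_wkap v) (D.measurable_wkap w)))))

theorem lintegral_lift (w : List D.Gen) {F : Y C → ℝ≥0∞} (hF : Measurable F) :
    ∫⁻ x in Prod.fst ⁻¹' C.src (D.wop w), F (D.lift w x) ∂D.skew =
      ∫⁻ y in Prod.fst ⁻¹' C.src (D.wop (D.rev w)), F y ∂D.skew := by
  have e : ∀ (S : Set C.Spec) (Φ : Y C → ℝ≥0∞), MeasurableSet S → Measurable Φ →
      ∫⁻ x in Prod.fst ⁻¹' S, Φ x ∂D.skew = ∫⁻ χ in S, ∫⁻ s, Φ (χ, s) ∂expo ∂D.baseMeas := by
    intro S Φ hS hΦ
    rw [← lintegral_indicator (measurableSet_base hS), skew,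
      lintegral_prod _ (hΦ.indicator (measurableSet_base hS)).aemeasurable,
      ← lintegral_indicator hS]
    congr 1
    funext χ
    by_cases h : χ ∈ S <;> simp [Set.indicator, h]
  rw [e _ _ (C.measurableSet_src (D.wop_mem w))
      (show Measurable fun x => F (D.lift w x) from hF.comp (D.measurable_lift w)),
    e _ _ (C.measurableSet_src (D.wop_mem _)) hF, ← D.wkap_change w hF.lintegral_prod_right']
  refine lintegral_congr fun χ => ?_
  exact lintegral_expo_add (fun s => F (C.pt (D.wop w) χ, s)) (hF.comp measurable_prodMk_left)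
    (D.wkap w χ)

/-- The relation generated by the family. -/
def rel : Leverage.Rel D.skew where
  map k := D.wequiv (D.word k)
  exists_refl x := by
    obtain ⟨k, hk⟩ := D.word_surj []
    refine ⟨k, ?_, ?_⟩ <;> rw [hk]
    · exact C.mem_src_one x.1
    · exact Prod.ext (C.pt_one x.1) (add_zero x.2)
  exists_comp k l x hx hx' := by
    obtain ⟨m, hm⟩ := D.word_surj (D.word k ++ D.word l)
    have h : x.1 ∈ C.src (D.wop (D.word k ++ D.word l)) := D.mem_src_append.2 ⟨hx, hx'⟩
    refine ⟨m, ?_, ?_⟩ <;> rw [hm]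
    · exact h
    · exact D.lift_append h
  exists_symm k x hx := by
    obtain ⟨m, hm⟩ := D.word_surj (D.rev (D.word k))
    refine ⟨m, ?_, ?_⟩ <;> rw [hm]
    · exact D.pt_rev_mem hx
    · exact D.lift_rev hx
  meas_source k := measurableSet_base (C.measurableSet_src (D.wop_mem _))
  meas_target k := measurableSet_base (C.measurableSet_src (D.wop_mem _))
  meas_map k := (D.measurable_lift _).comp measurable_subtype_coe
  meas_symm k := (D.measurable_lift _).comp measurable_subtype_coe
  meas_eq k l := D.measurableSet_lift_eq _ _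
  meas_eq_comp k l m := by
    convert D.measurableSet_lift_eq (D.word k ++ D.word l) (D.word m) using 1
    ext x
    constructor
    · rintro ⟨h1, h2, h3, h4⟩
      have h : x.1 ∈ C.src (D.wop (D.word k ++ D.word l)) := D.mem_src_append.2 ⟨h1, h2⟩
      exact ⟨h, h3, (D.lift_append h).trans h4⟩
    · rintro ⟨h, h3, h4⟩
      exact ⟨(D.mem_src_append.1 h).1, (D.mem_src_append.1 h).2, h3, (D.lift_append h).symm.trans h4⟩
  preserves k F hF := D.lintegral_lift _ hF

/-- The weight of a generator of one colour. -/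
def cf (j : Fin r) : Fin (D.len j) × Bool → C(C.Spec, ℝ)
  | (k, true) => (1 / 2 : ℝ) • D.f j k
  | (k, false) => (1 / 2 : ℝ) • C.img (star (D.u j k)) (D.f j k)

/-- A generator of one colour. -/
def cg (j : Fin r) (e : Fin (D.len j) × Bool) : D.Gen := (⟨j, e.1⟩, e.2)

theorem cf_nonneg (j : Fin r) (e : Fin (D.len j) × Bool) (χ : C.Spec) : 0 ≤ D.cf j e χ := by
  rcases e with ⟨k, _ | _⟩
  · exact mul_nonneg (by norm_num) (C.img_nonneg (C.GN_star (D.u_mem j k)) (D.f_nonneg j k) χ)
  · exact mul_nonneg (by norm_num) (D.f_nonneg j k χ)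

theorem cf_flip (j : Fin r) (e : Fin (D.len j) × Bool) {χ : C.Spec}
    (h : χ ∈ C.src (D.gu (D.cg j e))) :
    D.cf j (e.1, !e.2) (C.pt (D.gu (D.cg j e)) χ) = D.cf j e χ := by
  rcases e with ⟨k, _ | _⟩
  · change (1 / 2 : ℝ) * D.f j k _ = (1 / 2 : ℝ) * C.img (star (D.u j k)) (D.f j k) χ
    rw [C.img_apply (C.GN_star (D.u_mem j k)) h]
    rfl
  · change (1 / 2 : ℝ) * C.img (star (D.u j k)) (D.f j k) _ = (1 / 2 : ℝ) * D.f j k χ
    change (1 / 2 : ℝ) * C.img (star (D.u j k)) (D.f j k) (C.pt (D.u j k) χ) = _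
    rw [C.img_apply (C.GN_star (D.u_mem j k)) (C.pt_mem (D.u_mem j k) h)]
    rw [C.pt_star_pt (D.u_mem j k) h]

theorem symOp_eq (j : Fin r) (g : C(C.Spec, ℝ)) :
    C.symOp (D.f j) (D.u j) g = ∑ e, D.cf j e * C.img (D.gu (D.cg j e)) g := by
  rw [Ctx.symOp, smul_apply, _root_.sum_apply, Finset.smul_sum,
    Fintype.sum_prod_type]
  refine Finset.sum_congr rfl fun k _ => ?_
  rw [Fintype.sum_bool, _root_.add_apply, smul_add, C.mono_apply _ (D.u_mem j k),
    C.mono_apply _ (C.GN_star (D.u_mem j k))]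
  exact congrArg₂ (· + ·) (smul_mul_assoc _ _ _).symm (smul_mul_assoc _ _ _).symm

/-- The row sum of the weights of one colour. -/
def row (j : Fin r) (χ : C.Spec) : ℝ :=
  ∑ e, (C.src (D.gu (D.cg j e))).indicator
    (fun ξ => D.cf j e ξ * Real.exp (D.kap (D.cg j e) ξ)) χ

theorem measurable_row (j : Fin r) : Measurable (D.row j) :=
  Finset.measurable_sum _ fun e _ => ((D.cf j e).continuous.measurable.mul
    (D.measurable_kap _).exp).indicator (C.measurableSet_src (D.gu_mem _))

theorem row_ae (j : Fin r) : ∀ᵐ χ ∂C.meas, D.row j χ ≤ D.a j χ - D.τ := by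
  have hk : ∀ χ, 0 ≤ (D.lam * (D.a j - algebraMap ℝ _ D.τ)) χ := fun χ =>
    mul_nonneg (D.lam_pos χ).le (by simpa using D.a_lower j χ)
  have hnn : ∀ χ, 0 ≤ D.row j χ := fun χ => Finset.sum_nonneg fun e _ =>
    Set.indicator_nonneg (fun ξ _ => mul_nonneg (D.cf_nonneg j e ξ) (Real.exp_pos _).le) χ
  have key := C.ae_le_of_test (F := fun χ => ENNReal.ofReal (D.lam χ * D.row j χ))
    (D.lam.continuous.measurable.mul (D.measurable_row j)).ennreal_ofReal _ hk ?_
  · filter_upwards [key] with χ h
    rw [ENNReal.ofReal_le_ofReal_iff (hk χ)] at h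
    simpa using le_of_mul_le_mul_left h (D.lam_pos χ)
  intro g hg
  have hterm : ∀ e, ∫⁻ χ, ENNReal.ofReal (g χ) * ENNReal.ofReal (D.lam χ *
      (C.src (D.gu (D.cg j e))).indicator
        (fun ξ => D.cf j e ξ * Real.exp (D.kap (D.cg j e) ξ)) χ) ∂C.meas =
      ENNReal.ofReal
        (C.intA (D.lam * (D.cf j (e.1, !e.2) * C.img (D.gu (D.cg j (e.1, !e.2))) g))) := by
    intro e
    set u := D.gu (D.cg j e) with hu
    have hu' : D.gu (D.cg j (e.1, !e.2)) = star u := D.gu_flip (D.cg j e)
    have hum : u ∈ C.GN := D.gu_mem _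
    have hGm : Measurable fun χ => ENNReal.ofReal (D.cf j (e.1, !e.2) χ * C.img (star u) g χ) :=
      ((D.cf j (e.1, !e.2)).continuous.mul (C.img (star u) g).continuous).measurable.ennreal_ofReal
    have hch := D.kap_change (D.cg j e) hGm
    rw [D.gu_flip, ← hu, D.setLIntegral_baseMeas (C.measurableSet_src (C.GN_star hum)) hGm,
      D.setLIntegral_baseMeas (C.measurableSet_src hum) (show Measurable fun χ =>
          ENNReal.ofReal (Real.exp (D.kap (D.cg j e) χ)) *
            ENNReal.ofReal (D.cf j (e.1, !e.2) (C.pt u χ) * C.img (star u) g (C.pt u χ)) from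
        (D.measurable_kap _).exp.ennreal_ofReal.mul (hGm.comp (C.measurable_pt hum))), ← lintegral_indicator (C.measurableSet_src hum),
      ← lintegral_indicator (C.measurableSet_src (C.GN_star hum))] at hch
    rw [hu', ← C.integral_meas, ofReal_integral_eq_lintegral_ofReal (C.integrable_symbol _)
      (ae_of_all _ fun χ => mul_nonneg (D.lam_pos χ).le (mul_nonneg (D.cf_nonneg j _ χ)
        (C.img_nonneg (C.GN_star hum) hg χ)))]
    refine (Eq.trans ?_ hch).trans ?_
    · refine lintegral_congr fun χ => ?_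
      by_cases h : χ ∈ C.src u
      · rw [Set.indicator_of_mem h, Set.indicator_of_mem h]
        have e1 : C.img (star u) g (C.pt u χ) = g χ := by
          rw [← C.img_apply hum h, C.img_img_star hum, ContinuousMap.mul_apply,
            show C.img u 1 χ = 1 from h, mul_one]
        rw [e1, hu, D.cf_flip j e h,
          ← ENNReal.ofReal_mul (hg χ), ← ENNReal.ofReal_mul (Real.exp_pos _).le,
          ← ENNReal.ofReal_mul (D.lam_pos χ).le]
        congr 1
        ring
      · rw [Set.indicator_of_notMem h, Set.indicator_of_notMem h, mul_zero, ENNReal.ofReal_zero,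
          mul_zero]
    · refine lintegral_congr fun χ => ?_
      by_cases h : χ ∈ C.src (star u)
      · rw [Set.indicator_of_mem h, ← ENNReal.ofReal_mul (D.lam_pos χ).le]
        rfl
      · rw [Set.indicator_of_notMem h]
        simp [C.img_apply_zero (C.GN_star hum) h]
  have hm : ∀ e ∈ (Finset.univ : Finset (Fin (D.len j) × Bool)), Measurable fun χ =>
      ENNReal.ofReal (g χ) * ENNReal.ofReal (D.lam χ * (C.src (D.gu (D.cg j e))).indicator
        (fun ξ => D.cf j e ξ * Real.exp (D.kap (D.cg j e) ξ)) χ) := fun e _ =>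
    g.continuous.measurable.ennreal_ofReal.mul (D.lam.continuous.measurable.mul
      (((D.cf j e).continuous.measurable.mul (D.measurable_kap _).exp).indicator
        (C.measurableSet_src (D.gu_mem _)))).ennreal_ofReal
  calc ∫⁻ χ, ENNReal.ofReal (g χ) * ENNReal.ofReal (D.lam χ * D.row j χ) ∂C.meas
      = ∑ e : Fin (D.len j) × Bool, ENNReal.ofReal
          (C.intA (D.lam * (D.cf j (e.1, !e.2) * C.img (D.gu (D.cg j (e.1, !e.2))) g))) := by
        rw [← Finset.sum_congr rfl fun e _ => hterm e, ← lintegral_finsetSum _ hm]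
        refine lintegral_congr fun χ => ?_
        rw [row, Finset.mul_sum, ENNReal.ofReal_sum_of_nonneg fun e _ =>
          mul_nonneg (D.lam_pos χ).le (Set.indicator_nonneg
            (fun ξ _ => mul_nonneg (D.cf_nonneg j e ξ) (Real.exp_pos _).le) χ), Finset.mul_sum]
    _ = ENNReal.ofReal (C.intA (D.lam * C.symOp (D.f j) (D.u j) g)) := by
        rw [D.symOp_eq, Finset.mul_sum, C.intA_sum, ← ENNReal.ofReal_sum_of_nonneg]
        · congr 1
          exact Equiv.sum_comp ((Equiv.refl _).prodCongr Equiv.boolNot)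
            fun e => C.intA (D.lam * (D.cf j e * C.img (D.gu (D.cg j e)) g))
        · exact fun e _ => C.intA_nonneg fun χ => mul_nonneg (D.lam_pos χ).le
            (mul_nonneg (D.cf_nonneg j _ χ) (C.img_nonneg (D.gu_mem _) hg χ))
    _ ≤ _ := by
        refine ENNReal.ofReal_le_ofReal ?_
        have e : g * (D.lam * (D.a j - algebraMap ℝ _ D.τ)) + D.τ • (D.lam * g) =
            D.lam * (D.a j * g) := by
          ext χ; simp; ring
        have := D.sub j g hg
        rw [← e, C.intA_add, C.intA_smul] at this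
        linarith

/-- The points where some row inequality fails along an orbit. -/
def bad : Set C.Spec :=
  ⋃ k : ℕ, C.src (D.wop (D.word k)) ∩
    C.pt (D.wop (D.word k)) ⁻¹' ⋃ j, {χ | D.a j χ - D.τ < D.row j χ}

theorem measurableSet_bad0 : MeasurableSet (⋃ j, {χ | D.a j χ - D.τ < D.row j χ}) :=
  MeasurableSet.iUnion fun j =>
    measurableSet_lt ((D.a j).continuous.measurable.sub_const _) (D.measurable_row j)

theorem measurableSet_bad : MeasurableSet D.bad :=
  MeasurableSet.iUnion fun _ => (C.measurableSet_src (D.wop_mem _)).inter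
    (C.measurable_pt (D.wop_mem _) D.measurableSet_bad0)

theorem meas_bad : C.meas D.bad = 0 :=
  measure_iUnion_null fun _ => C.meas_preimage_null (D.wop_mem _) D.measurableSet_bad0
    (measure_iUnion_null fun j => by simpa [ae_iff, not_le] using D.row_ae j)

theorem pt_not_mem_bad {w : List D.Gen} {χ : C.Spec} (h : χ ∈ C.src (D.wop w)) (hχ : χ ∉ D.bad) :
    C.pt (D.wop w) χ ∉ D.bad := by
  intro hb
  obtain ⟨k, h1, h2⟩ := Set.mem_iUnion.1 hb
  obtain ⟨m, hm⟩ := D.word_surj (w ++ D.word k)
  have h3 : χ ∈ C.src (D.wop (w ++ D.word k)) := D.mem_src_append.2 ⟨h, h1⟩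
  refine hχ (Set.mem_iUnion.2 ⟨m, ?_, ?_⟩)
  · rw [hm]; exact h3
  · rw [hm, Set.mem_preimage, D.pt_append h3]; exact h2

theorem row_le {χ : C.Spec} (hχ : χ ∉ D.bad) (j : Fin r) : D.row j χ ≤ D.a j χ - D.τ := by
  refine not_lt.1 fun h => hχ ?_
  obtain ⟨k, hk⟩ := D.word_surj []
  refine Set.mem_iUnion.2 ⟨k, ?_, ?_⟩ <;> rw [hk]
  · exact C.mem_src_one χ
  · rw [Set.mem_preimage]
    change C.pt 1 χ ∈ _
    rw [C.pt_one]
    exact Set.mem_iUnion.2 ⟨j, h⟩

open Classical in
/-- One term of the kernel of a colour. -/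
def kterm (j : Fin r) (e : Fin (D.len j) × Bool) (x y : Y C) : ℝ :=
  if x.1 ∈ C.src (D.wop [D.cg j e]) ∧ D.lift [D.cg j e] x = y then D.cf j e x.1 else 0

open Classical in
/-- The symmetric kernel of a colour. -/
def kern (j : Fin r) (x y : Y C) : ℝ := if x.1 ∈ D.bad then 0 else ∑ e, D.kterm j e x y

theorem cg_flip (j : Fin r) (e : Fin (D.len j) × Bool) :
    D.flip (D.cg j e) = D.cg j (e.1, !e.2) := rfl

theorem kterm_mem_flip (j : Fin r) (e : Fin (D.len j) × Bool) {x y : Y C}
    (h : x.1 ∈ C.src (D.wop [D.cg j e])) (hl : D.lift [D.cg j e] x = y) :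
    y.1 ∈ C.src (D.wop [D.cg j (e.1, !e.2)]) ∧ D.lift [D.cg j (e.1, !e.2)] y = x := by
  subst hl
  have e1 : D.rev [D.cg j e] = [D.cg j (e.1, !e.2)] := rfl
  rw [← e1]
  exact ⟨D.pt_rev_mem h, D.lift_rev h⟩

theorem kterm_flip (j : Fin r) (e : Fin (D.len j) × Bool) (x y : Y C) :
    D.kterm j (e.1, !e.2) y x = D.kterm j e x y := by
  by_cases h : x.1 ∈ C.src (D.wop [D.cg j e]) ∧ D.lift [D.cg j e] x = y
  · have h' := h.1
    rw [D.wop_single] at h'
    have hy : y.1 = C.pt (D.gu (D.cg j e)) x.1 := by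
      rw [← h.2, lift, D.wop_single]
    rw [kterm, kterm, if_pos h, if_pos (D.kterm_mem_flip j e h.1 h.2), hy]
    exact D.cf_flip j e h'
  · rw [kterm, kterm, if_neg h, if_neg]
    intro hc
    have h2 := D.kterm_mem_flip j (e.1, !e.2) hc.1 hc.2
    rw [show ((e.1, !e.2).1, !(e.1, !e.2).2) = e from Prod.ext rfl (Bool.not_not e.2)] at h2
    exact h h2

theorem kern_symm (j : Fin r) (x y : Y C) : D.kern j x y = D.kern j y x := by
  have hsum : ∑ e, D.kterm j e x y = ∑ e, D.kterm j e y x := by
    rw [← Equiv.sum_comp ((Equiv.refl (Fin (D.len j))).prodCongr Equiv.boolNot)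
      fun e => D.kterm j e y x]
    exact Finset.sum_congr rfl fun e _ => (D.kterm_flip j e x y).symm
  have hz : ∀ x y : Y C, x.1 ∉ D.bad → y.1 ∈ D.bad → ∑ e, D.kterm j e x y = 0 := fun x y hx hy =>
    Finset.sum_eq_zero fun e _ => by
      rw [kterm, if_neg]
      rintro ⟨h, rfl⟩
      exact D.pt_not_mem_bad h hx hy
  unfold kern
  by_cases hx : x.1 ∈ D.bad <;> by_cases hy : y.1 ∈ D.bad
  · rw [if_pos hx, if_pos hy]
  · rw [if_pos hx, if_neg hy, hz y x hy hx]
  · rw [if_neg hx, if_pos hy, hz x y hx hy]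
  · rw [if_neg hx, if_neg hy, hsum]

theorem kern_nonneg (j : Fin r) (x y : Y C) : 0 ≤ D.kern j x y := by
  unfold kern kterm
  split_ifs
  · exact le_rfl
  · exact Finset.sum_nonneg fun e _ => by split_ifs; exacts [D.cf_nonneg j e _, le_rfl]

theorem isKernel_kern (j : Fin r) : D.rel.IsKernel (D.kern j) where
  supp x y h := by
    unfold kern
    split_ifs
    · rfl
    · refine Finset.sum_eq_zero fun e _ => ?_
      rw [kterm, if_neg]
      rintro ⟨h1, h2⟩
      obtain ⟨k, hk⟩ := D.word_surj [D.cg j e]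
      refine h ⟨k, ?_, ?_⟩
      · change x.1 ∈ C.src (D.wop (D.word k))
        rw [hk]; exact h1
      · change D.lift (D.word k) x = y
        rw [hk]; exact h2
  meas k := by
    unfold kern
    refine Measurable.ite (measurable_subtype_coe (measurableSet_base D.measurableSet_bad))
      measurable_const (Finset.measurable_sum _ fun e _ => ?_)
    unfold kterm
    refine Measurable.ite ?_ ((D.cf j e).continuous.measurable.comp
      (measurable_fst.comp measurable_subtype_coe)) measurable_const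
    convert measurable_subtype_coe (D.measurableSet_lift_eq [D.cg j e] (D.word k)) using 1
    ext ⟨x, hx⟩
    exact ⟨fun h => ⟨h.1, hx, h.2⟩, fun h => ⟨h.1, h.2.2⟩⟩

theorem kern_row (j : Fin r) (x : Y C) (s : Finset (Y C)) :
    ∑ y ∈ s, D.kern j x y * Real.exp y.2 ≤ (D.a j x.1 - D.τ) * Real.exp x.2 := by
  classical
  unfold kern
  by_cases hx : x.1 ∈ D.bad
  · simp only [if_pos hx, zero_mul, Finset.sum_const_zero]
    exact mul_nonneg (sub_nonneg.2 (D.a_lower j x.1)) (Real.exp_pos _).le
  · simp only [if_neg hx, Finset.sum_mul]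
    rw [Finset.sum_comm]
    refine le_trans ?_ (mul_le_mul_of_nonneg_right (D.row_le hx j) (Real.exp_pos _).le)
    rw [row, Finset.sum_mul]
    refine Finset.sum_le_sum fun e _ => ?_
    unfold kterm
    by_cases h : x.1 ∈ C.src (D.wop [D.cg j e])
    · have h' := h
      rw [D.wop_single] at h'
      simp only [h, true_and, ite_mul, zero_mul]
      rw [Finset.sum_ite_eq, Set.indicator_of_mem h']
      split_ifs
      · change D.cf j e x.1 * Real.exp (x.2 + (D.kap (D.cg j e) x.1 + 0)) ≤ _
        rw [add_zero, Real.exp_add]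
        exact le_of_eq (by ring)
      · exact mul_nonneg (mul_nonneg (D.cf_nonneg j e _) (Real.exp_pos _).le) (Real.exp_pos _).le
    · have h' := h
      rw [D.wop_single] at h'
      simp [h, Set.indicator_of_notMem h']

theorem lift_shift (w : List D.Gen) (c : ℝ) (x : Y C) :
    D.lift w (x.1, x.2 + c) = ((D.lift w x).1, (D.lift w x).2 + c) := by
  simp only [lift, Prod.mk.injEq, true_and]
  ring

open Classical in
theorem kern_shift (j : Fin r) (c : ℝ) (x y : Y C) :
    D.kern j (x.1, x.2 + c) (y.1, y.2 + c) = D.kern j x y := by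
  unfold kern kterm
  simp only [D.lift_shift]
  refine if_congr Iff.rfl rfl (Finset.sum_congr rfl fun e _ => if_congr ?_ rfl rfl)
  exact and_congr_right fun _ => by simp [Prod.ext_iff]

/-- The translation of the heights by the logarithm of two. -/
def shiftTwo (C : Ctx K) : Y C ≃ᵐ Y C :=
  (MeasurableEquiv.refl C.Spec).prodCongr (MeasurableEquiv.addRight (Real.log 2))

theorem shiftTwo_apply (x : Y C) : shiftTwo C x = (x.1, x.2 + Real.log 2) := rfl

theorem map_shiftTwo : D.skew.map (shiftTwo C) = (2 : ℝ≥0∞) • D.skew := by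
  refine Measure.ext fun S hS => ?_
  rw [Measure.map_apply (shiftTwo C).measurable hS, Measure.smul_apply, smul_eq_mul, skew,
    Measure.prod_apply ((shiftTwo C).measurable hS), Measure.prod_apply hS,
    ← lintegral_const_mul _ (measurable_measure_prodMk_left hS)]
  refine lintegral_congr fun χ => ?_
  have hs : MeasurableSet (Prod.mk χ ⁻¹' S) := measurable_prodMk_left hS
  have h := lintegral_expo_add ((Prod.mk χ ⁻¹' S).indicator 1) (measurable_one.indicator hs)
    (Real.log 2)
  rw [lintegral_indicator_one hs, Real.exp_log two_pos] at h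
  have e : (fun s : ℝ => (Prod.mk χ ⁻¹' S).indicator (1 : ℝ → ℝ≥0∞) (s + Real.log 2)) =
      (Prod.mk χ ⁻¹' (shiftTwo C ⁻¹' S)).indicator 1 := rfl
  rw [e, lintegral_indicator_one (measurable_prodMk_left ((shiftTwo C).measurable hS))] at h
  rw [h, ENNReal.ofReal_ofNat]

/-- The data of the leverage inequality. -/
def data : Leverage.Data D.rel r where
  ζ := D.ζ
  τ := D.τ
  R j x := D.R j x.1
  a j x := D.a j x.1
  N := D.kern
  t x := Real.exp x.2
  hζ := D.hζ
  hζ1 := D.hζ1
  hτ := D.hτ
  R_nonneg j x := D.R_nonneg j x.1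
  R_le j x := D.R_le j x.1
  R_meas j := (D.R j).continuous.measurable.comp measurable_fst
  a_lower j x := D.a_lower j x.1
  a_le j x := D.a_le j x.1
  a_meas j := (D.a j).continuous.measurable.comp measurable_fst
  N_kernel := D.isKernel_kern
  N_nonneg := D.kern_nonneg
  N_symm := D.kern_symm
  t_pos _ := Real.exp_pos _
  t_meas := Real.measurable_exp.comp measurable_snd
  row := D.kern_row
  Φ := shiftTwo C
  t_Φ x := by
    rw [shiftTwo_apply, Real.exp_add, Real.exp_log two_pos, mul_comm]
  R_Φ _ _ := rfl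
  a_Φ _ _ := rfl
  N_Φ j x y := by
    rw [shiftTwo_apply, shiftTwo_apply]
    exact D.kern_shift j _ x y
  μ_Φ := D.map_shiftTwo

/-- The translation of the heights. -/
def shiftBy (C : Ctx K) (c : ℝ) : Y C ≃ Y C := (Equiv.refl C.Spec).prodCongr (Equiv.addRight c)

theorem isScale_shiftBy (c : ℝ) : D.data.IsScale (Real.exp c) (shiftBy C c) :=
  ⟨fun x => by
    change Real.exp (x.2 + c) = Real.exp c * Real.exp x.2
    rw [Real.exp_add, mul_comm], fun _ _ => rfl, fun _ _ => rfl, fun j x y => D.kern_shift j c x y⟩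

end LossData

end Vale.Agent.P078.Expected
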